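import Vale.Agent.P277.H19.BR
import Mathlib.LinearAlgebra.Matrix.Transvection
import Mathlib.LinearAlgebra.Matrix.Rank

/-!
# P277: rank and adjugate of `4 × 4` matrices
-/

open scoped Topology ContDiff
open Vale.Agent.P272.K Set Filter Metric

noncomputable section

namespace Vale.Agent.P277.H19

theorem adjugate_mul_eq_zero_iff {P M Q : Matrix (Fin 4) (Fin 4) ℂ} (hP : P.det ≠ 0)
    (hQ : Q.det ≠ 0) : (P * M * Q).adjugate = 0 ↔ M.adjugate = 0 := by
  rw [Matrix.adjugate_mul_distrib, Matrix.adjugate_mul_distrib]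
  constructor
  · intro h
    have h1 : Q * (Q.adjugate * (M.adjugate * P.adjugate)) * P = 0 := by
      rw [h, Matrix.mul_zero, Matrix.zero_mul]
    have h2 : Q * (Q.adjugate * (M.adjugate * P.adjugate)) * P =
        (Q.det * P.det) • M.adjugate := by
      rw [← Matrix.mul_assoc Q, Matrix.mul_adjugate, Matrix.smul_mul, Matrix.one_mul,
        Matrix.smul_mul, Matrix.mul_assoc, Matrix.adjugate_mul, Matrix.mul_smul, Matrix.mul_one,
        smul_smul]
    rw [h2] at h1
    exact (smul_eq_zero.1 h1).resolve_left (mul_ne_zero hQ hP)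
  · intro h
    rw [h, Matrix.zero_mul, Matrix.mul_zero]

theorem adjugate_eq_zero_iff {M : Matrix (Fin 4) (Fin 4) ℂ} : M.adjugate = 0 ↔ M.rank ≤ 2 := by
  obtain ⟨L, L', D, hM⟩ := Matrix.Pivot.exists_list_transvec_mul_diagonal_mul_list_transvec M
  have hL : (L.map Matrix.TransvectionStruct.toMatrix).prod.det ≠ 0 := by
    rw [Matrix.TransvectionStruct.det_toMatrix_prod]; exact one_ne_zero
  have hL' : (L'.map Matrix.TransvectionStruct.toMatrix).prod.det ≠ 0 := by
    rw [Matrix.TransvectionStruct.det_toMatrix_prod]; exact one_ne_zero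
  have hr : M.rank = (Matrix.diagonal D).rank := by
    rw [hM, Matrix.rank_mul_eq_left_of_isUnit_det _ _ (isUnit_iff_ne_zero.2 hL'),
      Matrix.rank_mul_eq_right_of_isUnit_det _ _ (isUnit_iff_ne_zero.2 hL)]
  have ha : M.adjugate = 0 ↔ (Matrix.diagonal D).adjugate = 0 := by
    conv_lhs => rw [hM]
    exact adjugate_mul_eq_zero_iff hL hL'
  rw [hr, ha, Matrix.rank_diagonal, Matrix.adjugate_diagonal]
  have h1 : (Matrix.diagonal (fun i => ∏ j ∈ Finset.univ.erase i, D j) = 0) ↔
      ∀ i, ∃ j, j ≠ i ∧ D j = 0 := by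
    rw [← Matrix.diagonal_zero, Matrix.diagonal_eq_diagonal_iff]
    refine forall_congr' fun i => ?_
    simp [Finset.prod_eq_zero_iff]
  rw [h1]
  have h2 : Fintype.card {i // D i ≠ 0} = (Finset.univ.filter fun i => D i ≠ 0).card :=
    Fintype.card_subtype _
  rw [h2]
  constructor
  · intro h
    obtain ⟨i, -, hi⟩ := h 0
    obtain ⟨j, hji, hj⟩ := h i
    have h3 : (Finset.univ.filter fun i => D i ≠ 0) ⊆ (Finset.univ.erase i).erase j := by
      intro k hk
      simp only [Finset.mem_filter, Finset.mem_univ, true_and] at hk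
      simp only [Finset.mem_erase, Finset.mem_univ, and_true]
      exact ⟨fun hkj => hk (hkj ▸ hj), fun hki => hk (hki ▸ hi)⟩
    refine (Finset.card_le_card h3).trans ?_
    rw [Finset.card_erase_of_mem (by simp [hji]), Finset.card_erase_of_mem (Finset.mem_univ _)]
    simp
  · intro h i
    by_contra hcon
    push Not at hcon
    have h3 : Finset.univ.erase i ⊆ (Finset.univ.filter fun i => D i ≠ 0) := by
      intro j hj
      simp only [Finset.mem_filter, Finset.mem_univ, true_and]
      exact hcon j (Finset.ne_of_mem_erase hj)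
    have h4 := Finset.card_le_card h3
    rw [Finset.card_erase_of_mem (Finset.mem_univ _), Finset.card_univ, Fintype.card_fin] at h4
    exact absurd (h4.trans h) (by norm_num)

end Vale.Agent.P277.H19
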