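import Vale.Agent.P277.H622.B1

/-!
# P277: hypersurfaces are countable unions of injective images of open sets
-/

open scoped Manifold ContDiff Topology
open Vale.Agent.P272.K Set Filter

noncomputable section

namespace Vale.Agent.P277.H19

open H622

/-- local parametrisation of a smooth hypersurface -/
theorem exists_patch_inj {n : ℕ} {Ω : Set (Cm (n + 1))} (hΩ : IsOpen Ω) {f : Cm (n + 1) → ℂ}
    {p : Cm (n + 1)} (hp : p ∈ Ω) (hf : AnalyticAt ℂ f p) (h1 : fderiv ℂ f p ≠ 0) :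
    ∃ (N : Set (Cm (n + 1))) (W : Set (Cm n)) (g : Cm n → Cm (n + 1)), IsOpen N ∧ p ∈ N ∧
      IsOpen W ∧ InjOn g W ∧ (∀ q ∈ W, AnalyticAt ℂ g q ∧ g q ∈ Ω) ∧
      ∀ z ∈ N, f z = 0 → z ∈ g '' W := by
  obtain ⟨i, hi⟩ : ∃ i, fderiv ℂ f p (Pi.single i 1) ≠ 0 := by
    by_contra hcon
    push Not at hcon
    apply h1
    ext v
    have h2 : v = ∑ j, v j • (Pi.single j (1 : ℂ) : Cm (n + 1)) := by
      funext k
      simp [Finset.sum_apply, Pi.single_apply]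
    rw [h2]
    simp [map_sum, map_smul, hcon]
  let L : Cm (n + 1) ≃L[ℂ] Cm (n + 1) :=
    (LinearEquiv.ofInjectiveEndo (sliceLin (fderiv ℂ f p) i).toLinearMap
      (sliceLin_injective hi)).toContinuousLinearEquiv
  have hL : (L : Cm (n + 1) →L[ℂ] Cm (n + 1)) = sliceLin (fderiv ℂ f p) i := by
    ext v : 1
    rfl
  have hΦ : ContDiffAt ℂ ω (sliceMap f i) p := by
    rw [contDiffAt_pi]
    intro j
    refine Fin.cases ?_ (fun j => ?_) j
    · simpa [sliceMap] using hf.contDiffAt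
    · simp only [sliceMap, Fin.cons_succ]
      exact (contDiff_apply ℂ ℂ (i.succAbove j)).contDiffAt
  have hΦ' : HasFDerivAt (sliceMap f i) (L : Cm (n + 1) →L[ℂ] Cm (n + 1)) p := by
    rw [hL, hasFDerivAt_pi']
    intro j
    refine Fin.cases ?_ (fun j => ?_) j
    · simp only [sliceMap, Fin.cons_zero]
      have : (ContinuousLinearMap.proj (R := ℂ) (φ := fun _ : Fin (n + 1) => ℂ) 0).comp
          (sliceLin (fderiv ℂ f p) i) = fderiv ℂ f p := by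
        ext v; simp [sliceLin]
      rw [this]
      exact hf.differentiableAt.hasFDerivAt
    · simp only [sliceMap, Fin.cons_succ]
      have : (ContinuousLinearMap.proj (R := ℂ) (φ := fun _ : Fin (n + 1) => ℂ) j.succ).comp
          (sliceLin (fderiv ℂ f p) i) = ContinuousLinearMap.proj (i.succAbove j) := by
        ext v; simp [sliceLin]
      rw [this]
      exact (ContinuousLinearMap.proj (R := ℂ) (φ := fun _ : Fin (n + 1) => ℂ)
        (i.succAbove j)).hasFDerivAt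
  let Φ := hΦ.toOpenPartialHomeomorph (sliceMap f i) hΦ' (by simp)
  have hps : p ∈ Φ.source := hΦ.mem_toOpenPartialHomeomorph_source hΦ' (by simp)
  have hcoe : (Φ : Cm (n + 1) → Cm (n + 1)) = sliceMap f i := rfl
  have hsymm : ContDiffAt ℂ ω Φ.symm (sliceMap f i p) := hΦ.to_localInverse hΦ' (by simp)
  -- the domain of the parametrisation
  let T : Set (Cm (n + 1)) := Φ.target ∩ {w | AnalyticAt ℂ Φ.symm w} ∩ Φ.symm ⁻¹' Ω
  let T' : Set (Cm (n + 1)) := {w | w ∈ Φ.target ∧ AnalyticAt ℂ Φ.symm w ∧ Φ.symm w ∈ Ω}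
  have hT' : IsOpen T' := by
    rw [isOpen_iff_mem_nhds]
    intro w hw
    have h2 : ∀ᶠ u in 𝓝 w, u ∈ Φ.target := Φ.open_target.mem_nhds hw.1
    have h3 : ∀ᶠ u in 𝓝 w, AnalyticAt ℂ Φ.symm u := hw.2.1.eventually_analyticAt
    have h4 : ∀ᶠ u in 𝓝 w, Φ.symm u ∈ Ω := hw.2.1.continuousAt.eventually (hΩ.mem_nhds hw.2.2)
    filter_upwards [h2, h3, h4] with u a b c using ⟨a, b, c⟩
  have hcont : Continuous (fun q : Cm n => (Fin.cons (0 : ℂ) q : Cm (n + 1))) := by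
    refine continuous_pi fun j => ?_
    refine Fin.cases ?_ (fun j => ?_) j
    · simp only [Fin.cons_zero]; exact continuous_const
    · simp only [Fin.cons_succ]; exact continuous_apply j
  let W : Set (Cm n) := (fun q : Cm n => (Fin.cons (0 : ℂ) q : Cm (n + 1))) ⁻¹' T'
  let g : Cm n → Cm (n + 1) := fun q => Φ.symm (Fin.cons (0 : ℂ) q)
  let N : Set (Cm (n + 1)) := Φ.source ∩ Φ ⁻¹' T'
  have hN : IsOpen N := Φ.isOpen_inter_preimage hT'
  refine ⟨N, W, g, hN, ⟨hps, ?_⟩, hT'.preimage hcont, ?_, ?_, ?_⟩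
  · refine ⟨Φ.map_source hps, hsymm.analyticAt, ?_⟩
    rw [Φ.left_inv hps]
    exact hp
  · intro q hq q' hq' h
    have h1 := Φ.symm.injOn hq.1 hq'.1 h
    funext j
    have h2 := congrFun h1 j.succ
    simpa using h2
  · intro q hq
    refine ⟨?_, hq.2.2⟩
    have h5 : AnalyticAt ℂ (fun q : Cm n => (Fin.cons (0 : ℂ) q : Cm (n + 1))) q := by
      rw [analyticAt_pi_iff]
      intro j
      refine Fin.cases ?_ (fun j => ?_) j
      · simp only [Fin.cons_zero]; exact analyticAt_const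
      · simp only [Fin.cons_succ]
        exact (ContinuousLinearMap.proj (R := ℂ) (φ := fun _ : Fin n => ℂ) j).analyticAt q
    exact hq.2.1.comp_of_eq h5 rfl
  · intro z hz hfz
    have h6 : (Fin.cons (0 : ℂ) (fun j => z (i.succAbove j)) : Cm (n + 1)) = Φ z := by
      rw [hcoe]; simp only [sliceMap, hfz]
    refine ⟨fun j => z (i.succAbove j), ?_, ?_⟩
    · change (Fin.cons (0 : ℂ) (fun j => z (i.succAbove j)) : Cm (n + 1)) ∈ T'
      rw [h6]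
      exact hz.2
    · change Φ.symm (Fin.cons (0 : ℂ) (fun j => z (i.succAbove j)) : Cm (n + 1)) = z
      rw [h6, Φ.left_inv hz.1]

/-- A smooth hypersurface is covered by countably many patches. -/
theorem smooth_cover_inj {n : ℕ} {Ω : Set (Cm (n + 1))} (hΩ : IsOpen Ω) {f : Cm (n + 1) → ℂ}
    (hf : ∀ z ∈ Ω, AnalyticAt ℂ f z) :
    ∃ (W : ℕ → Set (Cm n)) (g : ℕ → Cm n → Cm (n + 1)), (∀ k, IsOpen (W k)) ∧ (∀ k, InjOn (g k) (W k)) ∧
      (∀ k, ∀ p ∈ W k, AnalyticAt ℂ (g k) p ∧ g k p ∈ Ω) ∧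
      {z | z ∈ Ω ∧ f z = 0 ∧ fderiv ℂ f z ≠ 0} ⊆ ⋃ k, g k '' W k := by
  classical
  set S : Set (Cm (n + 1)) := {z | z ∈ Ω ∧ f z = 0 ∧ fderiv ℂ f z ≠ 0} with hS
  have key : ∀ p : S, ∃ (N : Set (Cm (n + 1))) (W : Set (Cm n)) (g : Cm n → Cm (n + 1)),
      IsOpen N ∧ (p : Cm (n + 1)) ∈ N ∧
      IsOpen W ∧ InjOn g W ∧ (∀ q ∈ W, AnalyticAt ℂ g q ∧ g q ∈ Ω) ∧
      ∀ z ∈ N, f z = 0 → z ∈ g '' W := fun p =>
    exists_patch_inj hΩ p.2.1 (hf _ p.2.1) p.2.2.2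
  choose N W g hN hpN hW hgi hg hcov using key
  obtain ⟨T, hT, hTcov⟩ := TopologicalSpace.isOpen_iUnion_countable N hN
  have : Countable T := hT
  rcases isEmpty_or_nonempty T with hem | hne
  · refine ⟨fun _ => ∅, fun _ => 0, fun _ => isOpen_empty, fun _ => injOn_empty _, fun k p hp => hp.elim, ?_⟩
    intro z hz
    have h1 : z ∈ ⋃ p, N p := mem_iUnion.2 ⟨⟨z, hz⟩, hpN ⟨z, hz⟩⟩
    rw [← hTcov] at h1
    simp only [mem_iUnion] at h1
    obtain ⟨p, hp, _⟩ := h1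
    exact (hem.false ⟨p, hp⟩).elim
  · obtain ⟨enum, henum⟩ := exists_surjective_nat T
    refine ⟨fun k => W (enum k), fun k => g (enum k), fun k => hW _, fun k => hgi _, fun k p hp => hg _ p hp, ?_⟩
    intro z hz
    have h1 : z ∈ ⋃ p, N p := mem_iUnion.2 ⟨⟨z, hz⟩, hpN ⟨z, hz⟩⟩
    rw [← hTcov] at h1
    simp only [mem_iUnion] at h1
    obtain ⟨p, hp, hzp⟩ := h1
    obtain ⟨k, hk⟩ := henum ⟨p, hp⟩
    refine mem_iUnion.2 ⟨k, ?_⟩
    show z ∈ g (enum k) '' W (enum k)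
    rw [hk]
    exact hcov p z hzp hz.2.1

/-- hypersurfaces are countable unions of injective images of open subsets of `ℂ^n`. -/
theorem b1_inj {n : ℕ} {Ω : Set (Cm (n + 1))} {J : Cm (n + 1) → ℂ} (hΩ : IsOpen Ω)
    (hJ : ∀ z ∈ Ω, AnalyticAt ℂ J z) (hne : ∀ z ∈ Ω, ¬ J =ᶠ[𝓝 z] 0) :
    ∃ (W : ℕ → Set (Cm n)) (g : ℕ → Cm n → Cm (n + 1)), (∀ k, IsOpen (W k)) ∧
      (∀ k, InjOn (g k) (W k)) ∧ (∀ k, ∀ p ∈ W k, AnalyticAt ℂ (g k) p ∧ g k p ∈ Ω) ∧
      {z | z ∈ Ω ∧ J z = 0} ⊆ ⋃ k, g k '' W k := by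
  have key : ∀ c : ℕ × ℕ, ∃ (W : ℕ → Set (Cm n)) (g : ℕ → Cm n → Cm (n + 1)),
      (∀ k, IsOpen (W k)) ∧ (∀ k, InjOn (g k) (W k)) ∧
      (∀ k, ∀ p ∈ W k, AnalyticAt ℂ (g k) p ∧ g k p ∈ Ω) ∧
      {z | z ∈ Ω ∧ dirD J (TopologicalSpace.denseSeq (Cm (n + 1)) c.1) c.2 z = 0 ∧
        fderiv ℂ (dirD J (TopologicalSpace.denseSeq (Cm (n + 1)) c.1) c.2) z ≠ 0} ⊆
        ⋃ k, g k '' W k := fun c =>
    smooth_cover_inj hΩ fun z hz => analyticAt_dirD (hJ z hz) _ _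
  choose W g hW hgi hg hcov using key
  refine ⟨fun k => W (Nat.unpair (Nat.unpair k).1) (Nat.unpair k).2,
    fun k => g (Nat.unpair (Nat.unpair k).1) (Nat.unpair k).2, fun k => hW _ _,
    fun k => hgi _ _, fun k p hp => hg _ _ p hp, ?_⟩
  intro z hz
  obtain ⟨l, m, h1, h2⟩ := exists_dirD hΩ hJ hz.1 (hne z hz.1) hz.2
  have h3 := hcov (l, m) ⟨hz.1, h1, h2⟩
  simp only [mem_iUnion] at h3 ⊢
  obtain ⟨k, hk⟩ := h3
  refine ⟨Nat.pair (Nat.pair l m) k, ?_⟩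
  simpa using hk

end Vale.Agent.P277.H19
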