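import Vale.Agent.P277.H19.Loc
import Mathlib.Analysis.Complex.AbsMax
import Mathlib.Analysis.Calculus.InverseFunctionTheorem.ContDiff

/-!
# P277, package TX-BR: the Jacobian is bounded by products of differences of a separating function
-/

open scoped Topology ContDiff
open Vale.Agent.P272.K Set Filter Metric

noncomputable section

namespace Vale.Agent.P277.H19

/-! ### one variable -/

theorem exists_quot {f : ℂ → ℂ} {c : ℂ} {ρ R M : ℝ} (hρ : 0 < ρ) (hR : 2 * ρ < R)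
    (hf : DifferentiableOn ℂ f (ball c R)) (hM : ∀ t ∈ closedBall c (2 * ρ), ‖f t‖ ≤ M)
    (s : Finset ℂ) (hs : ∀ t ∈ s, t ∈ ball c ρ ∧ f t = 0) :
    ∃ u : ℂ → ℂ, DifferentiableOn ℂ u (ball c R) ∧
      (∀ t ∈ ball c R, f t = u t * ∏ a ∈ s, (t - a)) ∧
      ∀ t ∈ closedBall c (2 * ρ), ‖u t‖ ≤ M / ρ ^ s.card := by
  classical
  induction s using Finset.induction_on with
  | empty => exact ⟨f, hf, by simp, by simpa using hM⟩
  | insert a s ha ih =>
    obtain ⟨u, hu, h1, h2⟩ := ih fun t ht => hs t (Finset.mem_insert_of_mem ht)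
    obtain ⟨ha1, ha2⟩ := hs a (Finset.mem_insert_self _ _)
    have haR : a ∈ ball c R := ball_subset_ball (by linarith) ha1
    have hua : u a = 0 := by
      have h3 := h1 a haR
      rw [ha2] at h3
      rcases mul_eq_zero.1 h3.symm with h4 | h4
      · exact h4
      · obtain ⟨b, hb, hb0⟩ := Finset.prod_eq_zero_iff.1 h4
        rw [sub_eq_zero] at hb0
        exact absurd (hb0 ▸ hb) ha
    have hv : DifferentiableOn ℂ (dslope u a) (ball c R) :=
      (Complex.differentiableOn_dslope (isOpen_ball.mem_nhds haR)).2 hu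
    have huv : ∀ t, u t = dslope u a t * (t - a) := by
      intro t
      have := sub_smul_dslope u a t
      rw [hua, sub_zero, smul_eq_mul] at this
      rw [← this, mul_comm]
    refine ⟨dslope u a, hv, fun t ht => ?_, fun t ht => ?_⟩
    · rw [Finset.prod_insert ha, h1 t ht, huv t]
      ring
    · rw [Finset.card_insert_of_notMem ha]
      have hcl : closure (ball c (2 * ρ)) = closedBall c (2 * ρ) := closure_ball c (by positivity)
      refine Complex.norm_le_of_forall_mem_frontier_norm_le (U := ball c (2 * ρ)) isBounded_ball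
        ⟨hv.mono (ball_subset_ball hR.le), ?_⟩ ?_ (by rwa [hcl])
      · rw [hcl]
        exact (hv.mono (closedBall_subset_ball hR)).continuousOn
      · intro z hz
        rw [frontier_ball c (by positivity)] at hz
        have hz' : dist z c = 2 * ρ := hz
        have hza : ρ ≤ ‖z - a‖ := by
          have h3 : dist z c ≤ dist z a + dist a c := dist_triangle _ _ _
          rw [← dist_eq_norm]
          linarith [mem_ball.1 ha1]
        have h3 : ‖dslope u a z‖ * ‖z - a‖ ≤ M / ρ ^ s.card := by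
          rw [← norm_mul, ← huv]
          exact h2 z (by rw [mem_closedBall, hz'])
        rw [pow_succ, ← div_div, le_div_iff₀ hρ]
        exact (mul_le_mul_of_nonneg_left hza (norm_nonneg _)).trans h3

theorem norm_deriv_le {f : ℂ → ℂ} {c : ℂ} {ρ R M : ℝ} (hρ : 0 < ρ) (hR : 2 * ρ < R)
    (hf : DifferentiableOn ℂ f (ball c R)) (hM : ∀ t ∈ closedBall c (2 * ρ), ‖f t‖ ≤ M)
    (s : Finset ℂ) (hs : ∀ t ∈ s, t ∈ ball c ρ ∧ f t = 0) {t : ℂ} (ht : t ∈ s) :
    ‖deriv f t‖ ≤ M / ρ ^ s.card * ∏ a ∈ s.erase t, ‖t - a‖ := by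
  classical
  obtain ⟨u, hu, h1, h2⟩ := exists_quot hρ hR hf hM s hs
  have htρ := (hs t ht).1
  have htR : t ∈ ball c R := ball_subset_ball (by linarith) htρ
  set w : ℂ → ℂ := fun z => u z * ∏ a ∈ s.erase t, (z - a) with hw
  have hwd : DifferentiableAt ℂ w t := by
    refine (hu.differentiableAt (isOpen_ball.mem_nhds htR)).mul ?_
    exact DifferentiableAt.fun_finsetProd fun a _ => by fun_prop
  have hfw : f =ᶠ[𝓝 t] fun z => (z - t) * w z := by
    filter_upwards [isOpen_ball.mem_nhds htR] with z hz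
    rw [h1 z hz, ← Finset.mul_prod_erase s _ ht]
    simp only [hw]
    ring
  have h3 : HasDerivAt (fun z => (z - t) * w z) (1 * w t + (t - t) * deriv w t) t :=
    ((hasDerivAt_id t).sub_const t).mul hwd.hasDerivAt
  rw [hfw.deriv_eq, h3.deriv, sub_self, zero_mul, add_zero, one_mul]
  simp only [hw, norm_mul, norm_prod]
  refine mul_le_mul_of_nonneg_right (h2 t ?_) (Finset.prod_nonneg fun _ _ => norm_nonneg _)
  exact ball_subset_closedBall (ball_subset_ball (by linarith) htρ)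

/-! ### the equation of the image of an immersion `ℂ⁴ → ℂ⁵` -/

theorem exists_kappa {G : Cm 4 → Cm 4} {l : Cm 4 → ℂ} {p : Cm 4} (hG : AnalyticAt ℂ G p)
    (hl : AnalyticAt ℂ l p) (hinj : ∀ h, fderiv ℂ G p h = 0 → fderiv ℂ l p h = 0 → h = 0) :
    ∃ (κ : Cm 4 × ℂ → ℂ) (C : ℝ) (U : Set (Cm 4)), AnalyticAt ℂ κ (G p, l p) ∧ U ∈ 𝓝 p ∧
      InjOn (fun x => (G x, l x)) U ∧ ∀ x ∈ U, κ (G x, l x) = 0 ∧
        ‖(fderiv ℂ G x).det‖ ≤ C * ‖fderiv ℂ κ (G x, l x) (0, 1)‖ := by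
  have hG' := hG.hasStrictFDerivAt
  have hl' := hl.hasStrictFDerivAt
  set DF : Cm 4 →L[ℂ] Cm 4 × ℂ := (fderiv ℂ G p).prod (fderiv ℂ l p) with hDF
  have hDFi : LinearMap.ker (DF : Cm 4 →ₗ[ℂ] Cm 4 × ℂ) = ⊥ := by
    rw [LinearMap.ker_eq_bot']
    intro h hh
    have h1 : (fderiv ℂ G p h, fderiv ℂ l p h) = (0, 0) := hh
    exact hinj h (Prod.ext_iff.1 h1).1 (Prod.ext_iff.1 h1).2
  obtain ⟨ν, hν⟩ : ∃ ν : Cm 4 × ℂ, ν ∉ LinearMap.range (DF : Cm 4 →ₗ[ℂ] Cm 4 × ℂ) := by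
    by_contra hcon
    push Not at hcon
    have h1 : LinearMap.range (DF : Cm 4 →ₗ[ℂ] Cm 4 × ℂ) = ⊤ := by
      rw [eq_top_iff]; exact fun x _ => hcon x
    have h2 := LinearMap.finrank_range_add_finrank_ker (DF : Cm 4 →ₗ[ℂ] Cm 4 × ℂ)
    rw [h1, hDFi, finrank_top, finrank_bot] at h2
    simp at h2
  set Φ : Cm 4 × ℂ → Cm 4 × ℂ := fun y => (G y.1, l y.1) + y.2 • ν with hΦ
  have hΦan : ∀ x : Cm 4, AnalyticAt ℂ G x → AnalyticAt ℂ l x → ∀ s : ℂ, AnalyticAt ℂ Φ (x, s) := by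
    intro x h1 h2 s
    have h3 : AnalyticAt ℂ (fun y : Cm 4 × ℂ => y.1) (x, s) := analyticAt_fst
    have h4 : AnalyticAt ℂ (fun y : Cm 4 × ℂ => y.2) (x, s) := analyticAt_snd
    exact ((h1.comp_of_eq h3 rfl).prod (h2.comp_of_eq h3 rfl)).add (h4.smul analyticAt_const)
  have hΦd : ∀ x : Cm 4, AnalyticAt ℂ G x → AnalyticAt ℂ l x → HasFDerivAt Φ
      ((((fderiv ℂ G x).prod (fderiv ℂ l x)).comp (ContinuousLinearMap.fst ℂ (Cm 4) ℂ)) +
        (ContinuousLinearMap.snd ℂ (Cm 4) ℂ).smulRight ν) (x, 0) := by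
    intro x h1 h2
    have h3 : HasFDerivAt (fun y : Cm 4 × ℂ => y.1) (ContinuousLinearMap.fst ℂ (Cm 4) ℂ) (x, (0:ℂ)) :=
      hasFDerivAt_fst
    have h4 : HasFDerivAt (fun y : Cm 4 × ℂ => y.2) (ContinuousLinearMap.snd ℂ (Cm 4) ℂ) (x, (0:ℂ)) :=
      hasFDerivAt_snd
    have h5 : HasFDerivAt (fun x => (G x, l x)) ((fderiv ℂ G x).prod (fderiv ℂ l x)) x :=
      h1.differentiableAt.hasFDerivAt.prodMk h2.differentiableAt.hasFDerivAt
    exact (h5.comp (x, (0 : ℂ)) h3).add (h4.smul_const ν)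
  have hA := hΦd p hG hl
  set A := (((fderiv ℂ G p).prod (fderiv ℂ l p)).comp (ContinuousLinearMap.fst ℂ (Cm 4) ℂ)) +
        (ContinuousLinearMap.snd ℂ (Cm 4) ℂ).smulRight ν with hAdef
  have hAi : Function.Injective A := by
    rw [injective_iff_map_eq_zero]
    rintro ⟨h, s⟩ hh
    have h1 : DF h + s • ν = 0 := hh
    have hs : s = 0 := by
      by_contra hs
      refine hν ⟨-s⁻¹ • h, ?_⟩
      have h2 : DF (-s⁻¹ • h) = -s⁻¹ • DF h := map_smul _ _ _
      change DF (-s⁻¹ • h) = ν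
      rw [h2, eq_neg_of_add_eq_zero_left h1, smul_neg, neg_smul, neg_neg, smul_smul,
        inv_mul_cancel₀ hs, one_smul]
    subst hs
    rw [zero_smul, add_zero] at h1
    have h2 : h = 0 := by
      have h3 : h ∈ LinearMap.ker (DF : Cm 4 →ₗ[ℂ] Cm 4 × ℂ) := h1
      rw [hDFi] at h3
      exact h3
    rw [h2]; rfl
  set A' : (Cm 4 × ℂ) ≃L[ℂ] (Cm 4 × ℂ) :=
    (LinearEquiv.ofInjectiveEndo (A : (Cm 4 × ℂ) →ₗ[ℂ] (Cm 4 × ℂ)) hAi).toContinuousLinearEquiv
    with hA'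
  have hA'A : (A' : (Cm 4 × ℂ) →L[ℂ] (Cm 4 × ℂ)) = A := by
    ext x <;> rfl
  have hΦp : AnalyticAt ℂ Φ (p, 0) := hΦan p hG hl 0
  have hcd : ContDiffAt ℂ ω Φ (p, 0) := hΦp.contDiffAt
  have hA'' : HasFDerivAt Φ (A' : (Cm 4 × ℂ) →L[ℂ] (Cm 4 × ℂ)) (p, 0) := by rw [hA'A]; exact hA
  set e := hcd.toOpenPartialHomeomorph Φ hA'' (by simp) with he
  have heΦ : ∀ y, e y = Φ y := fun y => rfl
  have hsrc : ((p, 0) : Cm 4 × ℂ) ∈ e.source := hcd.mem_toOpenPartialHomeomorph_source hA'' (by simp)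
  have hΦ0 : ∀ x, Φ (x, 0) = (G x, l x) := by
    intro x; simp [hΦ]
  have hinv : ContDiffAt ℂ ω (e.symm) (G p, l p) := by
    have := hcd.to_localInverse hA'' (by simp)
    rw [hΦ0] at this
    exact this
  have hinvA : AnalyticAt ℂ e.symm (G p, l p) := hinv.analyticAt
  set κ : Cm 4 × ℂ → ℂ := fun y => (e.symm y).2 with hκ
  have hκA : AnalyticAt ℂ κ (G p, l p) := analyticAt_snd.comp_of_eq hinvA rfl
  -- the neighbourhood
  set adj : Cm 4 → Matrix (Fin 4) (Fin 4) ℂ := fun x =>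
    (Matrix.of fun i j => fderiv ℂ G x (Pi.single j 1) i).adjugate with hadj
  have hent : ∀ i j, ContinuousAt (fun x => fderiv ℂ G x (Pi.single j 1) i) p := by
    intro i j
    have h2 : ContinuousAt (fun x => fderiv ℂ G x (Pi.single j 1)) p :=
      ContinuousAt.clm_apply hG.fderiv.continuousAt continuousAt_const
    exact (continuousAt_pi.1 h2) i
  have hMc : ContinuousAt (fun x => (Matrix.of fun i j => fderiv ℂ G x (Pi.single j 1) i :
      Matrix (Fin 4) (Fin 4) ℂ)) p :=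
    continuousAt_pi.2 fun i => continuousAt_pi.2 fun j => hent i j
  have hadjc : ContinuousAt adj p := ContinuousAt.comp (g := Matrix.adjugate)
    (Continuous.matrix_adjugate continuous_id).continuousAt hMc
  have hvc : ContinuousAt (fun x => ‖(adj x).mulVec ν.1‖) p := by
    have h1 : Continuous fun M : Matrix (Fin 4) (Fin 4) ℂ => M.mulVec ν.1 :=
      Continuous.matrix_mulVec continuous_id continuous_const
    exact (ContinuousAt.comp (g := fun M : Matrix (Fin 4) (Fin 4) ℂ => M.mulVec ν.1)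
      h1.continuousAt hadjc).norm
  have hdc : ContinuousAt (fun x => ‖(fderiv ℂ G x).det‖) p := (analyticAt_det hG).continuousAt.norm
  have hlc : ContinuousAt (fun x => ‖fderiv ℂ l x‖) p := hl.fderiv.continuousAt.norm
  set K₁ : ℝ := ‖(adj p).mulVec ν.1‖ + 1 with hK₁
  set K₂ : ℝ := ‖(fderiv ℂ G p).det‖ + 1 with hK₂
  set K₃ : ℝ := ‖fderiv ℂ l p‖ + 1 with hK₃
  have c1 : ∀ᶠ x in 𝓝 p, ‖(adj x).mulVec ν.1‖ < K₁ := hvc.eventually_lt_const (by linarith)
  have c2 : ∀ᶠ x in 𝓝 p, ‖(fderiv ℂ G x).det‖ < K₂ := hdc.eventually_lt_const (by linarith)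
  have c3 : ∀ᶠ x in 𝓝 p, ‖fderiv ℂ l x‖ < K₃ := hlc.eventually_lt_const (by linarith)
  have c4 : ∀ᶠ x in 𝓝 p, ((x, 0) : Cm 4 × ℂ) ∈ e.source := by
    have h1 : ContinuousAt (fun x : Cm 4 => ((x, 0) : Cm 4 × ℂ)) p := by fun_prop
    exact h1.eventually_mem (e.open_source.mem_nhds hsrc)
  have hFc : ContinuousAt (fun x => (G x, l x)) p := hG.continuousAt.prodMk hl.continuousAt
  have c5 : ∀ᶠ x in 𝓝 p, AnalyticAt ℂ e.symm (G x, l x) :=
    hFc.eventually hinvA.eventually_analyticAt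
  refine ⟨κ, K₃ * K₁ + K₂ * ‖ν.2‖, {x | ‖(adj x).mulVec ν.1‖ < K₁ ∧ ‖(fderiv ℂ G x).det‖ < K₂ ∧
    ‖fderiv ℂ l x‖ < K₃ ∧ ((x, 0) : Cm 4 × ℂ) ∈ e.source ∧ AnalyticAt ℂ e.symm (G x, l x) ∧
    AnalyticAt ℂ G x ∧ AnalyticAt ℂ l x}, hκA, ?_, ?_, ?_⟩
  · filter_upwards [c1, c2, c3, c4, c5, hG.eventually_analyticAt, hl.eventually_analyticAt]
      with x h1 h2 h3 h4 h5 h6 h7 using ⟨h1, h2, h3, h4, h5, h6, h7⟩
  · intro x hx x' hx' hxx'
    have h1 : e (x, 0) = e (x', 0) := by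
      rw [heΦ, heΦ, hΦ0, hΦ0]; exact hxx'
    have h2 := e.injOn hx.2.2.2.1 hx'.2.2.2.1 h1
    exact (Prod.ext_iff.1 h2).1
  · rintro x ⟨h1, h2, h3, h4, h5, h6, h7⟩
    have hex : e.symm (G x, l x) = (x, 0) := by
      rw [← hΦ0, ← heΦ]; exact e.left_inv h4
    refine ⟨by simp only [hκ, hex], ?_⟩
    -- the derivative of the inverse
    set B := fderiv ℂ e.symm (G x, l x) with hB
    have hBd : HasFDerivAt e.symm B (G x, l x) := h5.differentiableAt.hasFDerivAt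
    have hcomp : HasFDerivAt (fun y => Φ (e.symm y))
        (((((fderiv ℂ G x).prod (fderiv ℂ l x)).comp (ContinuousLinearMap.fst ℂ (Cm 4) ℂ)) +
        (ContinuousLinearMap.snd ℂ (Cm 4) ℂ).smulRight ν).comp B) (G x, l x) := by
      refine HasFDerivAt.comp (G x, l x) (g := Φ) (f := e.symm) ?_ hBd
      rw [hex]; exact hΦd x h6 h7
    have hid : HasFDerivAt (fun y => Φ (e.symm y)) (ContinuousLinearMap.id ℂ (Cm 4 × ℂ))
        (G x, l x) := by
      refine (hasFDerivAt_id _).congr_of_eventuallyEq ?_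
      have h8 : (G x, l x) ∈ e.target := by
        rw [← hΦ0, ← heΦ]; exact e.map_source h4
      filter_upwards [e.open_target.mem_nhds h8] with y hy
      rw [← heΦ, e.right_inv hy]; rfl
    have h8 := DFunLike.congr_fun (hcomp.unique hid) (0, 1)
    set a := B (0, 1) with ha
    have h9 : (fderiv ℂ G x a.1, fderiv ℂ l x a.1) + a.2 • ν = (0, 1) := h8
    have h10 : fderiv ℂ G x a.1 + a.2 • ν.1 = 0 := (Prod.ext_iff.1 h9).1
    have h11 : fderiv ℂ l x a.1 + a.2 * ν.2 = 1 := (Prod.ext_iff.1 h9).2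
    have hκd : fderiv ℂ κ (G x, l x) (0, 1) = a.2 := by
      have h12 : HasFDerivAt κ ((ContinuousLinearMap.snd ℂ (Cm 4) ℂ).comp B) (G x, l x) :=
        hasFDerivAt_snd.comp (G x, l x) hBd
      rw [h12.fderiv]; rfl
    rw [hκd]
    set Mx : Matrix (Fin 4) (Fin 4) ℂ := Matrix.of fun i j => fderiv ℂ G x (Pi.single j 1) i with hMx
    have hMv : ∀ h : Cm 4, Mx.mulVec h = fderiv ℂ G x h := by
      intro h
      have : Mx = LinearMap.toMatrix' (fderiv ℂ G x : Cm 4 →ₗ[ℂ] Cm 4) := by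
        ext i j
        rw [LinearMap.toMatrix'_apply]
        simp only [hMx, Matrix.of_apply]
        congr 1
      rw [this, LinearMap.toMatrix'_mulVec]
      rfl
    have h12 : (fderiv ℂ G x).det • a.1 = -(a.2 • (adj x).mulVec ν.1) := by
      have h13 : (adj x).mulVec (Mx.mulVec a.1) = (fderiv ℂ G x).det • a.1 := by
        rw [Matrix.mulVec_mulVec, det_eq_toMatrix]
        simp only [hadj]
        rw [← hMx, Matrix.adjugate_mul, Matrix.smul_mulVec, Matrix.one_mulVec]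
      rw [← h13, hMv, eq_neg_of_add_eq_zero_left h10, Matrix.mulVec_neg, Matrix.mulVec_smul]
    have h13 : ‖(fderiv ℂ G x).det‖ * ‖a.1‖ ≤ ‖a.2‖ * K₁ := by
      rw [← norm_smul, h12, norm_neg, norm_smul]
      exact mul_le_mul_of_nonneg_left h1.le (norm_nonneg _)
    have h14 : 1 ≤ K₃ * ‖a.1‖ + ‖a.2‖ * ‖ν.2‖ := by
      have h15 : (1 : ℝ) = ‖fderiv ℂ l x a.1 + a.2 * ν.2‖ := by rw [h11, norm_one]
      rw [h15]
      refine (norm_add_le _ _).trans (add_le_add ?_ (norm_mul _ _).le)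
      exact ((fderiv ℂ l x).le_opNorm _).trans (mul_le_mul_of_nonneg_right h3.le (norm_nonneg _))
    have hK₃0 : 0 ≤ K₃ := by positivity
    calc ‖(fderiv ℂ G x).det‖ = ‖(fderiv ℂ G x).det‖ * 1 := (mul_one _).symm
      _ ≤ ‖(fderiv ℂ G x).det‖ * (K₃ * ‖a.1‖ + ‖a.2‖ * ‖ν.2‖) := by gcongr
      _ = K₃ * (‖(fderiv ℂ G x).det‖ * ‖a.1‖) + ‖(fderiv ℂ G x).det‖ * (‖a.2‖ * ‖ν.2‖) := by ring
      _ ≤ K₃ * (‖a.2‖ * K₁) + K₂ * (‖a.2‖ * ‖ν.2‖) := by gcongr
      _ = (K₃ * K₁ + K₂ * ‖ν.2‖) * ‖a.2‖ := by ring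

/-- **TX-BR, local form.** -/
theorem norm_det_le_prod {G : Cm 4 → Cm 4} {l : Cm 4 → ℂ} {p : Cm 4} (hG : AnalyticAt ℂ G p)
    (hl : AnalyticAt ℂ l p) (hinj : ∀ h, fderiv ℂ G p h = 0 → fderiv ℂ l p h = 0 → h = 0)
    (d : ℕ) :
    ∃ (C : ℝ) (U : Set (Cm 4)), 0 ≤ C ∧ U ∈ 𝓝 p ∧ InjOn (fun x => (G x, l x)) U ∧
      ∀ s : Finset (Cm 4), s.card ≤ d → (∀ x ∈ s, x ∈ U) → (∀ x ∈ s, ∀ x' ∈ s, G x = G x') →
        ∀ x ∈ s, ‖(fderiv ℂ G x).det‖ ≤ C * ∏ x' ∈ s.erase x, ‖l x - l x'‖ := by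
  classical
  obtain ⟨κ, C, U, hκ, hU, hUinj, hUκ⟩ := exists_kappa hG hl hinj
  -- a product neighbourhood
  obtain ⟨R, hR, hκR⟩ := Metric.eventually_nhds_iff_ball.1 hκ.eventually_analyticAt
  have hprod : ∀ z : Cm 4, ∀ t : ℂ, z ∈ ball (G p) R → t ∈ ball (l p) R →
      AnalyticAt ℂ κ (z, t) := fun z t hz ht => hκR _ (by
    rw [← ball_prod_same]; exact ⟨hz, ht⟩)
  set ρ : ℝ := min (R / 4) 1 with hρ
  have hρ0 : 0 < ρ := by positivity
  have hρ1 : ρ ≤ 1 := min_le_right _ _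
  have hρR : 2 * ρ < R := by
    have : ρ ≤ R / 4 := min_le_left _ _
    linarith
  have hcomp : IsCompact (closedBall (G p) (R / 2) ×ˢ closedBall (l p) (2 * ρ)) :=
    (isCompact_closedBall _ _).prod (isCompact_closedBall _ _)
  obtain ⟨M, hM⟩ := hcomp.exists_bound_of_continuousOn (f := κ) fun y hy =>
    (hprod y.1 y.2 (closedBall_subset_ball (by linarith) hy.1)
      (closedBall_subset_ball hρR hy.2)).continuousAt.continuousWithinAt
  have hM0 : 0 ≤ M := (norm_nonneg _).trans (hM (G p, l p)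
    ⟨mem_closedBall_self (by positivity), mem_closedBall_self (by positivity)⟩)
  have hU2 : {x | x ∈ U ∧ G x ∈ ball (G p) (R / 2) ∧ l x ∈ ball (l p) ρ} ∈ 𝓝 p := by
    filter_upwards [hU, hG.continuousAt.eventually_mem (ball_mem_nhds (G p) (half_pos hR)),
      hl.continuousAt.eventually_mem (ball_mem_nhds _ hρ0)] with x h1 h2 h3 using ⟨h1, h2, h3⟩
  refine ⟨|C| * (M / ρ ^ d), _, by positivity, hU2, hUinj.mono fun x hx => hx.1, ?_⟩
  intro s hsd hsU hsG x hx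
  obtain ⟨h1, h2⟩ := hUκ x (hsU x hx).1
  have hinjs : InjOn l s := by
    intro y hy y' hy' hyy'
    exact hUinj (hsU y hy).1 (hsU y' hy').1 (Prod.ext (hsG y hy y' hy') hyy')
  have hcard : (s.image l).card = s.card := Finset.card_image_of_injOn hinjs
  have hf : DifferentiableOn ℂ (fun t => κ (G x, t)) (ball (l p) R) := by
    intro t ht
    have h3 := hprod (G x) t (ball_subset_ball (by linarith) (hsU x hx).2.1) ht
    have h4 : DifferentiableAt ℂ (fun t : ℂ => ((G x, t) : Cm 4 × ℂ)) t := by fun_prop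
    exact (DifferentiableAt.comp (g := κ) t h3.differentiableAt h4).differentiableWithinAt
  have h3 := norm_deriv_le (f := fun t => κ (G x, t)) (c := l p) hρ0 hρR hf
    (fun t ht => hM _ ⟨ball_subset_closedBall (hsU x hx).2.1, ht⟩) (s.image l) (by
      intro t ht
      obtain ⟨y, hy, rfl⟩ := Finset.mem_image.1 ht
      refine ⟨(hsU y hy).2.2, ?_⟩
      rw [hsG x hx y hy]
      exact (hUκ y (hsU y hy).1).1) (Finset.mem_image_of_mem l hx)
  have h4 : deriv (fun t => κ (G x, t)) (l x) = fderiv ℂ κ (G x, l x) (0, 1) := by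
    have h5 := hprod (G x) (l x) (ball_subset_ball (by linarith) (hsU x hx).2.1)
      (ball_subset_ball (by linarith) (hsU x hx).2.2)
    have h6 : HasDerivAt (fun t : ℂ => ((G x, t) : Cm 4 × ℂ)) (0, 1) (l x) :=
      (hasDerivAt_const _ _).prodMk (hasDerivAt_id _)
    exact (h5.differentiableAt.hasFDerivAt.comp_hasDerivAt (l x) h6).deriv
  have h5 : ∏ a ∈ (s.image l).erase (l x), ‖l x - a‖ = ∏ x' ∈ s.erase x, ‖l x - l x'‖ := by
    have h6 : (s.image l).erase (l x) = (s.erase x).image l := by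
      ext a
      simp only [Finset.mem_erase, Finset.mem_image, ne_eq]
      constructor
      · rintro ⟨h7, y, hy, rfl⟩
        exact ⟨y, ⟨fun h8 => h7 (by rw [h8]), hy⟩, rfl⟩
      · rintro ⟨y, ⟨h7, hy⟩, rfl⟩
        exact ⟨fun h8 => h7 (hinjs hy hx h8), y, hy, rfl⟩
    rw [h6, Finset.prod_image fun y hy y' hy' h => hinjs (Finset.mem_of_mem_erase hy)
      (Finset.mem_of_mem_erase hy') h]
  rw [h4, hcard, h5] at h3
  have h6 : M / ρ ^ s.card ≤ M / ρ ^ d :=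
    div_le_div_of_nonneg_left hM0 (pow_pos hρ0 _) (pow_le_pow_of_le_one hρ0.le hρ1 hsd)
  have h7 : 0 ≤ ∏ x' ∈ s.erase x, ‖l x - l x'‖ := Finset.prod_nonneg fun _ _ => norm_nonneg _
  calc ‖(fderiv ℂ G x).det‖ ≤ C * ‖fderiv ℂ κ (G x, l x) (0, 1)‖ := h2
    _ ≤ |C| * ‖fderiv ℂ κ (G x, l x) (0, 1)‖ := by gcongr; exact le_abs_self C
    _ ≤ |C| * (M / ρ ^ s.card * ∏ x' ∈ s.erase x, ‖l x - l x'‖) := by gcongr
    _ ≤ |C| * (M / ρ ^ d * ∏ x' ∈ s.erase x, ‖l x - l x'‖) := by gcongr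
    _ = |C| * (M / ρ ^ d) * ∏ x' ∈ s.erase x, ‖l x - l x'‖ := by ring

end Vale.Agent.P277.H19
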