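import Vale.Agent.P277.H19.Adj
import Vale.Agent.P277.Stmts4
import Vale.Agent.P277.H29.D5

/-!
# P277, package TX-BR: products of Jacobians and discriminants
-/

open scoped Manifold Topology ContDiff
open Vale.Agent.P272.K Vale.Agent.P285.H281.FD Set Filter Metric

noncomputable section

namespace Vale.Agent.P277.H19

open TX

/-- indexed version of `norm_det_le_prod` -/
theorem norm_det_le_prod' {G : Cm 4 → Cm 4} {l : Cm 4 → ℂ} {p : Cm 4} (hG : AnalyticAt ℂ G p)
    (hl : AnalyticAt ℂ l p) (hinj : ∀ h, fderiv ℂ G p h = 0 → fderiv ℂ l p h = 0 → h = 0)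
    (d : ℕ) :
    ∃ (C : ℝ) (U : Set (Cm 4)), 0 ≤ C ∧ U ∈ 𝓝 p ∧
      ∀ (t : Finset (Fin d)) (q : Fin d → Cm 4), InjOn q t → (∀ a ∈ t, q a ∈ U) →
        (∀ a ∈ t, ∀ b ∈ t, G (q a) = G (q b)) →
        ∀ k ∈ t, ‖(fderiv ℂ G (q k)).det‖ ≤ C * ∏ a ∈ t.erase k, ‖l (q k) - l (q a)‖ := by
  classical
  obtain ⟨C, U, hC, hU, -, h⟩ := norm_det_le_prod hG hl hinj d
  refine ⟨C, U, hC, hU, fun t q hq htU htG k hk => ?_⟩
  have h1 := h (t.image q) (Finset.card_image_le.trans (by simpa using t.card_le_univ)) (by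
    intro x hx
    obtain ⟨a, ha, rfl⟩ := Finset.mem_image.1 hx
    exact htU a ha) (by
    intro x hx x' hx'
    obtain ⟨a, ha, rfl⟩ := Finset.mem_image.1 hx
    obtain ⟨b, hb, rfl⟩ := Finset.mem_image.1 hx'
    exact htG a ha b hb) (q k) (Finset.mem_image_of_mem q hk)
  have h2 : (t.image q).erase (q k) = (t.erase k).image q := by
    ext a
    simp only [Finset.mem_erase, Finset.mem_image, ne_eq]
    constructor
    · rintro ⟨h7, y, hy, rfl⟩
      exact ⟨y, ⟨fun h8 => h7 (by rw [h8]), hy⟩, rfl⟩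
    · rintro ⟨y, ⟨h7, hy⟩, rfl⟩
      exact ⟨fun h8 => h7 (hq hy hk h8), y, hy, rfl⟩
  rw [h2, Finset.prod_image fun a ha b hb hab => hq (Finset.mem_of_mem_erase ha)
    (Finset.mem_of_mem_erase hb) hab] at h1
  exact h1

/-- the matrix of a linear map -/
def mat (L : Cm 4 →L[ℂ] Cm 4) : Matrix (Fin 4) (Fin 4) ℂ := Matrix.of fun i j => L (Pi.single j 1) i

theorem mat_eq (L : Cm 4 →L[ℂ] Cm 4) : mat L = LinearMap.toMatrix' (L : Cm 4 →ₗ[ℂ] Cm 4) := by
  ext i j
  rw [LinearMap.toMatrix'_apply]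
  simp only [mat, Matrix.of_apply]
  congr 1

theorem mat_mulVec (L : Cm 4 →L[ℂ] Cm 4) (h : Cm 4) : (mat L).mulVec h = L h := by
  rw [mat_eq, LinearMap.toMatrix'_mulVec]; rfl

theorem rank_mat (L : Cm 4 →L[ℂ] Cm 4) :
    (mat L).rank = Module.finrank ℂ (LinearMap.range (L : Cm 4 →ₗ[ℂ] Cm 4)) := by
  rw [Matrix.rank]
  have h1 : (mat L).mulVecLin = (L : Cm 4 →ₗ[ℂ] Cm 4) := LinearMap.ext fun h => mat_mulVec L h
  rw [h1]

/-- a linear form not vanishing on a column of the adjugate separates the kernel -/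
theorem eq_zero_of_adj {L : Cm 4 →L[ℂ] Cm 4} {l : Cm 4 →L[ℂ] ℂ} {i : Fin 4}
    (hl : l (fun j => (mat L).adjugate j i) ≠ 0) {h : Cm 4} (hL : L h = 0) (hlh : l h = 0) :
    h = 0 := by
  set b : Fin 4 → ℂ := fun j => l (Pi.single j 1) with hb
  have hlb : ∀ x : Cm 4, l x = ∑ j, b j * x j := by
    intro x
    conv_lhs => rw [pi_eq_sum_univ' x]
    rw [map_sum]
    refine Finset.sum_congr rfl fun j _ => ?_
    rw [map_smul, smul_eq_mul, mul_comm]
  set R := (mat L).updateRow i b with hR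
  have hdet : R.det = l (fun j => (mat L).adjugate j i) := by
    have h1 : R.det = ((mat L).transpose.updateCol i b).det := by
      rw [Matrix.updateCol_transpose, Matrix.det_transpose]
    rw [h1, ← Matrix.cramer_apply, Matrix.cramer_eq_adjugate_mulVec, ← Matrix.adjugate_transpose,
      hlb]
    simp only [Matrix.mulVec, dotProduct, Matrix.transpose_apply]
    exact Finset.sum_congr rfl fun j _ => mul_comm _ _
  have hRh : R.mulVec h = 0 := by
    ext k
    by_cases hk : k = i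
    · subst hk
      simp only [hR, Matrix.mulVec, Matrix.updateRow_self, dotProduct, Pi.zero_apply]
      rw [← hlb, hlh]
    · have h2 := congrFun (mat_mulVec L h) k
      rw [hL] at h2
      simp only [hR, Matrix.mulVec, Matrix.updateRow_ne hk, Pi.zero_apply] at h2 ⊢
      exact h2
  exact Matrix.eq_zero_of_mulVec_eq_zero (by rw [hdet]; exact hl) hRh

/-! ### branched coverings -/

variable {X : CSp} {V : Set X.pt} {G : X.pt → Cm 4} {c : Cm 4} {r : ℝ} {d : ℕ} {lam : X.pt → ℂ}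
  {θ : Cm 4 → ℂ}

theorem cov_continuousAt (h : IsCov X V G c r d lam θ) {x : X.pt} (hx : x ∈ V) :
    ContinuousAt G x :=
  continuousAt_pi.2 fun i => hol_continuousAt (h.holo x hx i)

theorem cov_eventually (h : IsCov X V G c r d lam θ) {z₀ : Cm 4} (hz₀ : z₀ ∈ ball c r)
    {W : Set X.pt} (hW : ∀ x ∈ V, G x = z₀ → W ∈ 𝓝 x) :
    ∀ᶠ z in 𝓝 z₀, ∀ x ∈ V, G x = z → x ∈ W := by
  obtain ⟨r', h1, h2⟩ := exists_between (mem_ball.1 hz₀)
  have hK := h.proper r' h2
  have hcomp : IsCompact ({x | x ∈ V ∧ G x ∈ closedBall c r'} \ interior W) :=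
    hK.diff isOpen_interior
  have hcont : ContinuousOn G ({x | x ∈ V ∧ G x ∈ closedBall c r'} \ interior W) := fun x hx =>
    (cov_continuousAt h hx.1.1).continuousWithinAt
  have hcl := (hcomp.image_of_continuousOn hcont).isClosed
  have hz : z₀ ∉ G '' ({x | x ∈ V ∧ G x ∈ closedBall c r'} \ interior W) := by
    rintro ⟨x, ⟨hx1, hx2⟩, hx3⟩
    exact hx2 (mem_interior_iff_mem_nhds.2 (hW x hx1.1 hx3))
  filter_upwards [hcl.isOpen_compl.mem_nhds hz, isOpen_ball.mem_nhds (mem_ball.2 h1)] with z hz1 hz2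
  intro x hx hxz
  by_contra hxW
  exact hz1 ⟨x, ⟨⟨hx, by rw [hxz]; exact ball_subset_closedBall hz2⟩,
    fun h3 => hxW (interior_subset h3)⟩, hxz⟩

/-- squared Vandermonde determinant -/
theorem norm_vandermonde_sq {d : ℕ} (u : Fin d → ℂ) :
    ‖(Matrix.vandermonde u).det‖ ^ 2 = ∏ k, ∏ l ∈ Finset.univ.erase k, ‖u k - u l‖ := by
  classical
  rw [Matrix.det_vandermonde, norm_prod]
  simp only [norm_prod]
  have h1 := Finset.prod_prod_Ioi_mul_eq_prod_prod_off_diag (fun i j : Fin d => ‖u j - u i‖)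
  have h2 : ∀ k : Fin d, ({k}ᶜ : Finset (Fin d)) = Finset.univ.erase k := fun k => by
    ext l; simp
  simp only [h2] at h1
  rw [← h1, ← Finset.prod_pow]
  refine Finset.prod_congr rfl fun i _ => ?_
  rw [← Finset.prod_pow]
  refine Finset.prod_congr rfl fun j _ => ?_
  rw [sq, norm_sub_rev (u i) (u j)]

end Vale.Agent.P277.H19
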