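import Vale.Agent.P277.H19.Br2
import Vale.Agent.P277.H619.Jet

/-!
# P277, package TX-BR: main statement
-/

open scoped Manifold Topology ContDiff
open Vale.Agent.P272.K Vale.Agent.P285.H281.FD Set Filter Metric

noncomputable section

namespace Vale.Agent.P277.H19

open TX

section
variable {Y : Type} [TopologicalSpace Y] [ChartedSpace (Cm 4) Y] {X : CSp} {O : Set Y}
  {v : Y → X.pt}

theorem analyticAt_pull (hv : IsOpenEmb X O v) {G : X.pt → Cm 4} {y : Y} (hy : y ∈ O)
    {e : Chart 4 Y} (he : At e y) (hG : ∀ i, X.Hol (fun x => G x i) (v y)) :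
    AnalyticAt ℂ (fun z => G (v (e.symm z))) (e y) := by
  rw [analyticAt_pi_iff]
  intro i
  exact (hv.hol_iff hy he).1 (hG i)

theorem adj_ne_zero_of_rank {G : X.pt → Cm 4} {y : Y} {e : Chart 4 Y} (he : At e y)
    (h : RankGe3 v G y) :
    (mat (fderiv ℂ (fun z => G (v (e.symm z))) (e y))).adjugate ≠ 0 := by
  intro h0
  have h1 := adjugate_eq_zero_iff.1 h0
  rw [rank_mat] at h1
  have h2 := h e he
  omega

end

/-- nonzero linear form -/
theorem ker_ne_top {n : ℕ} {φ : (Fin n → ℂ) →ₗ[ℂ] ℂ} {w : Fin n → ℂ} (h : φ w ≠ 0) :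
    LinearMap.ker φ ≠ ⊤ := by
  intro h0
  have : w ∈ LinearMap.ker φ := by rw [h0]; trivial
  exact h this

/-- the linear form with coefficients `c` -/
def lf {n : ℕ} (c : Fin n → ℂ) : (Fin n → ℂ) →ₗ[ℂ] ℂ := ∑ j, c j • LinearMap.proj j

theorem lf_apply {n : ℕ} (c w : Fin n → ℂ) : lf c w = ∑ j, w j * c j := by
  simp only [lf, LinearMap.sum_apply, LinearMap.smul_apply, LinearMap.proj_apply, smul_eq_mul]
  exact Finset.sum_congr rfl fun j _ => mul_comm _ _

theorem stBr : StBr := by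
  classical
  intro Y _ _ _ _ _ X O v hv V G c r d lam θ hcov n ζ hζ z₀ hz₀ hfib J hJ0 hJ
  set P : Set X.pt := {x | x ∈ V ∧ G x = z₀} with hP
  have hPf : P.Finite := (hcov.finite z₀ hz₀).1
  have : Finite P := hPf
  -- data at the points of the fibre
  have key : ∀ p : P, ∃ (y : Y) (e : Chart 4 Y) (i : Fin 4) (CJ : ℝ), y ∈ O ∧ v y = p.1 ∧ At e y ∧
      (fun j => (mat (fderiv ℂ (fun z => G (v (e.symm z))) (e y))).adjugate j i) ≠ 0 ∧
      ∀ᶠ y' in 𝓝 y, J (v y') ≤ CJ * ‖(fderiv ℂ (fun z => G (v (e.symm z))) (e y')).det‖ := by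
    rintro ⟨p, hpV, hpz⟩
    obtain ⟨y, hy, hyp, e, he, CJ, hCJ⟩ := hJ p hpV hpz
    obtain ⟨y', hy', hyp', hrk⟩ := hfib p hpV hpz
    have hyy : y' = y := hv.inj hy' hy (hyp'.trans hyp.symm)
    subst hyy
    have hadj := adj_ne_zero_of_rank he hrk
    obtain ⟨i, hi⟩ : ∃ i, (fun j => (mat (fderiv ℂ (fun z => G (v (e.symm z)))
        (e y'))).adjugate j i) ≠ 0 := by
      by_contra hcon
      push Not at hcon
      exact hadj (by ext j i; exact congrFun (hcon i) j)
    exact ⟨y', e, i, CJ, hy, hyp, he, hi, hCJ⟩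
  choose y e i CJ hyO hvy he hadj hCJ using key
  set hvec : P → Cm 4 := fun p j =>
    (mat (fderiv ℂ (fun z => G (v ((e p).symm z))) ((e p) (y p)))).adjugate j (i p) with hhvec
  -- generic combination
  obtain ⟨w, hw1, hw2⟩ := H619.avoid₂
    (fun q : {q : P × P // q.1 ≠ q.2} => LinearMap.ker (lf fun j => ζ j q.1.1 - ζ j q.1.2))
    (fun p : P => LinearMap.ker (lf fun j => H619.dfr v (e p) (y p) (ζ j) (hvec p))) (by
      rintro ⟨⟨p, p'⟩, hpp'⟩
      have h1 : ∃ j, ζ j p.1 ≠ ζ j p'.1 := by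
        by_contra hcon
        push Not at hcon
        exact hpp' (Subtype.ext (hζ.injOn p.2.1 p'.2.1 (funext hcon)))
      obtain ⟨j, hj⟩ := h1
      refine ker_ne_top (w := Pi.single j 1) ?_
      rw [lf_apply, Finset.sum_eq_single j]
      · simpa [sub_eq_zero] using hj
      · intro b _ hb; simp [hb]
      · simp) (by
      intro p
      obtain ⟨k, hk⟩ : ∃ k, hvec p k ≠ 0 := by
        by_contra hcon
        push Not at hcon
        exact hadj p (funext hcon)
      obtain ⟨u, hu⟩ := H29.exists_dfr_eq hv (hyO p) (he p) hζ (by rw [hvy]; exact p.2.1)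
        (ContinuousLinearMap.proj (R := ℂ) (φ := fun _ : Fin 4 => ℂ) k)
      refine ker_ne_top (w := u) ?_
      rw [lf_apply]
      have h1 := DFunLike.congr_fun hu (hvec p)
      rw [sum_apply] at h1
      simp only [smul_apply, smul_eq_mul, ContinuousLinearMap.proj_apply] at h1
      rw [h1]; exact hk)
  set l : X.pt → ℂ := fun x => ∑ j, w j * ζ j x with hl
  have hlHol : ∀ x ∈ V, X.Hol l x := fun x hx => hol_sum _ fun j _ =>
    hol_mul (hol_const _ _) (hζ.hol j x hx)
  have hsep : ∀ p p' : P, p ≠ p' → l p.1 ≠ l p'.1 := by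
    intro p p' hpp' h0
    refine hw1 ⟨(p, p'), hpp'⟩ ?_
    rw [LinearMap.mem_ker, lf_apply]
    simp only [hl] at h0
    simp only [mul_sub, Finset.sum_sub_distrib]
    rw [h0, sub_self]
  have hGan : ∀ p : P, AnalyticAt ℂ (fun z => G (v ((e p).symm z))) ((e p) (y p)) := fun p =>
    analyticAt_pull hv (hyO p) (he p) fun i => by rw [hvy]; exact hcov.holo p.1 p.2.1 i
  have hlan : ∀ p : P, AnalyticAt ℂ (fun z => l (v ((e p).symm z))) ((e p) (y p)) := fun p =>
    (hv.hol_iff (hyO p) (he p)).1 (by rw [hvy]; exact hlHol p.1 p.2.1)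
  have himm : ∀ p : P, ∀ h, fderiv ℂ (fun z => G (v ((e p).symm z))) ((e p) (y p)) h = 0 →
      fderiv ℂ (fun z => l (v ((e p).symm z))) ((e p) (y p)) h = 0 → h = 0 := by
    intro p h h1 h2
    refine eq_zero_of_adj (i := i p) ?_ h1 h2
    have h3 : fderiv ℂ (fun z => l (v ((e p).symm z))) ((e p) (y p)) (hvec p) =
        lf (fun j => H619.dfr v (e p) (y p) (ζ j) (hvec p)) w := by
      rw [lf_apply]
      have h4 : HasFDerivAt (fun z => l (v ((e p).symm z)))
          (∑ j, w j • H619.dfr v (e p) (y p) (ζ j)) ((e p) (y p)) := by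
        refine HasFDerivAt.fun_sum fun j _ => ?_
        exact (H29.dfr_hasFDerivAt hv (hyO p) (he p)
          (by rw [hvy]; exact hζ.hol j p.1 p.2.1)).const_mul (w j)
      rw [h4.fderiv, sum_apply]
      rfl
    intro h4
    exact hw2 p (h3.symm.trans h4)
  choose C U hC0 hU hCU using fun p : P => norm_det_le_prod' (hGan p) (hlan p) (himm p) d
  -- separation constant
  obtain ⟨δ, hδ0, hδ1, hδ⟩ : ∃ δ : ℝ, 0 < δ ∧ δ < 1 ∧
      ∀ p p' : P, p ≠ p' → 3 * δ < ‖l p.1 - l p'.1‖ := by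
    have h1 : ∀ p p' : P, ∀ᶠ δ : ℝ in 𝓝[>] 0, p ≠ p' → 3 * δ < ‖l p.1 - l p'.1‖ := by
      intro p p'
      by_cases hpp' : p = p'
      · exact Eventually.of_forall fun δ h => (h hpp').elim
      · have h2 : Tendsto (fun δ : ℝ => 3 * δ) (𝓝[>] 0) (𝓝 (3 * 0)) :=
          (tendsto_id.const_mul 3).mono_left nhdsWithin_le_nhds
        have h3 : (3 : ℝ) * 0 < ‖l p.1 - l p'.1‖ := by
          rw [mul_zero]; exact norm_pos_iff.2 (sub_ne_zero.2 (hsep p p' hpp'))
        filter_upwards [h2.eventually_lt_const h3] with δ hδ _ using hδ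
    have h2 : ∀ᶠ δ : ℝ in 𝓝[>] 0, ∀ p p' : P, p ≠ p' → 3 * δ < ‖l p.1 - l p'.1‖ :=
      eventually_all.2 fun p => eventually_all.2 fun p' => h1 p p'
    have h3 : ∀ᶠ δ : ℝ in 𝓝[>] 0, δ < 1 :=
      (Filter.Tendsto.eventually_lt_const one_pos tendsto_id).filter_mono nhdsWithin_le_nhds
    obtain ⟨δ, h4, h5, h6⟩ := (h2.and (h3.and self_mem_nhdsWithin)).exists
    exact ⟨δ, h6, h5, h4⟩
  -- neighbourhoods
  set N : P → Set X.pt := fun p => {x | ∃ y' ∈ O, v y' = x ∧ y' ∈ (e p).source ∧ (e p) y' ∈ U p ∧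
    J x ≤ CJ p * ‖(fderiv ℂ (fun z => G (v ((e p).symm z))) ((e p) y')).det‖ ∧
    ‖l x - l p.1‖ < δ} with hN
  have hNn : ∀ p : P, N p ∈ 𝓝 p.1 := by
    intro p
    rw [← hvy p, ← hv.map_nhds (hyO p), mem_map]
    have hvc : ContinuousAt v (y p) := hv.continuousAt (hyO p)
    have hlc : ContinuousAt (fun y' => l (v y')) (y p) :=
      ContinuousAt.comp (g := l) (by rw [hvy]; exact hol_continuousAt (hlHol p.1 p.2.1)) hvc
    have hlc' : ∀ᶠ y' in 𝓝 (y p), ‖l (v y') - l p.1‖ < δ := by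
      have h1 : ContinuousAt (fun y' => ‖l (v y') - l p.1‖) (y p) :=
        (hlc.sub continuousAt_const).norm
      refine h1.eventually_lt_const ?_
      simp only [hvy, sub_self, norm_zero]
      exact hδ0
    filter_upwards [hv.isOpen.mem_nhds (hyO p), (e p).open_source.mem_nhds (he p).2,
      ((e p).continuousAt (he p).2).eventually (hU p), hCJ p, hlc'] with y' h1 h2 h3 h4 h5
    exact ⟨y', h1, rfl, h2, h3, h4, h5⟩
  have hev := cov_eventually hcov hz₀ (W := ⋃ p, N p) fun x hx hxz =>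
    mem_of_superset (hNn ⟨x, hx, hxz⟩) (subset_iUnion N ⟨x, hx, hxz⟩)
  have hcard : ∃ D : ℝ, 0 ≤ D ∧ ∀ p, |CJ p| * C p * (δ ^ d)⁻¹ ≤ D := by
    obtain ⟨D, hD⟩ := (Set.finite_range fun p => |CJ p| * C p * (δ ^ d)⁻¹).bddAbove
    exact ⟨max D 0, le_max_right _ _, fun p => (hD (mem_range_self p)).trans (le_max_left _ _)⟩
  obtain ⟨D, hD0, hD⟩ := hcard
  refine ⟨w, D ^ d, ?_⟩
  filter_upwards [hev] with z hz hθ x hx
  have hxV : ∀ k, x k ∈ V ∧ G (x k) = z := fun k => (hx.2 (x k)).1 ⟨k, rfl⟩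
  have hxN : ∀ k, ∃ p, x k ∈ N p := fun k => mem_iUnion.1 (hz (x k) (hxV k).1 (hxV k).2)
  choose p hp using hxN
  choose y' hy'O hvy' hy's hy'U hy'J hy'l using hp
  have hbound : ∀ k, J (x k) ≤ D * ∏ a ∈ Finset.univ.erase k, ‖l (x k) - l (x a)‖ := by
    intro k
    set t : Finset (Fin d) := Finset.univ.filter fun a => p a = p k with ht
    have htk : k ∈ t := by simp [ht]
    have htp : ∀ a ∈ t, p a = p k := fun a ha => (Finset.mem_filter.1 ha).2
    set q : Fin d → Cm 4 := fun a => (e (p k)) (y' a) with hq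
    have hqs : ∀ a ∈ t, y' a ∈ (e (p k)).source := fun a ha => by
      rw [← htp a ha]; exact hy's a
    have hqx : ∀ a ∈ t, v ((e (p k)).symm (q a)) = x a := fun a ha => by
      simp only [hq]
      rw [(e (p k)).left_inv (hqs a ha), hvy']
    have h1 := hCU (p k) t q (by
      intro a ha b hb hab
      apply hx.1
      rw [← hqx a ha, ← hqx b hb, hab]) (by
      intro a ha
      simp only [hq]
      have := hy'U a
      rw [htp a ha] at this
      exact this) (by
      intro a ha b hb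
      show G (v ((e (p k)).symm (q a))) = G (v ((e (p k)).symm (q b)))
      rw [hqx a ha, hqx b hb, (hxV a).2, (hxV b).2]) k htk
    have h2 : ∏ a ∈ t.erase k, ‖l (v ((e (p k)).symm (q k))) - l (v ((e (p k)).symm (q a)))‖ =
        ∏ a ∈ t.erase k, ‖l (x k) - l (x a)‖ := by
      refine Finset.prod_congr rfl fun a ha => ?_
      rw [hqx k htk, hqx a (Finset.mem_of_mem_erase ha)]
    simp only [h2] at h1
    -- the other points
    have h3 : δ ^ d * ∏ a ∈ t.erase k, ‖l (x k) - l (x a)‖ ≤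
        ∏ a ∈ Finset.univ.erase k, ‖l (x k) - l (x a)‖ := by
      have h4 : Finset.univ.erase k = (t.erase k) ∪ (Finset.univ.filter fun a => ¬ p a = p k) := by
        ext a
        simp only [Finset.mem_erase, Finset.mem_univ, and_true, Finset.mem_union, Finset.mem_filter,
          true_and, ht]
        by_cases hak : a = k
        · subst hak; simp
        · simp only [ne_eq, hak, not_false_eq_true, true_and]
          tauto
      have h5 : Disjoint (t.erase k) (Finset.univ.filter fun a => ¬ p a = p k) := by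
        rw [Finset.disjoint_left]
        intro a ha hb
        exact (Finset.mem_filter.1 hb).2 (htp a (Finset.mem_of_mem_erase ha))
      rw [h4, Finset.prod_union h5, mul_comm]
      refine mul_le_mul_of_nonneg_left ?_ (Finset.prod_nonneg fun _ _ => norm_nonneg _)
      have h6 : ∀ a ∈ Finset.univ.filter (fun a => ¬ p a = p k), δ ≤ ‖l (x k) - l (x a)‖ := by
        intro a ha
        have h7 := hδ (p k) (p a) (fun h => (Finset.mem_filter.1 ha).2 h.symm)
        have h8 := hy'l k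
        have h9 := hy'l a
        have h10 : l (p k).1 - l (p a).1 = -(l (x k) - l (p k).1) + (l (x k) - l (x a)) +
          (l (x a) - l (p a).1) := by ring
        rw [h10] at h7
        have h11 := norm_add₃_le (a := -(l (x k) - l (p k).1)) (b := l (x k) - l (x a))
          (c := l (x a) - l (p a).1)
        rw [norm_neg] at h11
        linarith
      have h7 := Finset.prod_le_prod (s := Finset.univ.filter (fun a => ¬ p a = p k))
        (f := fun _ => δ) (g := fun a => ‖l (x k) - l (x a)‖) (fun _ _ => hδ0.le) h6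
      rw [Finset.prod_const] at h7
      refine le_trans ?_ h7
      exact pow_le_pow_of_le_one hδ0.le hδ1.le (by
        refine (Finset.card_le_univ _).trans ?_
        simp)
    have hprod0 : 0 ≤ ∏ a ∈ t.erase k, ‖l (x k) - l (x a)‖ :=
      Finset.prod_nonneg fun _ _ => norm_nonneg _
    have hprod1 : 0 ≤ ∏ a ∈ Finset.univ.erase k, ‖l (x k) - l (x a)‖ :=
      Finset.prod_nonneg fun _ _ => norm_nonneg _
    have h4 : ∏ a ∈ t.erase k, ‖l (x k) - l (x a)‖ ≤
        (δ ^ d)⁻¹ * ∏ a ∈ Finset.univ.erase k, ‖l (x k) - l (x a)‖ := by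
      rw [inv_mul_eq_div, le_div_iff₀ (pow_pos hδ0 _), mul_comm]
      exact h3
    calc J (x k) ≤ CJ (p k) * ‖(fderiv ℂ (fun z => G (v ((e (p k)).symm z)))
          ((e (p k)) (y' k))).det‖ := hy'J k
      _ ≤ |CJ (p k)| * ‖(fderiv ℂ (fun z => G (v ((e (p k)).symm z)))
          ((e (p k)) (y' k))).det‖ := by gcongr; exact le_abs_self _
      _ ≤ |CJ (p k)| * (C (p k) * ∏ a ∈ t.erase k, ‖l (x k) - l (x a)‖) := by
          gcongr
      _ ≤ |CJ (p k)| * (C (p k) * ((δ ^ d)⁻¹ *
          ∏ a ∈ Finset.univ.erase k, ‖l (x k) - l (x a)‖)) := by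
          have := hC0 (p k)
          gcongr
      _ = (|CJ (p k)| * C (p k) * (δ ^ d)⁻¹) *
          ∏ a ∈ Finset.univ.erase k, ‖l (x k) - l (x a)‖ := by ring
      _ ≤ D * ∏ a ∈ Finset.univ.erase k, ‖l (x k) - l (x a)‖ := by
          gcongr
          exact hD (p k)
  have h1 := Finset.prod_le_prod (s := (Finset.univ : Finset (Fin d))) (f := fun k => J (x k))
    (g := fun k => D * ∏ a ∈ Finset.univ.erase k, ‖l (x k) - l (x a)‖) (fun k _ => hJ0 _)
    fun k _ => hbound k
  rw [Finset.prod_mul_distrib, Finset.prod_const, Finset.card_univ, Fintype.card_fin] at h1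
  rw [norm_vandermonde_sq]
  exact h1

end Vale.Agent.P277.H19
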