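import Vale.Agent.P281.MF.Hol
import Vale.Agent.P272.K.Stmt
import Mathlib.Analysis.Complex.RemovableSingularity
import Mathlib.Analysis.Analytic.Order

/-!
# P277: division of analytic functions by the coordinate `w 0`
-/

open Set Filter Metric Topology Complex
open Vale.Agent.P272.K

noncomputable section

namespace Vale.Agent.P277.H19

/-- replace the coordinate `0` of `w` by `t` -/
def upd {m : ℕ} (w : Cm (m + 1)) (t : ℂ) : Cm (m + 1) := fun i => if i = 0 then t else w i

theorem upd_zero {m : ℕ} (w : Cm (m + 1)) (t : ℂ) : upd w t 0 = t := by simp [upd]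

theorem upd_self {m : ℕ} (w : Cm (m + 1)) : upd w (w 0) = w := by
  ext i
  by_cases hi : i = 0 <;> simp [upd, hi]

theorem upd_mem {m : ℕ} {w₁ w : Cm (m + 1)} {t : ℂ} {R : ℝ} (hR : 0 < R) (h0 : w₁ 0 = 0)
    (hw : w ∈ ball w₁ R) (ht : ‖t‖ < R) : upd w t ∈ ball w₁ R := by
  rw [mem_ball, dist_pi_lt_iff hR]
  intro i
  by_cases hi : i = 0
  · subst hi
    simpa [upd, h0] using ht
  · simp only [upd, hi, if_false]
    exact lt_of_le_of_lt (dist_le_pi_dist w w₁ i) hw

theorem differentiable_upd {m : ℕ} : Differentiable ℂ fun x : Cm (m + 1) × ℂ => upd x.1 x.2 := by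
  rw [differentiable_pi]
  intro i
  by_cases hi : i = 0
  · simp only [upd, hi, if_true]
    fun_prop
  · simp only [upd, hi, if_false]
    fun_prop

theorem exists_div {m : ℕ} {f : Cm (m + 1) → ℂ} {w₁ : Cm (m + 1)} (hf : AnalyticAt ℂ f w₁)
    (h0 : w₁ 0 = 0) (hz : ∀ᶠ w in 𝓝 w₁, w 0 = 0 → f w = 0) :
    ∃ g : Cm (m + 1) → ℂ, AnalyticAt ℂ g w₁ ∧ ∀ᶠ w in 𝓝 w₁, f w = w 0 * g w := by
  obtain ⟨r, hr, hr'⟩ : ∃ r > 0, ∀ w ∈ ball w₁ (4 * r), AnalyticAt ℂ f w ∧ (w 0 = 0 → f w = 0) := by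
    obtain ⟨r, hr, h⟩ := Metric.eventually_nhds_iff_ball.1 (hf.eventually_analyticAt.and hz)
    exact ⟨r / 4, by positivity, by rwa [mul_div_cancel₀ _ (by norm_num : (4 : ℝ) ≠ 0)]⟩
  set U : Set (Cm (m + 1)) := ball w₁ r with hU
  set W : Set ℂ := {t | r < ‖t‖ ∧ ‖t‖ < 4 * r} with hW
  have hWo : IsOpen W := (isOpen_lt continuous_const continuous_norm).inter
    (isOpen_lt continuous_norm continuous_const)
  have hsW : sphere (0 : ℂ) (2 * r) ⊆ W := by
    intro t ht
    have : ‖t‖ = 2 * r := by simpa using ht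
    constructor <;> rw [this] <;> linarith
  have hU4 : U ⊆ ball w₁ (4 * r) := ball_subset_ball (by linarith)
  have hUW : ∀ w ∈ U, ∀ t : ℂ, ‖t‖ < 4 * r → upd w t ∈ ball w₁ (4 * r) := fun w hw t ht =>
    upd_mem (by positivity) h0 (hU4 hw) ht
  have hU0 : ∀ w ∈ U, ‖w 0‖ < r := by
    intro w hw
    have h1 := (dist_le_pi_dist w w₁ 0).trans_lt hw
    simpa [h0] using h1
  set G : Cm (m + 1) × ℂ → ℂ := fun x => (x.2 - x.1 0)⁻¹ * (x.2⁻¹ * f (upd x.1 x.2)) with hG
  have hGd : DifferentiableOn ℂ G (U ×ˢ W) := by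
    rintro ⟨w, t⟩ ⟨hw, ht⟩
    apply DifferentiableAt.differentiableWithinAt
    have h1 : t - w 0 ≠ 0 := by
      intro h
      rw [sub_eq_zero] at h
      have := hU0 w hw
      rw [← h] at this
      exact absurd ht.1 (not_lt.2 this.le)
    have h2 : t ≠ 0 := by
      rintro rfl
      have := ht.1
      rw [norm_zero] at this
      linarith
    have h3 : DifferentiableAt ℂ (fun x : Cm (m + 1) × ℂ => f (upd x.1 x.2)) (w, t) :=
      DifferentiableAt.comp (g := f) (w, t) (hr' _ (hUW w hw t ht.2)).1.differentiableAt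
        differentiable_upd.differentiableAt
    have h4 : DifferentiableAt ℂ (fun x : Cm (m + 1) × ℂ => (x.2 - x.1 0)⁻¹) (w, t) :=
      DifferentiableAt.inv (by fun_prop) h1
    have h5 : DifferentiableAt ℂ (fun x : Cm (m + 1) × ℂ => x.2⁻¹) (w, t) :=
      DifferentiableAt.inv (by fun_prop) h2
    exact h4.mul (h5.mul h3)
  have hg := Vale.Agent.P281.MF.differentiableOn_circleIntegral (c := 0) (R := 2 * r)
    (by positivity) isOpen_ball hWo hsW hGd
  have key : ∀ w ∈ U, (∮ t in C(0, 2 * r), G (w, t)) =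
      (2 * Real.pi * I) * dslope (fun t => f (upd w t)) 0 (w 0) := by
    intro w hw
    have hd : DifferentiableOn ℂ (fun t => f (upd w t)) (ball 0 (4 * r)) := by
      intro t ht
      apply DifferentiableAt.differentiableWithinAt
      have h1 : DifferentiableAt ℂ (fun t : ℂ => ((w, t) : Cm (m + 1) × ℂ)) t := by fun_prop
      have h2 : DifferentiableAt ℂ (fun t : ℂ => upd w t) t :=
        DifferentiableAt.comp (g := fun x : Cm (m + 1) × ℂ => upd x.1 x.2) t
          differentiable_upd.differentiableAt h1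
      exact DifferentiableAt.comp (g := f) t
        (hr' _ (hUW w hw t (by simpa using ht))).1.differentiableAt h2
    have hd' : DifferentiableOn ℂ (dslope (fun t => f (upd w t)) 0) (ball 0 (4 * r)) :=
      (Complex.differentiableOn_dslope (ball_mem_nhds _ (by positivity))).2 hd
    have hd'' : DiffContOnCl ℂ (dslope (fun t => f (upd w t)) 0) (ball 0 (2 * r)) :=
      DifferentiableOn.diffContOnCl (hd'.mono (by
        refine (closure_ball_subset_closedBall).trans (closedBall_subset_ball (by linarith))))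
    have h1 := hd''.circleIntegral_sub_inv_smul (w := w 0)
      (by simpa using (hU0 w hw).trans (by linarith))
    rw [smul_eq_mul] at h1
    rw [← h1]
    refine circleIntegral.integral_congr (by positivity) ?_
    intro t ht
    have ht' : ‖t‖ = 2 * r := by simpa using ht
    have ht0 : t ≠ 0 := by
      rintro rfl
      rw [norm_zero] at ht'
      linarith
    have h2 : f (upd w 0) = 0 := (hr' _ (hUW w hw 0 (by simpa using hr))).2 (upd_zero w 0)
    simp only [hG, smul_eq_mul]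
    rw [dslope_of_ne _ ht0, slope_def_field, h2]
    ring
  refine ⟨fun w => (2 * Real.pi * I)⁻¹ * ∮ t in C(0, 2 * r), G (w, t), ?_, ?_⟩
  · exact Vale.Agent.P281.MF.analyticAt_of_differentiableOn isOpen_ball (hg.const_mul _)
      (mem_ball_self hr)
  · filter_upwards [ball_mem_nhds w₁ hr] with w hw
    rw [key w hw, ← mul_assoc ((2 * Real.pi * I : ℂ))⁻¹, inv_mul_cancel₀ Complex.two_pi_I_ne_zero,
      one_mul]
    have h1 := sub_smul_dslope (fun t => f (upd w t)) 0 (w 0)
    have h2 : f (upd w 0) = 0 := (hr' _ (hUW w hw 0 (by simpa using hr))).2 (upd_zero w 0)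
    simp only [sub_zero, smul_eq_mul, upd_self, h2] at h1
    exact h1.symm

/-- Maximal power of the coordinate `w 0` dividing `f`. -/
theorem exists_max_pow {m : ℕ} {f : Cm (m + 1) → ℂ} {w₁ : Cm (m + 1)} (hf : AnalyticAt ℂ f w₁)
    (h0 : w₁ 0 = 0) (hz : ¬ ∀ᶠ w in 𝓝 w₁, f w = 0) :
    ∃ (a : ℕ) (g : Cm (m + 1) → ℂ), AnalyticAt ℂ g w₁ ∧ (∀ᶠ w in 𝓝 w₁, f w = w 0 ^ a * g w) ∧
      ¬ ∀ᶠ w in 𝓝 w₁, w 0 = 0 → g w = 0 := by
  -- a line on which `f` has finite order
  obtain ⟨n, hn⟩ : ∃ n : ℕ, ∀ (a : ℕ) (g : Cm (m + 1) → ℂ), AnalyticAt ℂ g w₁ →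
      (∀ᶠ w in 𝓝 w₁, f w = w 0 ^ a * g w) → a ≤ n := by
    obtain ⟨r, hr, hr'⟩ := Metric.eventually_nhds_iff_ball.1 hf.eventually_analyticAt
    obtain ⟨z, hz1, hz2⟩ : ∃ z ∈ ball w₁ r, f z ≠ 0 := by
      by_contra hcon
      push Not at hcon
      exact hz (Metric.eventually_nhds_iff_ball.2 ⟨r, hr, hcon⟩)
    set l : ℂ → Cm (m + 1) := fun t => w₁ + t • (z - w₁) with hl
    have hlan : ∀ t, AnalyticAt ℂ l t := fun t => by fun_prop
    have hl0 : l 0 = w₁ := by simp [hl]
    have hl1 : l 1 = z := by simp [hl]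
    have hlmem : ∀ t ∈ closedBall (0 : ℂ) 1, l t ∈ ball w₁ r := by
      intro t ht
      have ht' : ‖t‖ ≤ 1 := by simpa using ht
      have hz1' : ‖z - w₁‖ < r := by simpa [dist_eq_norm] using hz1
      rw [mem_ball, dist_eq_norm]
      simp only [hl, add_sub_cancel_left, norm_smul]
      nlinarith [norm_nonneg t, norm_nonneg (z - w₁)]
    have hfl : AnalyticOnNhd ℂ (fun t => f (l t)) (closedBall 0 1) := fun t ht =>
      AnalyticAt.comp (g := f) (hr' _ (hlmem t ht)) (hlan t)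
    have htop : analyticOrderAt (fun t => f (l t)) 0 ≠ ⊤ := by
      intro h
      rw [analyticOrderAt_eq_top] at h
      have h2 := hfl.eqOn_zero_of_preconnected_of_eventuallyEq_zero
        (convex_closedBall (0 : ℂ) 1).isPreconnected (mem_closedBall_self zero_le_one) h
        (show (1 : ℂ) ∈ closedBall (0 : ℂ) 1 by simp)
      simp only [hl1, Pi.zero_apply] at h2
      exact hz2 h2
    obtain ⟨n, hn⟩ := ENat.ne_top_iff_exists.1 htop
    refine ⟨n, fun a g hg hfg => ?_⟩
    have h3 : (fun t => f (l t)) =ᶠ[𝓝 0] fun t => t ^ a • ((z - w₁) 0 ^ a * g (l t)) := by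
      have h4 : Tendsto l (𝓝 0) (𝓝 w₁) := by
        have := (hlan 0).continuousAt.tendsto
        rwa [hl0] at this
      filter_upwards [h4.eventually hfg] with t ht
      rw [ht]
      simp only [hl, Pi.add_apply, h0, Pi.smul_apply, smul_eq_mul, zero_add]
      ring
    have h5 : (a : ℕ∞) ≤ analyticOrderAt (fun t => f (l t)) 0 := by
      rw [natCast_le_analyticOrderAt (hfl 0 (mem_closedBall_self zero_le_one))]
      refine ⟨fun t => (z - w₁) 0 ^ a * g (l t), ?_, ?_⟩
      · exact analyticAt_const.mul (AnalyticAt.comp (g := g) (by rwa [hl0]) (hlan 0))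
      · filter_upwards [h3] with t ht
        rw [ht, sub_zero]
    rw [← hn] at h5
    exact_mod_cast h5
  classical
  let P : ℕ → Prop := fun a => ∃ g : Cm (m + 1) → ℂ, AnalyticAt ℂ g w₁ ∧
    ∀ᶠ w in 𝓝 w₁, f w = w 0 ^ a * g w
  have hP0 : P 0 := ⟨f, hf, by simp⟩
  have hPn : ∀ a, P a → a ≤ n := fun a ⟨g, hg, hfg⟩ => hn a g hg hfg
  have hmax := Nat.findGreatest_spec (P := P) (Nat.zero_le n) hP0
  obtain ⟨g, hg, hfg⟩ := hmax
  refine ⟨_, g, hg, hfg, fun hgz => ?_⟩
  obtain ⟨g', hg', hgg'⟩ := exists_div hg h0 hgz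
  have hP' : P (Nat.findGreatest P n + 1) := by
    refine ⟨g', hg', ?_⟩
    filter_upwards [hfg, hgg'] with w h1 h2
    rw [h1, h2, pow_succ, mul_assoc]
  have h1 := Nat.le_findGreatest (hPn _ hP') hP'
  omega

end Vale.Agent.P277.H19
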