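import Vale.Agent.P277.H615.Tri
import Vale.Agent.P277.H285.E3
import Vale.Agent.P277.H619.D0

/-!
# P277: final form of Theorem R
-/

open scoped Manifold ContDiff Topology
open Vale.Agent.P272.K Vale.Agent.P285.H281.FD Vale.Agent.P267.H175 Set

noncomputable section

namespace Vale.Agent.P277.H19

theorem finalR (hD : StD) (hF : StF) (Y : Type) [TopologicalSpace Y] [T2Space Y] [CompactSpace Y]
    [ChartedSpace (Cm 4) Y] [IsManifold 𝓘(ℂ, Cm 4) ω Y] :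
    ∃ b : ℕ, ∀ (N : ℕ) (X Z : ℕ → CSp) (O : Set Y) (v : Y → (X 0).pt)
      (f : ∀ j, (X j).pt → (Z j).pt) (f' : ∀ j, (X (j + 1)).pt → (Z j).pt)
      (A : ∀ j, Set (Z j).pt) (L : ∀ j, Bd (X j).pt) (L' : ∀ j, Bd (X (j + 1)).pt),
      IsOpenEmb (X 0) O v → DimLe (X 0) 1 (v '' O)ᶜ →
      (∀ j < N, IsFlip (X j) (Z j) (X (j + 1)) (f j) (f' j) (A j) (L j) (L' j)) →
      (∀ j < N, DimLe (X (j + 1)) 1 {x | ∃ x', f' j x' = f' j x ∧ x' ≠ x}) → N ≤ b := by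
  have : IsManifold 𝓘(ℝ, Cm 4) ∞ Y := Vale.Agent.P267.H928.Int.isManifold_real (E := Cm 4)
  obtain ⟨b, a, -, ha⟩ := stE (Cm 4) Y 3
  refine ⟨b, fun N X Z O v f f' A L L' hv hO hflip hdim => ?_⟩
  refine H615.stR_of hD hF Y b a ha N X Z O v hv hO f f' (fun j => Amin (f j)) L L'
    (fun j hj => (H619.stD0 _ _ _ _ _ _ _ _ (hflip j hj)).1) fun j hj => ?_
  refine (hdim j hj).mono ?_
  rintro x hx
  have h1 := (H619.stD0 _ _ _ _ _ _ _ _ (hflip j hj)).2.1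
  have hx' : f' j x ∈ Amin (f' j) := by
    rw [← h1]; exact hx
  obtain ⟨x₁, x₂, h2, h3, h4⟩ := hx'
  by_cases h5 : x₁ = x
  · exact ⟨x₂, h3, fun h6 => h4 (h5.trans h6.symm)⟩
  · exact ⟨x₁, h2, h5⟩

end Vale.Agent.P277.H19
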