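import Vale.Agent.P277.H19.Rho

/-!
# P277, package TX (smooth in codimension two): wedges without lifts, from a coordinate bidisc
-/

open scoped Manifold ContDiff Topology
open Vale.Agent.P272.K Vale.Agent.P285.H281.FD Vale.Agent.P267.H175 Set Filter

noncomputable section

namespace Vale.Agent.P277.H19

theorem stTX_true (hTA : StTA) (hTD : StTD) : StTX True := by
  intro Y _ _ _ _ _ χ hχ M hM hNef m hm X hX hs O v hv hO S hSan hSO hS1 L hL Q hQ T hT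
  have hS2 : DimLe X 2 S := hO.mono hSO
  obtain ⟨ξ, r, hr, hinj, hopen, hhol, hξS⟩ := hTA X S hSan hS2 hS1 (hs trivial)
  set B : Set (Cm 4) := Metric.ball 0 r with hB
  have hξ : LocIso X ξ B := ⟨Metric.isOpen_ball, hinj, hopen, hhol⟩
  have hWo : IsOpen {w : Cm 4 | bl w ∈ B} := Metric.isOpen_ball.preimage continuous_bl
  have hbl0 : bl 0 = 0 := by
    ext i
    fin_cases i
    · rfl
    · change (0 : ℂ) * 0 = 0; ring
    · rfl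
    · rfl
  have hφ : ∀ w : Cm 4, bl w ∈ B → HolAt X (fun w => ξ (bl w)) w := fun w hw =>
    (hξ.holAt hw).comp (analyticAt_bl w)
  have hφS : ∀ w : Cm 4, bl w ∈ B → w 0 = 0 → ξ (bl w) ∈ S := by
    intro w hw h0
    refine hξS _ hw ?_ ?_
    · exact h0
    · change w 0 * w 1 = 0
      rw [h0, zero_mul]
  have hvO : IsOpen (v '' O) := hv.isOpen_image
  have hdense : ∀ w : Cm 4, bl w ∈ B → ∀ N ∈ 𝓝 w, ∃ w' ∈ N, bl w' ∈ B ∧ ξ (bl w') ∈ v '' O := by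
    intro w hw N hN
    obtain ⟨N', hN'N, hN'o, hwN'⟩ := mem_nhds_iff.1 (inter_mem hN (hWo.mem_nhds hw))
    obtain ⟨w', hw', hw'0⟩ := exists_ne_zero (hN'o.mem_nhds hwN')
    have h1 : IsOpen (N' ∩ {w : Cm 4 | w 0 ≠ 0}) :=
      hN'o.inter (isOpen_ne_fun (continuous_apply 0) continuous_const)
    obtain ⟨z, ⟨w'', hw'', rfl⟩, hz2⟩ := hξ.dense (by norm_num) hO
      (isOpen_image_bl h1 fun w hw => hw.2) (image_subset_iff.2 fun w hw => (hN'N hw.1).2)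
      ⟨bl w', mem_image_of_mem bl ⟨hw', hw'0⟩⟩
    exact ⟨w'', (hN'N hw''.1).1, (hN'N hw''.1).2, by simpa using hz2⟩
  refine ⟨{w | bl w ∈ B}, 0, fun w => ξ (bl w), hWo, ?_, rfl, hφ, hφS, ?_, ?_⟩
  · change bl 0 ∈ B
    rw [hbl0]; exact Metric.mem_ball_self hr
  · intro w hw
    rw [mem_closure_iff_nhds]
    intro N hN
    obtain ⟨w', h1, h2, h3⟩ := hdense w hw N hN
    exact ⟨w', h1, h2, h3⟩
  intro w₁ hw₁ hw₁0 γ₀ e F i j hγc he hγa hlift hi hj hF K hK hFT hF0 hJ0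
  obtain ⟨e₁, a, rfl⟩ : ∃ (e₁ : Chart 4 Y) (a : M.ι), j = (e₁, a) := ⟨j.1, j.2, rfl⟩
  obtain ⟨he₁, ha⟩ : At e₁ (γ₀ w₁) ∧ γ₀ w₁ ∈ M.U a := hj
  set y₀ : Y := γ₀ w₁ with hy₀
  set ρ : Cm 4 → Y := fun w => hv.inv y₀ (ξ w) with hρ
  have hγa₁ : AnalyticAt ℂ (fun w => e₁ (γ₀ w)) w₁ := analyticAt_change hγc he he₁ hγa
  set J : Cm 4 → ℂ := fun w => (fderiv ℂ (fun w => e₁ (γ₀ w)) w).det with hJ
  have hJan : AnalyticAt ℂ J w₁ := analyticAt_det hγa₁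
  -- conditions near `w₁`
  have c1 : ∀ᶠ w in 𝓝 w₁, bl w ∈ B := hWo.mem_nhds hw₁
  have c2 : ∀ᶠ w in 𝓝 w₁, ξ (bl w) ∈ L.U i := (hφ w₁ hw₁).1.eventually_mem ((hL.isOpen i).mem_nhds hi)
  have c3 : ∀ᶠ w in 𝓝 w₁, γ₀ w ∈ M.U a := hγc.eventually_mem ((hM.isOpen a).mem_nhds ha)
  have c4 : ∀ᶠ w in 𝓝 w₁, At e₁ (γ₀ w) := by
    filter_upwards [hγc.eventually_mem (e₁.open_source.mem_nhds he₁.2)] with w hw
    exact ⟨he₁.1, hw⟩
  have c4' : ∀ᶠ w in 𝓝 w₁, At e (γ₀ w) := by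
    filter_upwards [hγc.eventually_mem (e.open_source.mem_nhds he.2)] with w hw
    exact ⟨he.1, hw⟩
  have c5 : ∀ᶠ w in 𝓝 w₁, ContinuousAt γ₀ w := by
    have h1 : ∀ᶠ w in 𝓝 w₁, ∀ᶠ w' in 𝓝 w, At e₁ (γ₀ w') := c4.eventually_nhds
    filter_upwards [h1, hγa₁.eventually_analyticAt] with w h1 h2
    have h3 : ContinuousAt (fun w => e₁.symm (e₁ (γ₀ w))) w := by
      refine ContinuousAt.comp (g := e₁.symm) (f := fun w => e₁ (γ₀ w)) ?_ h2.continuousAt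
      exact e₁.continuousAt_symm (e₁.map_source h1.self_of_nhds.2)
    refine h3.congr ?_
    filter_upwards [h1] with w' hw'
    exact e₁.left_inv hw'.2
  have c6 : ∀ᶠ w in 𝓝 w₁, AnalyticAt ℂ (fun w => e₁ (γ₀ w)) w := hγa₁.eventually_analyticAt
  have c6' : ∀ᶠ w in 𝓝 w₁, AnalyticAt ℂ (fun w => e (γ₀ w)) w := hγa.eventually_analyticAt
  have hJ0' : ∀ᶠ w in 𝓝 w₁, w 0 = 0 → J w = 0 := by
    filter_upwards [hJ0, c4, c4', c5, c6'] with w h1 h2 h3 h4 h5 h6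
    simp only [hJ]
    rw [det_change h4 h3 h2 h5, h1 h6, mul_zero]
  -- the lift is given by `ρ`
  have c7 : ∀ᶠ w in 𝓝 w₁, ξ (bl w) ∈ v '' O → γ₀ w ∈ O ∧ γ₀ w = ρ (bl w) := by
    filter_upwards [hlift] with w h1 h2
    obtain ⟨h3, h4⟩ := h1 h2
    refine ⟨h3, ?_⟩
    simp only [hρ]
    rw [← h4, hv.inv_apply y₀ h3]
  -- the main relation
  have c8 : ∀ᶠ w in 𝓝 w₁, ξ (bl w) ∈ v '' O → w 0 ≠ 0 ∧ F w ≠ 0 ∧ J w ≠ 0 ∧
      (w 0 ^ (m * Q) * nf T ρ i a (bl w)) ^ K = F w * J w ^ (m * Q * K) := by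
    filter_upwards [c1, c2, c3, c4, c5, c6, c7.eventually_nhds, hFT] with w d1 d2 d3 d4 d5 d6 d7 d8 d9
    have hw0 : w 0 ≠ 0 := fun h0 => (hSO (hφS w d1 h0)) d9
    obtain ⟨hγO, hγρ⟩ := d7.self_of_nhds d9
    have heq : (fun w => e₁ (γ₀ w)) =ᶠ[𝓝 w] fun w => e₁ (ρ (bl w)) := by
      filter_upwards [d7, (hφ w d1).1.eventually_mem (hvO.mem_nhds d9)] with w' h1 h2
      rw [(h1 h2).2]
    have hat : At e₁ (ρ (bl w)) := hγρ ▸ d4
    have hρan := hξ.rho_analyticAt hv y₀ d1 d9 hat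
    have hJw : J w = (fderiv ℂ (fun w => e₁ (ρ w)) (bl w)).det * w 0 := by
      simp only [hJ]
      rw [heq.fderiv_eq, ← det_fderiv_bl w]
      exact det_fderiv_comp (G := fun w => e₁ (ρ w)) (F := bl) hρan.differentiableAt
        (analyticAt_bl w).differentiableAt
    have hnf := nf_eq hM hL hT hξ hv y₀ d1 d9 d2 hat (hγρ ▸ d3 : ρ (bl w) ∈ M.U a)
    have hTne : T i (e₁, a) (γ₀ w) ≠ 0 :=
      (hT.holo (γ₀ w) hγO i (e₁, a) e₁ d4 (by rw [hγρ, hv.apply_inv y₀ d9]; exact d2) ⟨d4, d3⟩).2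
    have hFw := d8 hγO
    refine ⟨hw0, ?_, ?_, ?_⟩
    · rw [hFw]; exact pow_ne_zero _ hTne
    · rw [hJw]; exact mul_ne_zero (hξ.rho_det_ne_zero hv y₀ d1 d9 hat) hw0
    · have key : ∀ x D t : ℂ, (x ^ (m * Q) * (t * D ^ (m * Q))) ^ K =
          t ^ K * (D * x) ^ (m * Q * K) := by
        intro x D t
        ring
      rw [hnf, hFw, hJw, hγρ]
      exact key _ _ _
  obtain ⟨F₁, hF₁, hFF₁⟩ := exists_div hF hw₁0 hF0
  obtain ⟨J₁, hJ₁, hJJ₁⟩ := exists_div hJan hw₁0 hJ0'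
  have hP₁ : ¬ ∀ᶠ w in 𝓝 w₁, F₁ w * J₁ w ^ (m * Q * K) = 0 := by
    intro h
    obtain ⟨w, ⟨d1, d2, d3, d4⟩, -, d5⟩ := hdense w₁ hw₁ _ (h.and (c8.and (hFF₁.and hJJ₁)))
    obtain ⟨-, h1, h2, -⟩ := d2 d5
    rw [d3] at h1
    rw [d4] at h2
    exact mul_ne_zero (right_ne_zero_of_mul h1) (pow_ne_zero _ (right_ne_zero_of_mul h2)) d1
  obtain ⟨b, P, hP, hPP, hPne⟩ := exists_max_pow (hF₁.mul (hJ₁.pow (m * Q * K))) hw₁0 hP₁
  have c9 : ∀ᶠ w in 𝓝 w₁, ξ (bl w) ∈ v '' O → nf T ρ i a (bl w) ^ K = w 0 ^ (1 + b) * P w := by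
    filter_upwards [c8, hFF₁, hJJ₁, hPP] with w d1 d2 d3 d4 d5
    obtain ⟨h0, -, -, h1⟩ := d1 d5
    have h2 : F₁ w * J₁ w ^ (m * Q * K) = w 0 ^ b * P w := d4
    rw [d2, d3, mul_pow, mul_pow, ← pow_mul] at h1
    have h3 : w 0 ^ (m * Q * K) * nf T ρ i a (bl w) ^ K =
        w 0 ^ (m * Q * K) * (w 0 ^ (1 + b) * P w) := by
      rw [h1]
      linear_combination w 0 * w 0 ^ (m * Q * K) * h2
    exact mul_left_cancel₀ (pow_ne_zero _ h0) h3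
  obtain ⟨w₂, ⟨hw₂0, hPw₂⟩, f1, f2, f3, f4, f5, f6, f7, f8, f9⟩ : ∃ w₂ : Cm 4,
      (w₂ 0 = 0 ∧ P w₂ ≠ 0) ∧ bl w₂ ∈ B ∧ ξ (bl w₂) ∈ L.U i ∧ γ₀ w₂ ∈ M.U a ∧ At e₁ (γ₀ w₂) ∧
      ContinuousAt γ₀ w₂ ∧ AnalyticAt ℂ (fun w => e₁ (γ₀ w)) w₂ ∧
      (∀ᶠ w in 𝓝 w₂, ξ (bl w) ∈ v '' O → γ₀ w ∈ O ∧ γ₀ w = ρ (bl w)) ∧
      (∀ᶠ w in 𝓝 w₂, ξ (bl w) ∈ v '' O → nf T ρ i a (bl w) ^ K = w 0 ^ (1 + b) * P w) ∧
      AnalyticAt ℂ P w₂ := by
    have h1 : ∃ᶠ w in 𝓝 w₁, w 0 = 0 ∧ P w ≠ 0 := by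
      rw [Filter.not_eventually] at hPne
      refine hPne.mono fun w hw => ?_
      push Not at hw
      exact hw
    exact (h1.and_eventually (c1.and (c2.and (c3.and (c4.and (c5.and (c6.and
      (c7.eventually_nhds.and (c9.eventually_nhds.and hP.eventually_analyticAt))))))))).exists
  -- shift
  set τ : Cm 4 := bl w₂ with hτ
  have hτ0 : τ 0 = 0 := hw₂0
  have hτ1 : τ 1 = 0 := by
    change w₂ 0 * w₂ 1 = 0
    rw [hw₂0, zero_mul]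
  obtain ⟨r', hr', hr'B⟩ := Metric.isOpen_iff.1 (hξ.isOpen_preimage (hL.isOpen i)) τ ⟨f1, f2⟩
  have hsh : ∀ x : Cm 4, x ∈ Metric.ball (0 : Cm 4) r' → x + τ ∈ B ∧ ξ (x + τ) ∈ L.U i := by
    intro x hx
    refine hr'B ?_
    rw [Metric.mem_ball, dist_eq_norm, add_sub_cancel_right]
    simpa using hx
  have hξ' : LocIso X (fun x => ξ (x + τ)) (Metric.ball 0 r') :=
    (hξ.shift τ).mono Metric.isOpen_ball fun x hx => (hsh x hx).1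
  set E₀ : Set (Cm 4) := {x | x ∈ Metric.ball (0 : Cm 4) r' ∧ ξ (x + τ) ∉ v '' O} with hE₀
  have hE₀' : ∀ x ∈ Metric.ball (0 : Cm 4) r' \ E₀, ξ (x + τ) ∈ v '' O := by
    intro x hx
    by_contra h
    exact hx.2 ⟨hx.1, h⟩
  have hopen' : IsOpen (Metric.ball (0 : Cm 4) r' \ E₀) := by
    have h1 : Metric.ball (0 : Cm 4) r' \ E₀ =
        {x | x ∈ Metric.ball (0 : Cm 4) r' ∧ ξ (x + τ) ∈ v '' O} := by
      ext x
      constructor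
      · intro hx
        exact ⟨hx.1, hE₀' x hx⟩
      · intro hx
        exact ⟨hx.1, fun h => h.2 hx.2⟩
    rw [h1]
    exact hξ'.isOpen_preimage hvO
  obtain ⟨Ω, g, hΩ, hg, hcov⟩ := hξ'.cover hO
  have hadd : ∀ x : Cm 4, AnalyticAt ℂ (fun x : Cm 4 => x + τ) x := fun x => by fun_prop
  have hw₂' : w₂ - τ + τ = w₂ := sub_add_cancel _ _
  have hblw : bl (w₂ - τ) = 0 := by
    have h1 := bl_add (w := w₂ - τ) hτ0 hτ1
    rw [hw₂'] at h1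
    exact (add_eq_right.1 h1.symm)
  have htend : Tendsto (fun w : Cm 4 => w + τ) (𝓝 (w₂ - τ)) (𝓝 w₂) := by
    have := (hadd (w₂ - τ)).continuousAt.tendsto
    rwa [hw₂'] at this
  have hblB : ∀ᶠ w in 𝓝 (w₂ - τ), bl w ∈ Metric.ball (0 : Cm 4) r' := by
    refine continuous_bl.continuousAt.eventually_mem ?_
    rw [hblw]
    exact Metric.ball_mem_nhds _ hr'
  refine hTD Y χ hχ M hM hNef (Q * K) r' hr' E₀ hopen' Ω g hΩ hg hcov (fun x => ρ (x + τ)) ?_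
    (fun a x => nf T ρ i a (x + τ) ^ K) ?_ ?_ (w₂ - τ) ?_ ?_ (fun w => γ₀ (w + τ)) ?_ ?_ ?_ a ?_
    (1 + b) (by omega) (fun w => P (w + τ)) ?_ ?_ ?_
  · intro x hx
    obtain ⟨h1, h2⟩ := hsh x hx.1
    have h3 := hE₀' x hx
    refine ⟨ContinuousAt.comp (g := ρ) (f := fun x => x + τ) (hξ.rho_continuousAt hv y₀ h1 h3)
      (hadd x).continuousAt, fun e he => ?_⟩
    exact AnalyticAt.comp (g := fun x => e (ρ x)) (f := fun x => x + τ)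
      (hξ.rho_analyticAt hv y₀ h1 h3 he) (hadd x)
  · intro a x hx hxa
    obtain ⟨h1, h2⟩ := hsh x hx.1
    have h3 := hE₀' x hx
    obtain ⟨h4, h5⟩ := nf_analyticAt hM hL hT hξ hv y₀ h1 h3 h2 hxa
    refine ⟨?_, pow_ne_zero _ h5⟩
    exact (AnalyticAt.comp (g := nf T ρ i a) (f := fun x => x + τ) h4 (hadd x)).pow K
  · intro a a' x hx hxa hxa'
    obtain ⟨h1, h2⟩ := hsh x hx.1
    have h3 := hE₀' x hx
    have h4 := nf_change hL hT hξ hv y₀ h1 h3 h2 hxa' hxa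
    simp only [hρ] at h4 ⊢
    rw [h4, mul_pow, ← pow_mul]
  · change w₂ 0 - τ 0 = 0
    rw [hw₂0, hτ0, sub_zero]
  · rw [hblw]
    exact Metric.mem_ball_self hr'
  · exact ContinuousAt.comp (g := γ₀) (f := fun w => w + τ) (by rw [hw₂']; exact f5)
      (hadd _).continuousAt
  · intro e' he'
    simp only [hw₂'] at he'
    have h1 := analyticAt_change f5 f4 he' f6
    exact AnalyticAt.comp (g := fun w => e' (γ₀ w)) (f := fun w => w + τ) (by rw [hw₂']; exact h1)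
      (hadd _)
  · filter_upwards [htend.eventually f7, hblB] with w h1 h2 h3
    rw [bl_add hτ0 hτ1] at h1
    exact (h1 (hE₀' _ ⟨h2, h3⟩)).2
  · simp only [hw₂']
    exact f3
  · exact ContinuousAt.comp (g := P) (f := fun w => w + τ) (by rw [hw₂']; exact f9.continuousAt)
      (hadd _).continuousAt
  · simp only [hw₂']
    exact hPw₂
  · filter_upwards [htend.eventually f8, hblB] with w h1 h2 h3
    rw [bl_add hτ0 hτ1] at h1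
    have h4 := h1 (hE₀' _ ⟨h2, h3⟩)
    rw [h4]
    change (w 0 + τ 0) ^ (1 + b) * P (w + τ) = _
    rw [hτ0, add_zero]

end Vale.Agent.P277.H19
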