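import Vale.Agent.P277.H19.FinalR
import Vale.Agent.P277.H19.TXs
import Vale.Agent.P277.H73.Final
import Vale.Agent.P277.H335.TC
import Vale.Agent.P277.H884.TB

/-!
# P277: final form of Theorem T
-/

open scoped Manifold ContDiff Topology
open Vale.Agent.P272.K Vale.Agent.P285.H281.FD Vale.Agent.P267.H175 Set

noncomputable section

namespace Vale.Agent.P277.H19

theorem finalT (hD : StD) (hF : StF) (s : Prop) (hX : StTX s) (Y : Type) [TopologicalSpace Y]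
    [T2Space Y] [CompactSpace Y] [ChartedSpace (Cm 4) Y] [IsManifold 𝓘(ℂ, Cm 4) ω Y]
    (χ : Chart 4 Y → Cm 4 → Matrix (Fin 4) (Fin 4) ℂ) (hχ : IsKahler χ) :
    ∃ b : ℕ, ∀ (M : Bd Y) (m N : ℕ) (X Z : ℕ → CSp) (v : Y → (X 0).pt)
      (f : ∀ j, (X j).pt → (Z j).pt) (f' : ∀ j, (X (j + 1)).pt → (Z j).pt)
      (A : ∀ j, Set (Z j).pt) (L : ∀ j, Bd (X j).pt), IsLB 4 M → Nef χ M → 1 ≤ m →
      IsOpenEmb (X 0) univ v → Function.Surjective v →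
      (∃ c : ℕ, 1 ≤ c ∧ ∃ t, IsIsoY univ v (L 0) ((((Bd.can 4 Y).pow m).mul M).pow c) t) →
      (∀ j < N, ∃ p q : ℕ, 1 ≤ p ∧ 1 ≤ q ∧ IsFlip (X j) (Z j) (X (j + 1)) (f j) (f' j) (A j)
        ((L j).pow p) ((L (j + 1)).pow q)) →
      (s → ∀ j ≤ N, DimLe (X j) 1 {x | ¬ IsReg 4 (X j) x}) → N ≤ b := by
  have : IsManifold 𝓘(ℝ, Cm 4) ∞ Y := Vale.Agent.P267.H928.Int.isManifold_real (E := Cm 4)
  obtain ⟨b, a, -, ha⟩ := stE (Cm 4) Y 3
  refine ⟨b, fun M m N X Z v f f' A L hM hnef hm hv hsurj hL0 hflip hs => ?_⟩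
  exact H335.stT_of (H615.stR_of hD hF) H619.stD0 H884.stTB s hX Y χ hχ M hM hnef m hm b a ha N X Z
    v hv hsurj f f' A L hL0 hflip hs

end Vale.Agent.P277.H19
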