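import Vale.Agent.P277.Stmts5
import Vale.Agent.P277.H619.Pair2

/-!
# P277: `StF` from its noncompact version
-/

set_option maxSynthPendingDepth 3

open scoped Manifold ContDiff Topology
open Vale.Agent.P272.K Vale.Agent.P285.H281.FD Vale.Agent.P267.H175 Set

noncomputable section

namespace Vale.Agent.P277.H19

theorem stF_of (hF : StF') : StF := by
  intro Y _ _ _ _ _ X O v hv hO P Q G s s' σ σ' x₀ hout
  have : SecondCountableTopology Y := ChartedSpace.secondCountable_of_sigmaCompact (Cm 4) Y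
  obtain ⟨η, hη, h1⟩ := hF Y X O v hv hO P Q G s s' σ σ' x₀ hout
  refine ⟨η, fun y => ⟨hη.sm y, hη.closed y⟩, hη.cpt, fun C hCO hC hd => ?_⟩
  obtain ⟨θ, hθ, hθ0, hne⟩ := h1 C hCO hC hd
  have hP : PairProps Y := H619.stPair Y
  refine ⟨fun a => pr Y θ a, ?_, ?_, ?_, ?_, hne⟩
  · intro a b ha hb
    show pr Y θ (a + b) = pr Y θ a + pr Y θ b
    rw [hP.comm, hP.add a b θ univ isCompact_univ (fun y => ⟨ha y, hb y, hθ.sm y⟩)
      (fun y hy => (hy (mem_univ y)).elim), hP.comm a, hP.comm b]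
  · intro c a _
    show pr Y θ (c • a) = c * pr Y θ a
    rw [hP.comm, hP.smul, hP.comm a]
  · intro β hβ
    show pr Y θ (dF β) = 0
    rw [hP.comm]
    exact hP.stokes β θ univ isCompact_univ hβ (fun y => ⟨hθ.sm y, hθ.closed y⟩)
      (Or.inl fun y hy => (hy (mem_univ y)).elim)
  · intro a _ ha
    show pr Y θ a = 0
    have h2 : pr Y θ a = pr Y (0 : Fm 4 Y) a := hP.congr θ 0 a fun y => by
      by_cases hy : y ∈ C
      · exact Or.inr (hθ0 y hy)
      · exact Or.inl (ha y hy)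
    rw [h2]
    have h3 := hP.smul 0 (0 : Fm 4 Y) a
    simpa using h3

end Vale.Agent.P277.H19
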