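import Vale.Agent.P277.H19.PushB
import Mathlib.Geometry.Manifold.PartitionOfUnity

/-!
# P277, package TX-PUSH: integrability and weak closedness
-/

open scoped Manifold ContDiff ComplexOrder Topology
open Vale.Agent.P272.K Vale.Agent.P285.H281.FD Set Filter MeasureTheory Metric

noncomputable section

namespace Vale.Agent.P277.H19

open TX H371

variable {Y : Type} [TopologicalSpace Y] [ChartedSpace (Cm 4) Y] [IsManifold 𝓘(ℂ, Cm 4) ω Y]
  {X : CSp} {O : Set Y} {v : Y → X.pt} {V : Set X.pt} {G : X.pt → Cm 4} {c : Cm 4} {r : ℝ}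
  {d : ℕ} {lam : X.pt → ℂ} {θ : Cm 4 → ℂ} {E : Set (Cm 4)}
  {χ : Chart 4 Y → Cm 4 → Matrix (Fin 4) (Fin 4) ℂ}
  {z₀ : Cm 4} {ρ : ℝ} {P : Type} {e : P → Chart 4 Y} {q : P → Cm 4} {s : P → ℝ}

omit [IsManifold 𝓘(ℂ, Cm 4) ω Y] in
theorem LocD.contDiffAt_chi (hL : LocD O v V G c r z₀ ρ e q s) (hχ : IsKahler χ) {p : P} {w : Cm 4}
    (hw : w ∈ closedBall (q p) (s p)) (i j : Fin 4) :
    ContDiffAt ℝ 1 (fun z => χ (e p) z i j) w := by
  have hm := hL.mem p w hw
  have h1 := hχ.smooth (e p) ((e p).symm w) ⟨hL.atl p, (e p).map_target hm.1⟩ i j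
  rw [(e p).right_inv hm.1] at h1
  exact h1.of_le (by exact_mod_cast le_top)

omit [IsManifold 𝓘(ℂ, Cm 4) ω Y] in
theorem LocD.closed_chi (hL : LocD O v V G c r z₀ ρ e q s) (hχ : IsKahler χ) {p : P} {w : Cm 4}
    (hw : w ∈ closedBall (q p) (s p)) (i j k : Fin 4) :
    dz k (fun z => χ (e p) z i j) w = dz i (fun z => χ (e p) z k j) w := by
  have hm := hL.mem p w hw
  have h1 := hχ.closed (e p) ((e p).symm w) ⟨hL.atl p, (e p).map_target hm.1⟩ i j k
  rw [(e p).right_inv hm.1] at h1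
  exact h1

omit [IsManifold 𝓘(ℂ, Cm 4) ω Y] in
theorem LocD.continuousAt_aH (hL : LocD O v V G c r z₀ ρ e q s) (hv : IsOpenEmb X O v)
    (hG : ∀ x ∈ V, ∀ i, X.Hol (fun y => G y i) x) (hχ : IsKahler χ) {p : P} {w : Cm 4}
    (hw : w ∈ closedBall (q p) (s p)) (i j : Fin 4) :
    ContinuousAt (fun w => aH (χ (e p)) (Fp v G (e p)) w i j) w := by
  simp only [aH_apply]
  have h1 := hL.analyticAt hv hG hw
  refine tendsto_finsetSum _ fun n _ => tendsto_finsetSum _ fun m _ => ?_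
  change ContinuousAt _ _
  refine (((analyticAt_adj_jmat h1 m i).continuousAt).mul
    (hL.contDiffAt_chi hχ hw m n).continuousAt).mul ?_
  exact Complex.continuous_conj.continuousAt.comp (analyticAt_adj_jmat h1 n j).continuousAt

omit [IsManifold 𝓘(ℂ, Cm 4) ω Y] in
theorem LocD.bound_aH (hL : LocD O v V G c r z₀ ρ e q s) (hv : IsOpenEmb X O v)
    (hG : ∀ x ∈ V, ∀ i, X.Hol (fun y => G y i) x) (hχ : IsKahler χ) (p : P) (i j : Fin 4) :
    ∃ C, ∀ w ∈ closedBall (q p) (s p), ‖aH (χ (e p)) (Fp v G (e p)) w i j‖ ≤ C :=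
  (isCompact_closedBall _ _).exists_bound_of_continuousOn fun _ hw =>
    (hL.continuousAt_aH hv hG hχ hw i j).continuousWithinAt

/-- bounded continuous functions are integrable on bounded open sets -/
theorem integrableOn_of_bound {S : Set (Cm 4)} {f : Cm 4 → ℂ} (hS : MeasurableSet S)
    (hf : ContinuousOn f S) {q : Cm 4} {s : ℝ} (hSq : S ⊆ closedBall q s) {C : ℝ}
    (hC : ∀ w ∈ S, ‖f w‖ ≤ C) : IntegrableOn f S := by
  have h1 : volume S < ⊤ := (measure_mono hSq).trans_lt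
    (isCompact_closedBall q s).measure_lt_top
  have : IsFiniteMeasure (volume.restrict S) := ⟨by rwa [Measure.restrict_apply_univ]⟩
  refine Integrable.of_bound (hf.aestronglyMeasurable hS) C ?_
  exact (ae_restrict_iff' hS).2 (Eventually.of_forall hC)

omit [IsManifold 𝓘(ℂ, Cm 4) ω Y] in
theorem LocD.integrableOn_aH (hL : LocD O v V G c r z₀ ρ e q s) (hv : IsOpenEmb X O v)
    (hG : ∀ x ∈ V, ∀ i, X.Hol (fun y => G y i) x) (hχ : IsKahler χ) {p : P} {S : Set (Cm 4)}
    (hS : MeasurableSet S) (hSb : S ⊆ closedBall (q p) (s p)) {φ : Cm 4 → ℂ}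
    (hφ : ContinuousOn (fun w => φ (Fp v G (e p) w)) S) {C : ℝ}
    (hC : ∀ w ∈ S, ‖φ (Fp v G (e p) w)‖ ≤ C) (i j : Fin 4) :
    IntegrableOn (fun w => aH (χ (e p)) (Fp v G (e p)) w i j * φ (Fp v G (e p) w)) S := by
  obtain ⟨M, hM⟩ := hL.bound_aH hv hG hχ p i j
  refine integrableOn_of_bound hS (ContinuousOn.mul (fun w hw =>
    (hL.continuousAt_aH hv hG hχ (hSb hw) i j).continuousWithinAt) hφ) hSb (C := |M| * |C|) ?_
  intro w hw
  rw [norm_mul]
  exact mul_le_mul ((hM w (hSb hw)).trans (le_abs_self M)) ((hC w hw).trans (le_abs_self C))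
    (norm_nonneg _) (abs_nonneg _)

omit [IsManifold 𝓘(ℂ, Cm 4) ω Y] in
theorem LocD.not_zero (hL : LocD O v V G c r z₀ ρ e q s) (hv : IsOpenEmb X O v)
    (hc : IsCov X V G c r d lam θ) {p : P} {w : Cm 4} (hw : w ∈ ball (q p) (s p))
    (hwU : Fp v G (e p) w ∈ ball z₀ ρ) : ¬ (fun w => θ (Fp v G (e p) w)) =ᶠ[𝓝 w] 0 := by
  intro h0
  obtain ⟨N, hN, hNo, hwN⟩ := _root_.eventually_nhds_iff.1
    (h0.and (isOpen_ball.eventually_mem hw))
  have hN' : ∀ y ∈ N, y ∈ (e p).target ∧ (e p).symm y ∈ O ∧ v ((e p).symm y) ∈ V := fun y hy =>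
    hL.mem p y (ball_subset_closedBall (hN y hy).2)
  have h1 : IsOpen (v '' ((e p).symm '' N)) := by
    refine hv.isOpenMap _ ?_ ((e p).symm.isOpen_image_of_subset_source hNo fun y hy => (hN' y hy).1)
    rintro _ ⟨y, hy, rfl⟩; exact (hN' y hy).2.1
  have h2 : IsOpen (G '' (v '' ((e p).symm '' N))) := by
    refine hc.openMap _ ?_ h1
    rintro _ ⟨_, ⟨y, hy, rfl⟩, rfl⟩; exact (hN' y hy).2.2
  refine hc.ne (Fp v G (e p) w) (hL.sub (ball_subset_closedBall hwU)) ?_
  filter_upwards [h2.mem_nhds ⟨_, ⟨_, ⟨w, hwN, rfl⟩, rfl⟩, rfl⟩] with z hz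
  obtain ⟨_, ⟨_, ⟨y, hy, rfl⟩, rfl⟩, rfl⟩ := hz
  exact (hN y hy).1

omit [IsManifold 𝓘(ℂ, Cm 4) ω Y] in
theorem LocD.null (hL : LocD O v V G c r z₀ ρ e q s) (hv : IsOpenEmb X O v)
    (hc : IsCov X V G c r d lam θ) (p : P) :
    volume {w | w ∈ {w | w ∈ ball (q p) (s p) ∧ Fp v G (e p) w ∈ ball z₀ ρ} ∧
      θ (Fp v G (e p) w) = 0} = 0 := by
  refine volume_zeros (J := fun w => θ (Fp v G (e p) w)) ?_ ?_ ?_
  · rw [isOpen_iff_mem_nhds]
    rintro w ⟨h1, h2⟩
    have h4 : ContinuousAt (Fp v G (e p)) w :=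
      (hL.analyticAt hv hc.holo (ball_subset_closedBall h1)).continuousAt
    filter_upwards [isOpen_ball.mem_nhds h1, h4.eventually_mem (isOpen_ball.mem_nhds h2)]
      with y a b using ⟨a, b⟩
  · rintro w ⟨h1, h2⟩
    exact (hc.an _ (hL.sub (ball_subset_closedBall h2))).comp
      (hL.analyticAt hv hc.holo (ball_subset_closedBall h1))
  · rintro w ⟨h1, h2⟩
    exact hL.not_zero hv hc h1 h2

theorem LocD.piece (hL : LocD O v V G c r z₀ ρ e q s) (hv : IsOpenEmb X O v)
    (hc : IsCov X V G c r d lam θ) (hχ : IsKahler χ) (p : P) {φ : Cm 4 → ℂ}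
    (hφ : ContinuousOn φ (ball z₀ ρ)) {C : ℝ} (hC : ∀ z ∈ ball z₀ ρ, ‖φ z‖ ≤ C) (i j : Fin 4) :
    Integrable (fun z => fsum (Om v G θ z₀ ρ (e p) (q p) (s p)) (Fp v G (e p))
      (fun w => upH χ v G ((e p).symm w) i j) z * φ z) ∧
    ∫ z, fsum (Om v G θ z₀ ρ (e p) (q p) (s p)) (Fp v G (e p))
      (fun w => upH χ v G ((e p).symm w) i j) z * φ z =
      ∫ w in Om v G θ z₀ ρ (e p) (q p) (s p),
        aH (χ (e p)) (Fp v G (e p)) w i j * φ (Fp v G (e p) w) := by
  set Ω := Om v G θ z₀ ρ (e p) (q p) (s p) with hΩ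
  set F := Fp v G (e p) with hF
  have hopen : IsOpen Ω := hL.isOpen_Om hv hc p
  have hsub : Ω ⊆ closedBall (q p) (s p) := fun w hw => ball_subset_closedBall hw.1
  have hFa : ∀ w ∈ Ω, AnalyticAt ℂ F w := fun w hw => hL.analyticAt hv hc.holo (hsub hw)
  have hfin := hL.finite hv hc p
  have h1 : ∀ z, fsum Ω F (fun w => upH χ v G ((e p).symm w) i j) z * φ z =
      fsum Ω F (fun w => upH χ v G ((e p).symm w) i j * φ (F w)) z := by
    intro z
    rw [fsum_eq hfin, fsum_eq hfin, Finset.sum_mul]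
    refine Finset.sum_congr rfl fun w hw => ?_
    rw [Set.Finite.mem_toFinset] at hw
    have hw2 : F w = z := hw.2
    rw [hw2]
  have h2 : EqOn (fun w => aH (χ (e p)) F w i j * φ (F w))
      (fun w => ‖(fderiv ℂ F w).det‖ ^ 2 • (upH χ v G ((e p).symm w) i j * φ (F w))) Ω := by
    intro w hw
    have hm := hL.mem p w (hsub hw)
    have hdet := hL.det_ne_zero hv hc p hw
    have h3 := det_sq_upH (v := v) (G := G) hχ (e := e p) (y := (e p).symm w)
      ⟨hL.atl p, (e p).map_target hm.1⟩ (by rw [(e p).right_inv hm.1]; exact hFa w hw)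
      (by rw [(e p).right_inv hm.1]; exact hdet) i j
    rw [(e p).right_inv hm.1] at h3
    simp only
    rw [← smul_mul_assoc]
    congr 1
    exact h3.symm
  have h3 : IntegrableOn (fun w => aH (χ (e p)) F w i j * φ (F w)) Ω := by
    refine hL.integrableOn_aH hv hc.holo hχ hopen.measurableSet hsub (C := C) ?_ ?_ i j
    · exact hφ.comp (fun w hw => (hFa w hw).continuousAt.continuousWithinAt) fun w hw => hw.2.1
    · intro w hw; exact hC _ hw.2.1
  obtain ⟨h4, h5⟩ := fsum_integral (g := fun w => upH χ v G ((e p).symm w) i j * φ (F w)) hopen hFa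
    (fun w hw => hL.det_ne_zero hv hc p hw) hfin (h3.congr_fun h2 hopen.measurableSet)
  simp only [h1]
  refine ⟨h4, h5.trans ?_⟩
  exact (setIntegral_congr_fun hopen.measurableSet h2).symm

omit [IsManifold 𝓘(ℂ, Cm 4) ω Y] in
theorem LocD.null_theta (hL : LocD O v V G c r z₀ ρ e q s) (hc : IsCov X V G c r d lam θ) :
    volume {z | z ∈ ball z₀ ρ ∧ θ z = 0} = 0 := by
  refine measure_mono_null ?_ (volume_zeros (Ω := ball c r) (J := θ) isOpen_ball hc.an hc.ne)
  rintro z ⟨h1, h2⟩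
  exact ⟨hL.sub (ball_subset_closedBall h1), h2⟩

omit [IsManifold 𝓘(ℂ, Cm 4) ω Y] in
theorem LocD.fsum_zero (_ : LocD O v V G c r z₀ ρ e q s) (p : P) (g : Cm 4 → ℂ)
    {z : Cm 4} (hz : z ∉ ball z₀ ρ) :
    fsum (Om v G θ z₀ ρ (e p) (q p) (s p)) (Fp v G (e p)) g z = 0 := by
  rw [fsum]
  refine finsum_mem_eq_zero_of_forall_eq_zero ?_
  rintro w ⟨⟨-, h2, -⟩, h4⟩
  exact (hz (h4 ▸ h2)).elim

/-- integrals against the push-forward -/
theorem LocD.integral_pushH [Fintype P] (hL : LocD O v V G c r z₀ ρ e q s) (hv : IsOpenEmb X O v)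
    (hc : IsCov X V G c r d lam θ) (hχ : IsKahler χ) {φ : Cm 4 → ℂ}
    (hφ : ContinuousOn φ (ball z₀ ρ)) {C : ℝ} (hC : ∀ z ∈ ball z₀ ρ, ‖φ z‖ ≤ C) (i j : Fin 4) :
    IntegrableOn (fun z => pushH χ O v V G z i j * φ z) (ball z₀ ρ) ∧
      ∫ z in ball z₀ ρ, pushH χ O v V G z i j * φ z =
        ∑ p, ∫ w in Om v G θ z₀ ρ (e p) (q p) (s p),
          aH (χ (e p)) (Fp v G (e p)) w i j * φ (Fp v G (e p) w) := by
  have hp := fun p => hL.piece hv hc hχ p hφ hC i j
  have h1 : Integrable (fun z => ∑ p, fsum (Om v G θ z₀ ρ (e p) (q p) (s p)) (Fp v G (e p))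
      (fun w => upH χ v G ((e p).symm w) i j) z * φ z) :=
    integrable_finsetSum _ fun p _ => (hp p).1
  have h2 : ∀ᵐ z ∂(volume.restrict (ball z₀ ρ)), ∑ p, fsum (Om v G θ z₀ ρ (e p) (q p) (s p))
      (Fp v G (e p)) (fun w => upH χ v G ((e p).symm w) i j) z * φ z =
        pushH χ O v V G z i j * φ z := by
    rw [ae_restrict_iff' measurableSet_ball]
    have h3 : ∀ᵐ z : Cm 4, ¬ (z ∈ ball z₀ ρ ∧ θ z = 0) := by
      rw [ae_iff]
      simpa using hL.null_theta hc
    filter_upwards [h3] with z hz hzb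
    rw [hL.pushH_eq hv hc χ hzb (fun h => hz ⟨hzb, h⟩), Finset.sum_mul]
  refine ⟨h1.integrableOn.congr h2, ?_⟩
  rw [← integral_congr_ae h2, setIntegral_eq_integral_of_forall_compl_eq_zero fun z hz =>
    Finset.sum_eq_zero fun p _ => by rw [hL.fsum_zero p _ hz, zero_mul],
    integral_finsetSum _ fun p _ => (hp p).1]
  exact Finset.sum_congr rfl fun p _ => (hp p).2

theorem push_b [Fintype P] (hL : LocD O v V G c r z₀ ρ e q s) (hv : IsOpenEmb X O v)
    (hc : IsCov X V G c r d lam θ) (hχ : IsKahler χ) (i j : Fin 4) :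
    IntegrableOn (fun z => pushH χ O v V G z i j) (ball z₀ ρ) := by
  have h1 := (hL.integral_pushH hv hc hχ (φ := fun _ => 1) continuousOn_const (C := 1)
    (fun z _ => by simp) i j).1
  simpa using h1

theorem contDiff_ofReal {a : Cm 4 → ℝ} (ha : ContDiff ℝ ∞ a) :
    ContDiff ℝ ∞ (fun w => (a w : ℂ)) := Complex.ofRealCLM.contDiff.comp ha

theorem continuous_dz {a : Cm 4 → ℝ} (ha : ContDiff ℝ ∞ a) (k : Fin 4) :
    Continuous (dz k fun w => (a w : ℂ)) :=
  (contDiff_iff_contDiffAt.2 fun z => C2.contDiffAt_dz (m := 0) (k := 1) k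
    (((contDiff_ofReal ha).contDiffAt (x := z)).of_le (by exact_mod_cast le_top))
    (by norm_num)).continuous

theorem dz_zero_of_notMem {a : Cm 4 → ℝ} {z : Cm 4} (hz : z ∉ tsupport a) (k : Fin 4) :
    dz k (fun w => (a w : ℂ)) z = 0 := by
  have h1 : (fun w => (a w : ℂ)) =ᶠ[𝓝 z] fun _ => 0 := by
    filter_upwards [notMem_tsupport_iff_eventuallyEq.1 hz] with w hw
    rw [hw]; simp
  rw [C2.dz_congr k h1, C2.dz_const]

/-- weak closedness for functions with small support -/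
theorem push_c [Fintype P] (hL : LocD O v V G c r z₀ ρ e q s) (hv : IsOpenEmb X O v)
    (hc : IsCov X V G c r d lam θ) (hχ : IsKahler χ) {a : Cm 4 → ℝ} (ha : ContDiff ℝ ∞ a)
    (hac : HasCompactSupport a) (haU : tsupport a ⊆ ball z₀ ρ) (i j k : Fin 4) :
    ∫ z, pushH χ O v V G z i j * dz k (fun w => (a w : ℂ)) z =
      ∫ z, pushH χ O v V G z k j * dz i (fun w => (a w : ℂ)) z := by
  have hb : ∀ k : Fin 4, ∃ C : ℝ, ∀ z, ‖dz k (fun w => (a w : ℂ)) z‖ ≤ C := by
    intro k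
    refine (continuous_dz ha k).bounded_above_of_compact_support ?_
    exact HasCompactSupport.intro hac fun z hz => dz_zero_of_notMem hz k
  choose C hC using hb
  have key : ∀ i j k : Fin 4, ∫ z, pushH χ O v V G z i j * dz k (fun w => (a w : ℂ)) z =
      ∑ p, ∫ w in ball (q p) (s p), aH (χ (e p)) (Fp v G (e p)) w i j *
        dz k (fun w => (a w : ℂ)) (Fp v G (e p) w) := by
    intro i j k
    rw [← setIntegral_eq_integral_of_forall_compl_eq_zero (s := ball z₀ ρ) fun z hz => by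
      rw [dz_zero_of_notMem (fun h => hz (haU h)) k, mul_zero],
      (hL.integral_pushH hv hc hχ (continuous_dz ha k).continuousOn (fun z _ => hC k z) i j).2]
    refine Finset.sum_congr rfl fun p _ => ?_
    refine (setIntegral_eq_of_subset_of_ae_sdiff_eq_zero
      measurableSet_ball.nullMeasurableSet (fun w hw => hw.1) ?_).symm
    have h3 : ∀ᵐ w : Cm 4, ¬ (w ∈ {w | w ∈ ball (q p) (s p) ∧ Fp v G (e p) w ∈ ball z₀ ρ} ∧
        θ (Fp v G (e p) w) = 0) := by
      rw [ae_iff]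
      simp only [not_not]
      exact hL.null hv hc p
    filter_upwards [h3] with w hw hwd
    have h4 : Fp v G (e p) w ∉ ball z₀ ρ := by
      intro h5
      refine hwd.2 ⟨hwd.1, h5, fun h6 => hw ⟨⟨hwd.1, h5⟩, h6⟩⟩
    rw [dz_zero_of_notMem (fun h => h4 (haU h)) k, mul_zero]
  rw [key i j k, key k j i, ← sub_eq_zero, ← Finset.sum_sub_distrib]
  refine Finset.sum_eq_zero fun p _ => ?_
  have hcont : ∀ k : Fin 4, ContinuousOn (fun w => dz k (fun w => (a w : ℂ)) (Fp v G (e p) w))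
      (ball (q p) (s p)) := fun k =>
    (continuous_dz ha k).comp_continuousOn fun w hw =>
      (hL.analyticAt hv hc.holo (ball_subset_closedBall hw)).continuousAt.continuousWithinAt
  rw [← integral_sub
    (hL.integrableOn_aH (φ := dz k fun w => (a w : ℂ)) hv hc.holo hχ measurableSet_ball
      ball_subset_closedBall (hcont k) (fun w _ => hC k _) i j)
    (hL.integrableOn_aH (φ := dz i fun w => (a w : ℂ)) hv hc.holo hχ measurableSet_ball
      ball_subset_closedBall (hcont i) (fun w _ => hC i _) k j)]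
  refine weak_closed (K := {w | w ∈ closedBall (q p) (s p) ∧ Fp v G (e p) w ∈ tsupport a})
    isOpen_ball ?_ ?_ (fun w hw => hL.analyticAt hv hc.holo (ball_subset_closedBall hw))
    (fun w hw i j => hL.contDiffAt_chi hχ (ball_subset_closedBall hw) i j)
    (fun w hw i j k => hL.closed_chi hχ (ball_subset_closedBall hw) i j k) ha
    (fun w hw hwK h => hwK ⟨ball_subset_closedBall hw, h⟩) i j k
  · refine (isCompact_closedBall (q p) (s p)).of_isClosed_subset ?_ fun w hw => hw.1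
    have h5 : ContinuousOn (Fp v G (e p)) (closedBall (q p) (s p)) := fun w hw =>
      (hL.analyticAt hv hc.holo hw).continuousAt.continuousWithinAt
    exact h5.preimage_isClosed_of_isClosed isClosed_closedBall (isClosed_tsupport a)
  · rintro w ⟨h1, h2⟩
    have hm := hL.mem p w h1
    obtain ⟨p', w', hw', hww'⟩ := hL.cov _ hm.2.2 (haU h2)
    have hpp : p' = p := hL.disj p' p w' w (ball_subset_closedBall hw') h1 hww'
    subst hpp
    have hm' := hL.mem p' w' (ball_subset_closedBall hw')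
    have h3 : w' = w := (e p').symm.injOn hm'.1 hm.1 (hv.inj hm'.2.1 hm.2.1 hww')
    exact h3 ▸ hw'

theorem stPush : StPush := by
  classical
  intro Y _ _ _ _ _ χ hχ X O v hv V G c r d lam θ hc E hE
  refine ⟨fun z hz hθ => push_a hχ hv hc hE hz hθ, fun z hz => ?_, ?_⟩
  · obtain ⟨P, _, ρ, e, q, s, hL⟩ := exists_locD hv hc hE hz
    exact ⟨ball z ρ, ball_mem_nhds z hL.pos, fun i j => push_b hL hv hc hχ i j⟩
  · intro a ha hac haE i j k
    -- local data
    have key : ∀ z : tsupport a, ∃ ρ : ℝ, 0 < ρ ∧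
        (∀ i j, IntegrableOn (fun z => pushH χ O v V G z i j) (ball z.1 ρ)) ∧
        ∀ b : Cm 4 → ℝ, ContDiff ℝ ∞ b → HasCompactSupport b → tsupport b ⊆ ball z.1 ρ →
          ∫ z, pushH χ O v V G z i j * dz k (fun w => (b w : ℂ)) z =
            ∫ z, pushH χ O v V G z k j * dz i (fun w => (b w : ℂ)) z := by
      rintro ⟨z, hz⟩
      obtain ⟨P, _, ρ, e, q, s, hL⟩ := exists_locD hv hc hE (haE hz)
      exact ⟨ρ, hL.pos, fun i j => push_b hL hv hc hχ i j, fun b hb hbc hbU =>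
        push_c hL hv hc hχ hb hbc hbU i j k⟩
    choose ρ hρ hint hweak using key
    obtain ⟨t, ht⟩ := hac.elim_finite_subcover (fun z : tsupport a => ball z.1 (ρ z))
      (fun z => isOpen_ball) fun z hz => mem_iUnion.2 ⟨⟨z, hz⟩, mem_ball_self (hρ _)⟩
    obtain ⟨f, hf⟩ := SmoothPartitionOfUnity.exists_isSubordinate 𝓘(ℝ, Cm 4)
      (isClosed_tsupport a) (fun z : t => ball z.1.1 (ρ z.1)) (fun z => isOpen_ball) (by
        intro z hz
        have h1 := ht hz
        simp only [mem_iUnion] at h1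
        obtain ⟨z', hz', h2⟩ := h1
        exact mem_iUnion.2 ⟨⟨z', hz'⟩, h2⟩)
    set b : t → Cm 4 → ℝ := fun l z => f l z * a z with hb
    have hfc : ∀ l, ContDiff ℝ ∞ (f l) := fun l => (f l).contMDiff.contDiff
    have hbs : ∀ l, ContDiff ℝ ∞ (b l) := fun l => (hfc l).mul ha
    have hbc : ∀ l, HasCompactSupport (b l) := fun l => hac.mul_left
    have hbt : ∀ l, tsupport (b l) ⊆ ball l.1.1 (ρ l.1) := fun l =>
      (tsupport_mul_subset_left).trans (hf l)
    have hab : (fun w => (a w : ℂ)) = fun w => ∑ l, (b l w : ℂ) := by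
      ext w
      by_cases hw : w ∈ tsupport a
      · have h1 : ∑ l, f l w = 1 := by
          rw [← finsum_eq_sum_of_fintype]; exact f.sum_eq_one hw
        have h2 : (∑ l, b l w) = a w := by
          simp only [hb]
          rw [← Finset.sum_mul, h1, one_mul]
        rw [← h2]; push_cast; rfl
      · have h1 : a w = 0 := image_eq_zero_of_notMem_tsupport hw
        simp [hb, h1]
    have hdz : ∀ k : Fin 4, ∀ z, dz k (fun w => (a w : ℂ)) z =
        ∑ l, dz k (fun w => (b l w : ℂ)) z := by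
      intro k z
      rw [hab]
      exact C2.dz_sum k Finset.univ fun l _ =>
        ((contDiff_ofReal (hbs l)).differentiable (by simp)) z
    have hI : ∀ i j k : Fin 4, ∀ l, Integrable (fun z => pushH χ O v V G z i j *
        dz k (fun w => (b l w : ℂ)) z) := by
      intro i j k l
      obtain ⟨C, hC⟩ := (continuous_dz (hbs l) k).bounded_above_of_compact_support
        (HasCompactSupport.intro (hbc l) fun z hz => dz_zero_of_notMem hz k)
      have h1 : IntegrableOn (fun z => pushH χ O v V G z i j * dz k (fun w => (b l w : ℂ)) z)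
          (ball l.1.1 (ρ l.1)) :=
        (hint l.1 i j).mul_bdd (c := C) (continuous_dz (hbs l) k).aestronglyMeasurable
          (Eventually.of_forall hC)
      refine (integrableOn_iff_integrable_of_support_subset fun z hz => ?_).1 h1
      by_contra hcon
      apply hz
      show pushH χ O v V G z i j * dz k (fun w => (b l w : ℂ)) z = 0
      rw [dz_zero_of_notMem (fun h => hcon (hbt l h)) k, mul_zero]
    simp only [hdz, Finset.mul_sum]
    rw [integral_finsetSum _ fun l _ => hI i j k l, integral_finsetSum _ fun l _ => hI k j i l]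
    exact Finset.sum_congr rfl fun l _ => hweak l.1 (b l) (hbs l) (hbc l) (hbt l)

end Vale.Agent.P277.H19
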