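import Vale.Agent.P277.H19.Adj
import Vale.Agent.P277.Stmts4
import Vale.Agent.P277.H622.B3

/-!
# P277, TX-RANK: a holomorphic map with vanishing Jacobian has an uncountable fibre
-/

open scoped Manifold Topology ContDiff
open Vale.Agent.P272.K Vale.Agent.P285.H281.FD Set Filter Metric

noncomputable section

namespace Vale.Agent.P277.H19

open TX

theorem stRank : StRank := by
  classical
  intro n m W hW hne F hF hninj
  -- a point of maximal rank
  set rk : Cm n → ℕ := fun z => Module.finrank ℂ (LinearMap.range (fderiv ℂ F z : Cm n →ₗ[ℂ] Cm m))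
    with hrk
  obtain ⟨p₀, hp₀, hmax⟩ : ∃ p₀ ∈ W, ∀ p ∈ W, rk p ≤ rk p₀ := by
    have h1 : (rk '' W).Nonempty := hne.image rk
    have h2 : BddAbove (rk '' W) := ⟨m, by
      rintro _ ⟨z, -, rfl⟩
      exact (Submodule.finrank_le _).trans (by simp)⟩
    obtain ⟨p₀, hp₀, h3⟩ := Nat.sSup_mem h1 h2
    exact ⟨p₀, hp₀, fun p hp => by rw [h3]; exact le_csSup h2 (mem_image_of_mem rk hp)⟩
  set D₀ := fderiv ℂ F p₀ with hD₀
  set R : Submodule ℂ (Cm m) := LinearMap.range (D₀ : Cm n →ₗ[ℂ] Cm m) with hR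
  set K : Submodule ℂ (Cm n) := LinearMap.ker (D₀ : Cm n →ₗ[ℂ] Cm m) with hK
  obtain ⟨π₀, hπ₀⟩ := R.subtype.exists_leftInverse_of_injective (by simp)
  obtain ⟨κ₀, hκ₀⟩ := K.subtype.exists_leftInverse_of_injective (by simp)
  set π : Cm m →L[ℂ] R := LinearMap.toContinuousLinearMap π₀ with hπ
  set κ : Cm n →L[ℂ] K := LinearMap.toContinuousLinearMap κ₀ with hκ
  have hπR : ∀ x : R, π (x : Cm m) = x := fun x => DFunLike.congr_fun hπ₀ x
  have hκK : ∀ x : K, κ (x : Cm n) = x := fun x => DFunLike.congr_fun hκ₀ x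
  set Ψ : Cm n → R × K := fun z => (π (F z), κ z) with hΨ
  have hΨd : ∀ z, AnalyticAt ℂ F z → HasFDerivAt Ψ ((π.comp (fderiv ℂ F z)).prod κ) z := fun z hz =>
    (π.hasFDerivAt.comp z hz.differentiableAt.hasFDerivAt).prodMk κ.hasFDerivAt
  have hΨa : AnalyticAt ℂ Ψ p₀ :=
    ((π.analyticAt _).comp (hF p₀ hp₀)).prod (κ.analyticAt _)
  have hinj : Function.Injective ((π.comp D₀).prod κ) := by
    rw [injective_iff_map_eq_zero]
    intro h hh
    have h1 : π (D₀ h) = 0 := (Prod.ext_iff.1 hh).1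
    have h2 : κ h = 0 := (Prod.ext_iff.1 hh).2
    have h3 : D₀ h = 0 := by
      have h4 := hπR ⟨D₀ h, ⟨h, rfl⟩⟩
      rw [h1] at h4
      exact (Subtype.ext_iff.1 h4).symm
    have h5 := hκK ⟨h, h3⟩
    rw [h2] at h5
    exact (Subtype.ext_iff.1 h5).symm
  have hdim : Module.finrank ℂ (Cm n) = Module.finrank ℂ (R × K) := by
    rw [Module.finrank_prod, hR, hK]
    exact (LinearMap.finrank_range_add_finrank_ker (D₀ : Cm n →ₗ[ℂ] Cm m)).symm
  set A : Cm n ≃L[ℂ] R × K := (LinearMap.linearEquivOfInjective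
    (((π.comp D₀).prod κ : Cm n →L[ℂ] R × K) : Cm n →ₗ[ℂ] R × K) hinj
      hdim).toContinuousLinearEquiv with hA
  have hAe : (A : Cm n →L[ℂ] R × K) = (π.comp D₀).prod κ := by
    ext1 x
    rfl
  have hcd : ContDiffAt ℂ ω Ψ p₀ := hΨa.contDiffAt
  have hA' : HasFDerivAt Ψ (A : Cm n →L[ℂ] R × K) p₀ := by rw [hAe]; exact hΨd p₀ (hF p₀ hp₀)
  set e := hcd.toOpenPartialHomeomorph Ψ hA' (by simp) with he
  have heΨ : ∀ y, e y = Ψ y := fun y => rfl
  have hsrc : p₀ ∈ e.source := hcd.mem_toOpenPartialHomeomorph_source hA' (by simp)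
  have hinv : ContDiffAt ℂ ω e.symm (Ψ p₀) := hcd.to_localInverse hA' (by simp)
  have hinvA : AnalyticAt ℂ e.symm (Ψ p₀) := hinv.analyticAt
  have hg0 : e.symm (Ψ p₀) = p₀ := by rw [← heΨ]; exact e.left_inv hsrc
  -- a ball in the target
  obtain ⟨ε, hε, hball⟩ : ∃ ε > 0, ∀ q ∈ ball (Ψ p₀) ε, AnalyticAt ℂ e.symm q ∧ e.symm q ∈ W ∧
      q ∈ e.target := by
    refine Metric.eventually_nhds_iff_ball.1 ?_
    refine hinvA.eventually_analyticAt.and (.and ?_ ?_)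
    · exact hinvA.continuousAt.eventually_mem (by rw [hg0]; exact hW.mem_nhds hp₀)
    · exact e.open_target.mem_nhds (by rw [← heΨ]; exact e.map_source hsrc)
  -- the derivative of `F ∘ e.symm` in the directions of `K`
  have hder : ∀ q ∈ ball (Ψ p₀) ε, ∀ τ : K,
      fderiv ℂ F (e.symm q) (fderiv ℂ e.symm q (0, τ)) = 0 := by
    intro q hq τ
    obtain ⟨h1, h2, h3⟩ := hball q hq
    have h4 : HasFDerivAt (fun q => Ψ (e.symm q))
        (((π.comp (fderiv ℂ F (e.symm q))).prod κ).comp (fderiv ℂ e.symm q)) q :=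
      (hΨd _ (hF _ h2)).comp q h1.differentiableAt.hasFDerivAt
    have h5 : HasFDerivAt (fun q => Ψ (e.symm q)) (ContinuousLinearMap.id ℂ (R × K)) q := by
      refine (hasFDerivAt_id q).congr_of_eventuallyEq ?_
      filter_upwards [e.open_target.mem_nhds h3] with y hy
      rw [← heΨ, e.right_inv hy]; rfl
    have h6 := h4.unique h5
    have h7 : ∀ y : R × K, (π (fderiv ℂ F (e.symm q) (fderiv ℂ e.symm q y)),
        κ (fderiv ℂ e.symm q y)) = y := fun y => DFunLike.congr_fun h6 y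
    have h8 : π (fderiv ℂ F (e.symm q) (fderiv ℂ e.symm q (0, τ))) = 0 := (Prod.ext_iff.1 (h7 (0, τ))).1
    -- `π` is injective on the range
    set R' := LinearMap.range (fderiv ℂ F (e.symm q) : Cm n →ₗ[ℂ] Cm m) with hR'
    set π' : R' →ₗ[ℂ] R := (π : Cm m →ₗ[ℂ] R).comp R'.subtype with hπ'
    have hsurj : Function.Surjective π' := by
      intro s
      refine ⟨⟨fderiv ℂ F (e.symm q) (fderiv ℂ e.symm q (s, 0)), ⟨_, rfl⟩⟩, ?_⟩
      exact (Prod.ext_iff.1 (h7 (s, 0))).1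
    have hle : Module.finrank ℂ R' ≤ Module.finrank ℂ R := hmax _ h2
    have hge : Module.finrank ℂ R ≤ Module.finrank ℂ R' := π'.finrank_le_finrank_of_surjective hsurj
    have hinj' : Function.Injective π' :=
      (LinearMap.injective_iff_surjective_of_finrank_eq_finrank (le_antisymm hle hge)).2 hsurj
    have h9 : (⟨fderiv ℂ F (e.symm q) (fderiv ℂ e.symm q (0, τ)), ⟨_, rfl⟩⟩ : R') = 0 := by
      apply hinj'
      rw [map_zero]
      exact h8
    exact Subtype.ext_iff.1 h9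
  -- a direction in `K`
  obtain ⟨k, hkK, hk0⟩ : ∃ k : Cm n, k ∈ K ∧ k ≠ 0 := by
    have h1 := hninj p₀ hp₀
    rw [injective_iff_map_eq_zero] at h1
    push Not at h1
    obtain ⟨k, hk, hk0⟩ := h1
    exact ⟨k, hk, hk0⟩
  set k' : K := ⟨k, hkK⟩ with hk'
  have hk'0 : k' ≠ 0 := fun h => hk0 (Subtype.ext_iff.1 h)
  have hk'n : 0 < ‖k'‖ := norm_pos_iff.2 hk'0
  set γ : ℂ → R × K := fun ζ => Ψ p₀ + ζ • ((0, k') : R × K) with hγ
  have hγb : ∀ ζ ∈ ball (0 : ℂ) (ε / ‖k'‖), γ ζ ∈ ball (Ψ p₀) ε := by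
    intro ζ hζ
    rw [mem_ball, dist_eq_norm]
    simp only [hγ, add_sub_cancel_left, norm_smul]
    have h1 : ‖((0, k') : R × K)‖ = ‖k'‖ := by simp [Prod.norm_def]
    rw [h1, ← lt_div_iff₀ hk'n]
    simpa using hζ
  have hγd : ∀ ζ, HasDerivAt γ ((0, k') : R × K) ζ := by
    intro ζ
    have h := ((hasDerivAt_id ζ).smul_const ((0, k') : R × K)).const_add (Ψ p₀)
    rw [one_smul] at h
    exact h
  have hconst : ∀ ζ ∈ ball (0 : ℂ) (ε / ‖k'‖), F (e.symm (γ ζ)) = F (e.symm (γ 0)) := by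
    intro ζ hζ
    have hd : ∀ ζ ∈ ball (0 : ℂ) (ε / ‖k'‖), HasDerivAt (fun ζ => F (e.symm (γ ζ))) 0 ζ := by
      intro ζ hζ
      obtain ⟨h1, h2, h3⟩ := hball _ (hγb ζ hζ)
      have h4 : HasFDerivAt (fun q => F (e.symm q))
          ((fderiv ℂ F (e.symm (γ ζ))).comp (fderiv ℂ e.symm (γ ζ))) (γ ζ) :=
        (hF _ h2).differentiableAt.hasFDerivAt.comp (γ ζ) h1.differentiableAt.hasFDerivAt
      have h5 := h4.comp_hasDerivAt ζ (hγd ζ)
      have h6 := hder _ (hγb ζ hζ) k'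
      rw [ContinuousLinearMap.comp_apply, h6] at h5
      exact h5
    have hε' : 0 < ε / ‖k'‖ := by positivity
    refine isOpen_ball.is_const_of_deriv_eq_zero (convex_ball (0 : ℂ) (ε / ‖k'‖)).isPreconnected
      (f := fun ζ => F (e.symm (γ ζ))) (fun ζ hζ => (hd ζ hζ).differentiableAt.differentiableWithinAt)
      (fun ζ hζ => (hd ζ hζ).deriv) hζ (mem_ball_self hε')
  refine ⟨p₀, hp₀, fun hcount => ?_⟩
  have hγ0 : e.symm (γ 0) = p₀ := by
    show e.symm (Ψ p₀ + (0 : ℂ) • ((0, k') : R × K)) = p₀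
    rw [zero_smul, add_zero, hg0]
  have hsub : (fun ζ => e.symm (γ ζ)) '' ball (0 : ℂ) (ε / ‖k'‖) ⊆ {w | w ∈ W ∧ F w = F p₀} := by
    rintro _ ⟨ζ, hζ, rfl⟩
    exact ⟨(hball _ (hγb ζ hζ)).2.1, by simp only [hconst ζ hζ, hγ0]⟩
  have hinjγ : InjOn (fun ζ => e.symm (γ ζ)) (ball (0 : ℂ) (ε / ‖k'‖)) := by
    intro ζ hζ ζ' hζ' h
    have h1 := e.symm.injOn (hball _ (hγb ζ hζ)).2.2 (hball _ (hγb ζ' hζ')).2.2 h
    have h2 : ζ • ((0, k') : R × K) = ζ' • ((0, k') : R × K) := add_left_cancel h1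
    have h3 : ζ • k' = ζ' • k' := (Prod.ext_iff.1 h2).2
    exact smul_left_injective ℂ hk'0 h3
  exact H622.ball_not_countable (by positivity) (Set.countable_of_injective_of_countable_image
    hinjγ (hcount.mono hsub))

end Vale.Agent.P277.H19
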