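import Vale.Agent.P277.H19.B1i
import Vale.Agent.P277.H19.Br3
import Vale.Agent.P277.H19.Rank

/-!
# P277, package TX-THIN: the exceptional values of a branched covering
-/

open scoped Manifold Topology ContDiff
open Vale.Agent.P272.K Vale.Agent.P285.H281.FD Set Filter Metric

noncomputable section

namespace Vale.Agent.P277.H19

open TX

/-- `S` is covered by countably many analytic images of open subsets of `ℂ^k`. -/
def Cb (k n : ℕ) (S : Set (Cm n)) : Prop :=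
  ∃ (Ω : ℕ → Set (Cm k)) (g : ℕ → Cm k → Cm n), (∀ l, IsOpen (Ω l)) ∧
    (∀ l, ∀ p ∈ Ω l, AnalyticAt ℂ (g l) p) ∧ S ⊆ ⋃ l, g l '' Ω l

theorem Cb.mono {k n : ℕ} {S S' : Set (Cm n)} (h : Cb k n S) (hS : S' ⊆ S) : Cb k n S' := by
  obtain ⟨Ω, g, h1, h2, h3⟩ := h
  exact ⟨Ω, g, h1, h2, hS.trans h3⟩

theorem cb_of_family {k n : ℕ} {κ : Type} [Countable κ] {S : Set (Cm n)} (Ω : κ → Set (Cm k))
    (g : κ → Cm k → Cm n) (h1 : ∀ l, IsOpen (Ω l)) (h2 : ∀ l, ∀ p ∈ Ω l, AnalyticAt ℂ (g l) p)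
    (h3 : S ⊆ ⋃ l, g l '' Ω l) : Cb k n S := by
  rcases isEmpty_or_nonempty κ with hκ | hκ
  · refine ⟨fun _ => ∅, fun _ _ => 0, fun _ => isOpen_empty, fun _ _ h => h.elim, fun x hx => ?_⟩
    obtain ⟨k, -⟩ := mem_iUnion.1 (h3 hx)
    exact (hκ.false k).elim
  · obtain ⟨e, he⟩ := exists_surjective_nat κ
    refine ⟨fun n => Ω (e n), fun n => g (e n), fun n => h1 _, fun n => h2 _, fun x hx => ?_⟩
    obtain ⟨k, hk⟩ := mem_iUnion.1 (h3 hx)
    obtain ⟨n, rfl⟩ := he k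
    exact mem_iUnion.2 ⟨n, hk⟩

theorem cb_iUnion {k n : ℕ} {κ : Type} [Countable κ] {T : κ → Set (Cm n)}
    (h : ∀ i, Cb k n (T i)) : Cb k n (⋃ i, T i) := by
  choose Ω g h1 h2 h3 using h
  refine cb_of_family (κ := κ × ℕ) (fun i => Ω i.1 i.2) (fun i => g i.1 i.2) (fun i => h1 _ _)
    (fun i => h2 _ _) ?_
  refine iUnion_subset fun i x hx => ?_
  obtain ⟨m, hm⟩ := mem_iUnion.1 (h3 i hx)
  exact mem_iUnion.2 ⟨(i, m), hm⟩

theorem Cb.image {k n m : ℕ} {S U : Set (Cm n)} (h : Cb k n S) (hU : IsOpen U) (hS : S ⊆ U)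
    {F : Cm n → Cm m} (hF : ∀ z ∈ U, AnalyticAt ℂ F z) : Cb k m (F '' S) := by
  obtain ⟨Ω, g, h1, h2, h3⟩ := h
  refine ⟨fun l => {p | p ∈ Ω l ∧ g l p ∈ U}, fun l p => F (g l p), fun l => ?_, fun l p hp => ?_,
    ?_⟩
  · rw [isOpen_iff_mem_nhds]
    intro p hp
    filter_upwards [(h1 l).mem_nhds hp.1,
      (h2 l p hp.1).continuousAt.eventually (hU.mem_nhds hp.2)] with q hq hq' using ⟨hq, hq'⟩
  · exact (hF _ hp.2).comp (h2 l p hp.1)
  · rintro _ ⟨x, hx, rfl⟩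
    obtain ⟨l, p, hp, hpx⟩ := mem_iUnion.1 (h3 hx)
    exact mem_iUnion.2 ⟨l, p, ⟨hp, by rw [hpx]; exact hS hx⟩, by simp only [hpx]⟩

/-- the set where a function is not locally zero is open -/
theorem isOpen_not_zero {n : ℕ} {W : Set (Cm n)} (hW : IsOpen W) {f : Cm n → ℂ}
    (hf : ∀ z ∈ W, AnalyticAt ℂ f z) : IsOpen {z | z ∈ W ∧ ¬ f =ᶠ[𝓝 z] 0} := by
  rw [isOpen_iff_mem_nhds]
  intro p hp
  obtain ⟨ε, hε, hball⟩ := Metric.isOpen_iff.1 hW p hp.1
  filter_upwards [ball_mem_nhds p hε] with q hq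
  refine ⟨hball hq, fun h0 => hp.2 ?_⟩
  have h1 : AnalyticOnNhd ℂ f (ball p ε) := fun z hz => hf z (hball hz)
  have h2 := h1.eqOn_zero_of_preconnected_of_eventuallyEq_zero (convex_ball p ε).isPreconnected hq h0
  filter_upwards [ball_mem_nhds p hε] with z hz using h2 hz

theorem analyticAt_matdet {n m : ℕ} {M : Cm n → Matrix (Fin m) (Fin m) ℂ} {z : Cm n}
    (h : ∀ i j, AnalyticAt ℂ (fun w => M w i j) z) : AnalyticAt ℂ (fun w => (M w).det) z := by
  simp only [Matrix.det_apply']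
  exact Finset.analyticAt_fun_sum _ fun σ _ => analyticAt_const.mul
    (Finset.analyticAt_fun_prod _ fun i _ => h _ _)

theorem analyticAt_mat {F : Cm 4 → Cm 4} {z : Cm 4} (hF : AnalyticAt ℂ F z) (i j : Fin 4) :
    AnalyticAt ℂ (fun w => mat (fderiv ℂ F w) i j) z := by
  have h2 : AnalyticAt ℂ (fun w => fderiv ℂ F w (Pi.single j 1)) z :=
    AnalyticAt.comp (g := ContinuousLinearMap.apply ℂ (Cm 4) (Pi.single j (1 : ℂ) : Cm 4))
      (ContinuousLinearMap.analyticAt _ _) hF.fderiv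
  exact AnalyticAt.comp (g := ContinuousLinearMap.proj (R := ℂ) (φ := fun _ : Fin 4 => ℂ) i)
    (ContinuousLinearMap.analyticAt _ _) h2

theorem analyticAt_adj {F : Cm 4 → Cm 4} {z : Cm 4} (hF : AnalyticAt ℂ F z) (i j : Fin 4) :
    AnalyticAt ℂ (fun w => (mat (fderiv ℂ F w)).adjugate i j) z := by
  simp only [Matrix.adjugate_apply]
  refine analyticAt_matdet (fun a b => ?_)
  simp only [Matrix.updateRow_apply]
  split_ifs
  · exact analyticAt_const
  · exact analyticAt_mat hF a b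

/-- The points where the rank of a map with countable fibres is at most two. -/
theorem cb_rank {Ω : Set (Cm 4)} (hΩ : IsOpen Ω) {F : Cm 4 → Cm 4}
    (hF : ∀ z ∈ Ω, AnalyticAt ℂ F z) (hc : ∀ z ∈ Ω, {w | w ∈ Ω ∧ F w = F z}.Countable) :
    Cb 2 4 (F '' {z | z ∈ Ω ∧ (mat (fderiv ℂ F z)).adjugate = 0}) := by
  classical
  -- the Jacobian determinant
  set J : Cm 4 → ℂ := fun z => (mat (fderiv ℂ F z)).det with hJ
  have hJa : ∀ z ∈ Ω, AnalyticAt ℂ J z := fun z hz =>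
    analyticAt_matdet (analyticAt_mat (hF z hz))
  have hadj : ∀ z ∈ Ω, ∀ i j, AnalyticAt ℂ (fun w => (mat (fderiv ℂ F w)).adjugate i j) z :=
    fun z hz => analyticAt_adj (hF z hz)
  have hJne : ∀ z ∈ Ω, ¬ J =ᶠ[𝓝 z] 0 := by
    intro z hz h0
    obtain ⟨U, hU, hUo, hzU⟩ := _root_.eventually_nhds_iff.1 (h0.and (hΩ.eventually_mem hz))
    obtain ⟨w, hw, hw'⟩ := stRank 4 4 U hUo (⟨z, hzU⟩ : U.Nonempty) F (fun w hw => hF w (hU w hw).2) (by
      intro w hw hinj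
      obtain ⟨h, hh0, hh⟩ := Matrix.exists_mulVec_eq_zero_iff.2 (hU w hw).1
      rw [mat_mulVec] at hh
      exact hh0 (hinj (hh.trans (map_zero _).symm)))
    have h1 : {x | x ∈ U ∧ F x = F w} ⊆ {x | x ∈ Ω ∧ F x = F w} := fun x hx =>
      ⟨(hU x hx.1).2, hx.2⟩
    exact hw' ((hc w (hU w hw).2).mono h1)
  obtain ⟨W, g, hW, hgi, hg, hcov⟩ := b1_inj hΩ hJa hJne
  have key : ∀ k, Cb 2 3 {q | q ∈ W k ∧ (mat (fderiv ℂ F (g k q))).adjugate = 0} := by
    intro k
    have hga : ∀ q ∈ W k, ∀ i j,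
        AnalyticAt ℂ (fun q => (mat (fderiv ℂ F (g k q))).adjugate i j) q := fun q hq i j =>
      AnalyticAt.fun_comp (hadj _ (hg k q hq).2 i j) (hg k q hq).1
    have h1 : ∀ q ∈ W k, ∃ i j, ¬ (fun q => (mat (fderiv ℂ F (g k q))).adjugate i j) =ᶠ[𝓝 q] 0 := by
      intro q hq
      by_contra hcon
      push Not at hcon
      have h2 : ∀ᶠ q' in 𝓝 q, ∀ i j, (mat (fderiv ℂ F (g k q'))).adjugate i j = 0 :=
        eventually_all.2 fun i => eventually_all.2 fun j => hcon i j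
      obtain ⟨U, hU, hUo, hqU⟩ := _root_.eventually_nhds_iff.1 (h2.and ((hW k).eventually_mem hq))
      obtain ⟨w, hw, hw'⟩ := stRank 3 4 U hUo (⟨q, hqU⟩ : U.Nonempty) (fun q => F (g k q)) (fun w hw =>
          AnalyticAt.fun_comp (hF _ (hg k w (hU w hw).2).2) (hg k w (hU w hw).2).1) (by
        intro w hw hinj
        have h3 : (mat (fderiv ℂ F (g k w))).adjugate = 0 := by
          ext i j; exact (hU w hw).1 i j
        have h4 := adjugate_eq_zero_iff.1 h3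
        rw [rank_mat] at h4
        have h5 : fderiv ℂ (fun q => F (g k q)) w =
            (fderiv ℂ F (g k w)).comp (fderiv ℂ (g k) w) :=
          ((hF _ (hg k w (hU w hw).2).2).differentiableAt.hasFDerivAt.comp w
            (hg k w (hU w hw).2).1.differentiableAt.hasFDerivAt).fderiv
        rw [h5] at hinj
        have h6 := LinearMap.finrank_range_of_inj (f := (((fderiv ℂ F (g k w)).comp
          (fderiv ℂ (g k) w) : Cm 3 →L[ℂ] Cm 4) : Cm 3 →ₗ[ℂ] Cm 4)) hinj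
        have h7 : LinearMap.range (((fderiv ℂ F (g k w)).comp
          (fderiv ℂ (g k) w) : Cm 3 →L[ℂ] Cm 4) : Cm 3 →ₗ[ℂ] Cm 4) ≤
            LinearMap.range (fderiv ℂ F (g k w) : Cm 4 →ₗ[ℂ] Cm 4) := by
          rintro _ ⟨x, rfl⟩
          exact ⟨fderiv ℂ (g k) w x, rfl⟩
        have h8 := Submodule.finrank_mono h7
        rw [h6, Module.finrank_fin_fun] at h8
        omega)
      apply hw'
      have h3 := hc (g k w) (hg k w (hU w hw).2).2
      refine Set.countable_of_injective_of_countable_image (f := g k) ?_ (h3.mono ?_)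
      · intro a ha b hb hab
        exact hgi k (hU a ha.1).2 (hU b hb.1).2 hab
      · rintro _ ⟨a, ha, rfl⟩
        exact ⟨(hg k a (hU a ha.1).2).2, ha.2⟩
    have h2 : ∀ ij : Fin 4 × Fin 4, Cb 2 3 {q | q ∈ {q | q ∈ W k ∧
        ¬ (fun q => (mat (fderiv ℂ F (g k q))).adjugate ij.1 ij.2) =ᶠ[𝓝 q] 0} ∧
        (mat (fderiv ℂ F (g k q))).adjugate ij.1 ij.2 = 0} := by
      intro ij
      obtain ⟨W', g', h3, -, h4, h5⟩ := b1_inj (isOpen_not_zero (hW k) fun q hq => hga q hq ij.1 ij.2)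
        (fun q hq => hga q hq.1 ij.1 ij.2) (fun q hq => hq.2)
      exact ⟨W', g', h3, fun l p hp => (h4 l p hp).1, h5⟩
    refine (cb_iUnion h2).mono ?_
    rintro q ⟨hq, hq0⟩
    obtain ⟨i, j, hij⟩ := h1 q hq
    exact mem_iUnion.2 ⟨(i, j), ⟨hq, hij⟩, by rw [hq0]; rfl⟩
  have key2 : Cb 2 4 (⋃ k, (fun q => F (g k q)) '' {q | q ∈ W k ∧
      (mat (fderiv ℂ F (g k q))).adjugate = 0}) := by
    refine cb_iUnion fun k => ?_
    exact (key k).image (hW k) (fun q hq => hq.1) (fun q hq =>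
      AnalyticAt.fun_comp (hF _ (hg k q hq).2) (hg k q hq).1)
  refine key2.mono ?_
  rintro _ ⟨z, ⟨hz, hz0⟩, rfl⟩
  have hJ0 : J z = 0 := by
    have h1 := Matrix.mul_adjugate (mat (fderiv ℂ F z))
    rw [hz0, Matrix.mul_zero] at h1
    have h2 := congrFun (congrFun h1 0) 0
    simpa using h2.symm
  obtain ⟨k, q, hq, rfl⟩ := mem_iUnion.1 (hcov ⟨hz, hJ0⟩)
  exact mem_iUnion.2 ⟨k, q, ⟨hq, hz0⟩, rfl⟩

variable {Y : Type} [TopologicalSpace Y] [ChartedSpace (Cm 4) Y] {X : CSp} {O : Set Y}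
  {v : Y → X.pt}

theorem rankGe3_of_chart [IsManifold 𝓘(ℂ, Cm 4) ω Y] (hv : IsOpenEmb X O v) {G : X.pt → Cm 4}
    {y : Y} (hy : y ∈ O) (hG : ∀ i, X.Hol (fun x => G x i) (v y)) {e : Chart 4 Y} (he : At e y)
    (h : (mat (fderiv ℂ (fun z => G (v (e.symm z))) (e y))).adjugate ≠ 0) : RankGe3 v G y := by
  intro e' he'
  have h1 : 3 ≤ (mat (fderiv ℂ (fun z => G (v (e.symm z))) (e y))).rank := by
    by_contra hcon
    exact h (adjugate_eq_zero_iff.2 (by omega))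
  rw [rank_mat] at h1
  have h2 : AnalyticAt ℂ (fun z => e' (e.symm z)) (e y) := trans_analyticAt he he'
  have h3 : AnalyticAt ℂ (fun z => G (v (e'.symm z))) (e' y) := analyticAt_pull hv hy he' hG
  have h4 : (fun z => G (v (e.symm z))) =ᶠ[𝓝 (e y)]
      fun z => G (v (e'.symm (e' (e.symm z)))) := by
    have h5 : ∀ᶠ z in 𝓝 (e y), e.symm z ∈ e'.source := by
      refine (e.continuousAt_symm (e.map_source he.2)).eventually_mem ?_
      rw [e.left_inv he.2]
      exact e'.open_source.mem_nhds he'.2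
    filter_upwards [h5] with z hz
    rw [e'.left_inv hz]
  have h6 : e' (e.symm (e y)) = e' y := by rw [e.left_inv he.2]
  have h7 : fderiv ℂ (fun z => G (v (e.symm z))) (e y) =
      (fderiv ℂ (fun z => G (v (e'.symm z))) (e' y)).comp
        (fderiv ℂ (fun z => e' (e.symm z)) (e y)) := by
    rw [h4.fderiv_eq]
    have h8 : HasFDerivAt (fun z => G (v (e'.symm z)))
        (fderiv ℂ (fun z => G (v (e'.symm z))) (e' y)) (e' (e.symm (e y))) := by
      rw [h6]; exact h3.differentiableAt.hasFDerivAt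
    exact (h8.comp (e y) h2.differentiableAt.hasFDerivAt).fderiv
  rw [h7] at h1
  refine h1.trans (Submodule.finrank_mono ?_)
  rintro _ ⟨x, rfl⟩
  exact ⟨fderiv ℂ (fun z => e' (e.symm z)) (e y) x, rfl⟩

theorem stThin : StThin := by
  classical
  intro Y _ _ _ _ _ X O v hv hdim V G c r d lam θ hcov
  set E := G '' {x | x ∈ V ∧ ¬ ∃ y ∈ O, v y = x ∧ RankGe3 v G y} with hE
  have hhol : ∀ y ∈ O, v y ∈ V → ∀ i, X.Hol (fun x => G x i) (v y) := fun y _ hyV i =>
    hcov.holo _ hyV i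
  refine ⟨?_, ?_⟩
  · rw [isOpen_iff_mem_nhds]
    rintro z₀ ⟨hz₀, hz₀E⟩
    have h1 : ∀ x ∈ V, G x = z₀ → {x | ∃ y ∈ O, v y = x ∧ RankGe3 v G y} ∈ 𝓝 x := by
      intro x hx hxz
      obtain ⟨y, hy, hyx, hrk⟩ : ∃ y ∈ O, v y = x ∧ RankGe3 v G y := by
        by_contra hcon
        exact hz₀E ⟨x, ⟨hx, hcon⟩, hxz⟩
      subst hyx
      rw [← hv.map_nhds hy, mem_map]
      set e := chartAt (Cm 4) y with he
      have heAt : At e y := ⟨chart_mem_atlas _ y, mem_chart_source _ y⟩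
      have h2 := adj_ne_zero_of_rank heAt hrk
      have h3 : ContinuousAt (fun z => (mat (fderiv ℂ (fun z => G (v (e.symm z))) z)).adjugate)
          (e y) := continuousAt_pi.2 fun i => continuousAt_pi.2 fun j =>
        (analyticAt_adj (analyticAt_pull hv hy heAt (hhol y hy hx)) i j).continuousAt
      have h4 : ∀ᶠ y' in 𝓝 y, (mat (fderiv ℂ (fun z => G (v (e.symm z))) (e y'))).adjugate ≠ 0 :=
        (ContinuousAt.comp (f := e) (g := fun z => (mat (fderiv ℂ (fun z => G (v (e.symm z)))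
          z)).adjugate) h3 (e.continuousAt heAt.2)).eventually_ne h2
      have h5 : ∀ᶠ y' in 𝓝 y, v y' ∈ V := (hv.continuousAt hy).eventually_mem
        (hcov.isOpen.mem_nhds hx)
      filter_upwards [h4, h5, hv.isOpen.mem_nhds hy, e.open_source.mem_nhds heAt.2]
        with y' h6 h7 h8 h9
      exact ⟨y', h8, rfl, rankGe3_of_chart hv h8 (hhol y' h8 h7) ⟨heAt.1, h9⟩ h6⟩
    filter_upwards [cov_eventually hcov hz₀ h1, isOpen_ball.mem_nhds hz₀] with z hz hzb
    refine ⟨hzb, ?_⟩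
    rintro ⟨x, ⟨hxV, hx⟩, hxz⟩
    exact hx (hz x hxV hxz)
  · show Cb 2 4 (ball c r ∩ E)
    -- points outside `v O`
    have h1 : Cb 2 4 (G '' (V ∩ (v '' O)ᶜ)) := by
      obtain ⟨Ω, g, h1, h2, h3⟩ := hdim
      refine ⟨fun l => {p | p ∈ Ω l ∧ g l p ∈ V}, fun l p => G (g l p), fun l => ?_,
        fun l p hp => ?_, ?_⟩
      · rw [isOpen_iff_mem_nhds]
        intro p hp
        filter_upwards [(h1 l).mem_nhds hp.1,
          (h2 l p hp.1).1.eventually (hcov.isOpen.mem_nhds hp.2)] with q hq hq' using ⟨hq, hq'⟩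
      · rw [analyticAt_pi_iff]
        intro i
        exact (h2 l p hp.1).analyticAt (hcov.holo _ hp.2 i)
      · rintro _ ⟨x, hx, rfl⟩
        obtain ⟨l, p, hp, hpx⟩ := mem_iUnion.1 (h3 hx.2)
        exact mem_iUnion.2 ⟨l, p, ⟨hp, by rw [hpx]; exact hx.1⟩, by simp only [hpx]⟩
    -- points of small rank
    have h2 : ∀ y : Y, Cb 2 4 ((fun z => G (v ((chartAt (Cm 4) y).symm z))) ''
        {z | z ∈ {z | z ∈ (chartAt (Cm 4) y).target ∧ (chartAt (Cm 4) y).symm z ∈ O ∧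
          v ((chartAt (Cm 4) y).symm z) ∈ V} ∧
          (mat (fderiv ℂ (fun z => G (v ((chartAt (Cm 4) y).symm z))) z)).adjugate = 0}) := by
      intro y
      set e := chartAt (Cm 4) y with he
      have heAt : ∀ z ∈ e.target, At e (e.symm z) := fun z hz =>
        ⟨chart_mem_atlas _ y, e.map_target hz⟩
      refine cb_rank ?_ ?_ ?_
      · rw [isOpen_iff_mem_nhds]
        rintro z ⟨hz1, hz2, hz3⟩
        have h3 : ContinuousAt e.symm z := e.continuousAt_symm hz1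
        have h4 : ContinuousAt (fun z => v (e.symm z)) z :=
          ContinuousAt.comp (g := v) (hv.continuousAt hz2) h3
        filter_upwards [e.open_target.mem_nhds hz1, h3.eventually (hv.isOpen.mem_nhds hz2),
          h4.eventually (hcov.isOpen.mem_nhds hz3)] with w a b c using ⟨a, b, c⟩
      · rintro z ⟨hz1, hz2, hz3⟩
        have h3 := analyticAt_pull hv hz2 (heAt z hz1) (hhol _ hz2 hz3)
        rw [e.right_inv hz1] at h3
        exact h3
      · rintro z ⟨hz1, hz2, hz3⟩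
        have h3 : {x | x ∈ V ∧ G x = G (v (e.symm z))}.Countable :=
          (hcov.finite _ (hcov.maps _ hz3)).1.countable
        refine Set.countable_of_injective_of_countable_image (f := fun z => v (e.symm z)) ?_
          (h3.mono ?_)
        · intro a ha b hb hab
          exact e.symm.injOn ha.1.1 hb.1.1 (hv.inj ha.1.2.1 hb.1.2.1 hab)
        · rintro _ ⟨a, ha, rfl⟩
          exact ⟨ha.1.2.2, ha.2⟩
    obtain ⟨t, -, ht⟩ := isCompact_univ.elim_nhds_subcover (fun y : Y => (chartAt (Cm 4) y).source)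
      (fun y _ => (chartAt (Cm 4) y).open_source.mem_nhds (mem_chart_source _ y))
    have h3 : ∀ o : Option t, Cb 2 4 (o.elim (G '' (V ∩ (v '' O)ᶜ)) fun y =>
        ((fun z => G (v ((chartAt (Cm 4) y.1).symm z))) ''
        {z | z ∈ {z | z ∈ (chartAt (Cm 4) y.1).target ∧ (chartAt (Cm 4) y.1).symm z ∈ O ∧
          v ((chartAt (Cm 4) y.1).symm z) ∈ V} ∧
          (mat (fderiv ℂ (fun z => G (v ((chartAt (Cm 4) y.1).symm z))) z)).adjugate = 0})) := by
      rintro (_ | y)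
      · exact h1
      · exact h2 y.1
    refine (cb_iUnion h3).mono ?_
    rintro _ ⟨-, x, ⟨hxV, hx⟩, rfl⟩
    by_cases hxO : x ∈ v '' O
    · obtain ⟨y', hy', rfl⟩ := hxO
      have h4 := ht (mem_univ y')
      simp only [mem_iUnion] at h4
      obtain ⟨y, hyt, hy⟩ := h4
      refine mem_iUnion.2 ⟨some ⟨y, hyt⟩, (chartAt (Cm 4) y) y', ⟨⟨?_, ?_, ?_⟩, ?_⟩, ?_⟩
      · exact (chartAt (Cm 4) y).map_source hy
      · rw [(chartAt (Cm 4) y).left_inv hy]; exact hy'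
      · rw [(chartAt (Cm 4) y).left_inv hy]; exact hxV
      · by_contra hcon
        exact hx ⟨y', hy', rfl, rankGe3_of_chart hv hy' (hhol y' hy' hxV)
          ⟨chart_mem_atlas _ y, hy⟩ hcon⟩
      · simp only [(chartAt (Cm 4) y).left_inv hy]
    · exact mem_iUnion.2 ⟨none, x, ⟨hxV, hxO⟩, rfl⟩

end Vale.Agent.P277.H19
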