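import Vale.Agent.P277.H19.FinalT
import Vale.Agent.P277.H19.FofF
import Vale.Agent.P277.H371.TXFinal
import Vale.Agent.P277.H619.StDfin

/-!
# P277: final forms of Theorem R and Theorem T1, up to the package F
-/

open scoped Manifold ContDiff Topology
open Vale.Agent.P272.K Vale.Agent.P285.H281.FD Vale.Agent.P267.H175 Set

noncomputable section

namespace Vale.Agent.P277.H19

theorem resR (hF : StF') (Y : Type) [TopologicalSpace Y] [T2Space Y] [CompactSpace Y]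
    [ChartedSpace (Cm 4) Y] [IsManifold 𝓘(ℂ, Cm 4) ω Y] :
    ∃ b : ℕ, ∀ (N : ℕ) (X Z : ℕ → CSp) (O : Set Y) (v : Y → (X 0).pt)
      (f : ∀ j, (X j).pt → (Z j).pt) (f' : ∀ j, (X (j + 1)).pt → (Z j).pt)
      (A : ∀ j, Set (Z j).pt) (L : ∀ j, Bd (X j).pt) (L' : ∀ j, Bd (X (j + 1)).pt),
      IsOpenEmb (X 0) O v → DimLe (X 0) 1 (v '' O)ᶜ →
      (∀ j < N, IsFlip (X j) (Z j) (X (j + 1)) (f j) (f' j) (A j) (L j) (L' j)) →
      (∀ j < N, DimLe (X (j + 1)) 1 {x | ∃ x', f' j x' = f' j x ∧ x' ≠ x}) → N ≤ b :=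
  finalR stD (stF_of hF) Y

theorem resT (hF : StF') (Y : Type) [TopologicalSpace Y] [T2Space Y] [CompactSpace Y]
    [ChartedSpace (Cm 4) Y] [IsManifold 𝓘(ℂ, Cm 4) ω Y]
    (χ : Chart 4 Y → Cm 4 → Matrix (Fin 4) (Fin 4) ℂ) (hχ : IsKahler χ) :
    ∃ b : ℕ, ∀ (M : Bd Y) (m N : ℕ) (X Z : ℕ → CSp) (v : Y → (X 0).pt)
      (f : ∀ j, (X j).pt → (Z j).pt) (f' : ∀ j, (X (j + 1)).pt → (Z j).pt)
      (A : ∀ j, Set (Z j).pt) (L : ∀ j, Bd (X j).pt), IsLB 4 M → Nef χ M → 1 ≤ m →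
      IsOpenEmb (X 0) univ v → Function.Surjective v →
      (∃ c : ℕ, 1 ≤ c ∧ ∃ t, IsIsoY univ v (L 0) ((((Bd.can 4 Y).pow m).mul M).pow c) t) →
      (∀ j < N, ∃ p q : ℕ, 1 ≤ p ∧ 1 ≤ q ∧ IsFlip (X j) (Z j) (X (j + 1)) (f j) (f' j) (A j)
        ((L j).pow p) ((L (j + 1)).pow q)) → N ≤ b := by
  obtain ⟨b, hb⟩ := finalT stD (stF_of hF) False H371.stTX_false Y χ hχ
  exact ⟨b, fun M m N X Z v f f' A L h1 h2 h3 h4 h5 h6 h7 =>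
    hb M m N X Z v f f' A L h1 h2 h3 h4 h5 h6 h7 False.elim⟩

end Vale.Agent.P277.H19
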