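import Vale.Agent.P277.A.Emb
import Vale.Agent.P277.Stmts3
import Vale.Agent.P277.H622.B2

/-!
# P277: local parametrisations `ξ` of a complex space by open subsets of `ℂ⁴`
-/

open scoped Manifold ContDiff Topology
open Vale.Agent.P272.K Vale.Agent.P285.H281.FD Set Filter

noncomputable section

namespace Vale.Agent.P277.H19

/-- `ξ` identifies the open set `B ⊆ ℂ⁴` with an open subset of `X`. -/
structure LocIso (X : CSp) (ξ : Cm 4 → X.pt) (B : Set (Cm 4)) : Prop where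
  isOpen : IsOpen B
  inj : InjOn ξ B
  isOpenMap : ∀ W ⊆ B, IsOpen W → IsOpen (ξ '' W)
  hol : ∀ w ∈ B, ContinuousAt ξ w ∧ ∀ f : X.pt → ℂ, X.Hol f (ξ w) ↔ AnalyticAt ℂ (f ∘ ξ) w

variable {X : CSp} {ξ : Cm 4 → X.pt} {B : Set (Cm 4)}

theorem LocIso.holAt (h : LocIso X ξ B) {w : Cm 4} (hw : w ∈ B) : HolAt X ξ w :=
  ⟨(h.hol w hw).1, fun f hf => ((h.hol w hw).2 f).1 hf⟩

/-- the inverse -/
def LocIso.inv (_ : LocIso X ξ B) : X.pt → Cm 4 := by
  classical
  exact fun x => if h : x ∈ ξ '' B then h.choose else 0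

theorem LocIso.inv_apply (h : LocIso X ξ B) {w : Cm 4} (hw : w ∈ B) : h.inv (ξ w) = w := by
  have h0 : ξ w ∈ ξ '' B := ⟨w, hw, rfl⟩
  have h1 : h.inv (ξ w) = h0.choose := by simp only [LocIso.inv, dif_pos h0]
  rw [h1]
  exact h.inj h0.choose_spec.1 hw h0.choose_spec.2

theorem LocIso.hol_inv (h : LocIso X ξ B) {w : Cm 4} (hw : w ∈ B) (a : Fin 4) :
    X.Hol (fun x => h.inv x a) (ξ w) := by
  rw [(h.hol w hw).2]
  refine ((ContinuousLinearMap.proj (R := ℂ) (φ := fun _ : Fin 4 => ℂ) a).analyticAt _).congr ?_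
  filter_upwards [h.isOpen.mem_nhds hw] with z hz
  simp [h.inv_apply hz]

theorem LocIso.analyticAt_inv (h : LocIso X ξ B) {d : ℕ} {g : Cm d → X.pt} {p : Cm d}
    (hg : HolAt X g p) (hp : g p ∈ ξ '' B) : AnalyticAt ℂ (fun q => h.inv (g q)) p := by
  obtain ⟨w, hw, hwp⟩ := hp
  rw [analyticAt_pi_iff]
  intro a
  exact hg.analyticAt (hwp ▸ h.hol_inv hw a)

/-- Countable covers of preimages of small sets. -/
theorem LocIso.cover (h : LocIso X ξ B) {d : ℕ} {T : Set X.pt} (hT : DimLe X d T) :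
    ∃ (Ω : ℕ → Set (Cm d)) (g : ℕ → Cm d → Cm 4), (∀ k, IsOpen (Ω k)) ∧
      (∀ k, ∀ p ∈ Ω k, AnalyticAt ℂ (g k) p) ∧ {w | w ∈ B ∧ ξ w ∈ T} ⊆ ⋃ k, g k '' Ω k := by
  obtain ⟨Ω, g, h1, h2, h3⟩ := hT
  refine ⟨fun k => {p | p ∈ Ω k ∧ g k p ∈ ξ '' B}, fun k p => h.inv (g k p), fun k => ?_,
    fun k p hp => h.analyticAt_inv (h2 k p hp.1) hp.2, ?_⟩
  · rw [isOpen_iff_eventually]
    rintro p ⟨hp, hp'⟩
    exact ((h1 k).eventually_mem hp).and ((h2 k p hp).1.eventually_mem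
      ((h.isOpenMap B Subset.rfl h.isOpen).mem_nhds hp'))
  · rintro w ⟨hw, hwT⟩
    obtain ⟨k, hk⟩ := mem_iUnion.1 (h3 hwT)
    obtain ⟨p, hp, hpw⟩ := hk
    exact mem_iUnion.2 ⟨k, p, ⟨hp, w, hw, hpw.symm⟩, by simp only [hpw, h.inv_apply hw]⟩

theorem LocIso.isOpen_preimage (h : LocIso X ξ B) {U : Set X.pt} (hU : IsOpen U) :
    IsOpen {w | w ∈ B ∧ ξ w ∈ U} := by
  rw [isOpen_iff_eventually]
  rintro w ⟨hw, hwU⟩
  exact (h.isOpen.eventually_mem hw).and ((h.hol w hw).1.eventually_mem (hU.mem_nhds hwU))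

/-- small sets have dense complement -/
theorem LocIso.dense (h : LocIso X ξ B) {d : ℕ} (hd : d ≤ 3) {T : Set X.pt} (hT : DimLe X d T)
    {V : Set (Cm 4)} (hV : IsOpen V) (hVB : V ⊆ B) (hne : V.Nonempty) : ∃ w ∈ V, ξ w ∉ T := by
  obtain ⟨Ω, g, h1, h2, h3⟩ := h.cover hT
  have h4 := H622.dense_compl_iUnion (E := fun _ => Cm d) (fun _ => by rw [finrank_Cm]; omega) g Ω
    h1 (fun k p hp => (((h2 k p hp).contDiffAt (n := 1)).restrict_scalars ℝ).contDiffWithinAt)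
  obtain ⟨w, hwV, hw⟩ := h4.inter_open_nonempty V hV hne
  exact ⟨w, hwV, fun hwT => hw (h3 ⟨hVB hwV, hwT⟩)⟩

/-! ### determinants -/

theorem det_eq_toMatrix (L : Cm 4 →L[ℂ] Cm 4) :
    L.det = (Matrix.of fun i j => L (Pi.single j 1) i).det := by
  change LinearMap.det (L : Cm 4 →ₗ[ℂ] Cm 4) = _
  rw [← LinearMap.det_toMatrix']
  congr 1

theorem det_comp (L M : Cm 4 →L[ℂ] Cm 4) : (L.comp M).det = L.det * M.det :=
  LinearMap.det_comp (L : Cm 4 →ₗ[ℂ] Cm 4) (M : Cm 4 →ₗ[ℂ] Cm 4)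

theorem det_id : (ContinuousLinearMap.id ℂ (Cm 4)).det = 1 := LinearMap.det_id

theorem analyticAt_det {F : Cm 4 → Cm 4} {w : Cm 4} (hF : AnalyticAt ℂ F w) :
    AnalyticAt ℂ (fun w => (fderiv ℂ F w).det) w := by
  have h1 : ∀ i j, AnalyticAt ℂ (fun w => fderiv ℂ F w (Pi.single j 1) i) w := by
    intro i j
    have h2 : AnalyticAt ℂ (fun w => fderiv ℂ F w (Pi.single j 1)) w :=
      AnalyticAt.comp (g := ContinuousLinearMap.apply ℂ (Cm 4) (Pi.single j (1 : ℂ) : Cm 4))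
        (ContinuousLinearMap.analyticAt _ _) hF.fderiv
    exact (analyticAt_pi_iff.1 h2) i
  have h3 : (fun w => (fderiv ℂ F w).det) = fun w => ∑ σ : Equiv.Perm (Fin 4),
      Equiv.Perm.sign σ • ∏ i, fderiv ℂ F w (Pi.single i 1) (σ i) := by
    ext w
    rw [det_eq_toMatrix, Matrix.det_apply]
    rfl
  rw [h3]
  refine Finset.analyticAt_fun_sum _ fun σ _ => ?_
  have h4 : AnalyticAt ℂ (fun w => ∏ i, fderiv ℂ F w (Pi.single i 1) (σ i)) w :=
    Finset.analyticAt_fun_prod _ fun i _ => h1 _ _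
  rcases Int.units_eq_one_or (Equiv.Perm.sign σ) with h | h <;> rw [h]
  · simpa using h4
  · have h5 := h4.neg
    simp only [Units.neg_smul, one_smul]
    exact h5

/-- `dz` is the complex derivative -/
theorem dz_of_differentiableAt {n : ℕ} {f : Cm n → ℂ} {z : Cm n} (hf : DifferentiableAt ℂ f z)
    (i : Fin n) : dz i f z = fderiv ℂ f z (Pi.single i 1) := by
  have h1 : fderiv ℝ f z = (fderiv ℂ f z).restrictScalars ℝ := hf.fderiv_restrictScalars ℝ
  have h2 : (Pi.single i Complex.I : Cm n) = Complex.I • Pi.single i 1 := by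
    rw [← Pi.single_smul]; simp
  rw [dz, h1, ContinuousLinearMap.coe_restrictScalars', h2, map_smul, smul_eq_mul,
    ← mul_assoc, Complex.I_mul_I]
  ring

section
variable {Y : Type} [TopologicalSpace Y] [ChartedSpace (Cm 4) Y] [IsManifold 𝓘(ℂ, Cm 4) ω Y]

theorem det_jacM {y : Y} {e e' : Chart 4 Y} (he : At e y) (he' : At e' y) :
    (jacM e e' y).det = (fderiv ℂ (fun z => e' (e.symm z)) (e y)).det := by
  rw [det_eq_toMatrix]
  congr 1
  ext p i
  have h1 := (trans_analyticAt he he').differentiableAt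
  have h2 : DifferentiableAt ℂ (fun z => e' (e.symm z) p) (e y) := (differentiableAt_pi.1 h1) p
  simp only [jacM, Matrix.of_apply]
  rw [dz_of_differentiableAt h2, fderiv_apply h1]
  rfl

end

/-! ### the blow-up chart -/

theorem analyticAt_bl (w : Cm 4) : AnalyticAt ℂ bl w := by
  rw [analyticAt_pi_iff]
  intro i
  have h : ∀ j : Fin 4, AnalyticAt ℂ (fun w : Cm 4 => w j) w := fun j =>
    (ContinuousLinearMap.proj (R := ℂ) (φ := fun _ : Fin 4 => ℂ) j).analyticAt _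
  fin_cases i
  · exact h 0
  · exact (h 0).mul (h 1)
  · exact h 2
  · exact h 3

theorem det_fderiv_bl (w : Cm 4) : (fderiv ℂ bl w).det = w 0 := by
  have h : ∀ j : Fin 4, HasFDerivAt (fun w : Cm 4 => w j)
      (ContinuousLinearMap.proj (R := ℂ) (φ := fun _ : Fin 4 => ℂ) j) w := fun j =>
    (ContinuousLinearMap.proj (R := ℂ) (φ := fun _ : Fin 4 => ℂ) j).hasFDerivAt
  have hd := (analyticAt_bl w).differentiableAt
  have h0 : fderiv ℂ (fun w => bl w 0) w =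
      ContinuousLinearMap.proj (R := ℂ) (φ := fun _ : Fin 4 => ℂ) 0 := (h 0).fderiv
  have h1 : fderiv ℂ (fun w => bl w 1) w =
      w 0 • ContinuousLinearMap.proj (R := ℂ) (φ := fun _ : Fin 4 => ℂ) 1 +
          w 1 • ContinuousLinearMap.proj (R := ℂ) (φ := fun _ : Fin 4 => ℂ) 0 :=
    ((h 0).mul (h 1)).fderiv
  have h2 : fderiv ℂ (fun w => bl w 2) w =
      ContinuousLinearMap.proj (R := ℂ) (φ := fun _ : Fin 4 => ℂ) 2 := (h 2).fderiv
  have h3 : fderiv ℂ (fun w => bl w 3) w =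
      ContinuousLinearMap.proj (R := ℂ) (φ := fun _ : Fin 4 => ℂ) 3 := (h 3).fderiv
  have hM : (Matrix.of fun i j => fderiv ℂ bl w (Pi.single j 1) i) =
      !![1, 0, 0, 0; w 1, w 0, 0, 0; 0, 0, 1, 0; 0, 0, 0, 1] := by
    ext i j
    have h4 : fderiv ℂ bl w (Pi.single j 1) i = fderiv ℂ (fun w => bl w i) w (Pi.single j 1) := by
      rw [fderiv_apply hd]; rfl
    rw [Matrix.of_apply, h4]
    fin_cases i
    · simp only [Fin.zero_eta, Fin.isValue, h0]
      fin_cases j <;> simp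
    · simp only [Fin.mk_one, Fin.isValue, h1]
      fin_cases j <;> simp
    · simp only [Fin.reduceFinMk, Fin.isValue, h2]
      fin_cases j <;> simp
    · simp only [Fin.reduceFinMk, Fin.isValue, h3]
      fin_cases j <;> simp
  rw [det_eq_toMatrix, hM]
  simp [Matrix.det_succ_row_zero, Fin.sum_univ_succ]

end Vale.Agent.P277.H19
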