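import Vale.Agent.P277.H622.B1
import Vale.Agent.P277.H335.RE
import Mathlib.MeasureTheory.Function.Jacobian

/-!
# P277: zero sets of holomorphic functions have measure zero
-/

open scoped Manifold ContDiff ComplexOrder Topology
open Vale.Agent.P272.K Set Filter MeasureTheory

noncomputable section

namespace Vale.Agent.P277.H19

theorem volume_image_zero {n : ℕ} {W : Set (Cm n)} {g : Cm n → Cm (n + 1)}
    (hg : ∀ p ∈ W, AnalyticAt ℂ g p) : volume (g '' W) = 0 := by
  have h1 : g '' W ⊆ (fun x => g (H335.ini n x)) '' {x | H335.ini n x ∈ W} := by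
    rintro _ ⟨p, hp, rfl⟩
    refine ⟨Fin.snoc p 0, ?_, ?_⟩
    · show H335.ini n (Fin.snoc p 0 : Cm (n + 1)) ∈ W
      rw [H335.ini_snoc]; exact hp
    · show g (H335.ini n (Fin.snoc p 0 : Cm (n + 1))) = g p
      rw [H335.ini_snoc]
  refine measure_mono_null h1 ?_
  refine addHaar_image_eq_zero_of_det_fderivWithin_eq_zero volume
    (f' := fderiv ℝ fun x => g (H335.ini n x)) (fun x hx => ?_) fun x hx => ?_
  · have h2 : AnalyticAt ℂ (fun x => g (H335.ini n x)) x :=
      (hg _ hx).comp_of_eq ((H335.ini n).analyticAt x) rfl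
    exact (h2.differentiableAt.restrictScalars ℝ).hasFDerivAt.hasFDerivWithinAt
  · by_contra hdet
    have h3 : fderiv ℝ (fun x => g (H335.ini n x)) x = (((fderiv ℂ g (H335.ini n x)).comp
        (H335.ini n)).restrictScalars ℝ) := by
      have h4 : HasFDerivAt (fun x => g (H335.ini n x)) ((fderiv ℂ g (H335.ini n x)).comp
        (H335.ini n)) x := (hg _ hx).differentiableAt.hasFDerivAt.comp x (H335.ini n).hasFDerivAt
      exact (h4.restrictScalars ℝ).fderiv
    set v : Cm (n + 1) := Fin.snoc (0 : Cm n) 1 with hv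
    have h5 : fderiv ℝ (fun x => g (H335.ini n x)) x v = 0 := by
      rw [h3]
      show fderiv ℂ g (H335.ini n x) (H335.ini n v) = 0
      rw [hv, H335.ini_snoc, map_zero]
    have h6 : v = 0 := by
      have h7 := (LinearMap.equivOfDetNeZero (fderiv ℝ (fun x => g (H335.ini n x)) x :
        Cm (n + 1) →ₗ[ℝ] Cm (n + 1)) hdet).injective
      exact h7 (h5.trans (map_zero _).symm)
    have h8 := congrFun h6 (Fin.last n)
    rw [hv, Fin.snoc_last] at h8
    exact one_ne_zero h8

/-- the zero set of a holomorphic function which is nowhere locally zero has measure zero -/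
theorem volume_zeros {n : ℕ} {Ω : Set (Cm (n + 1))} {J : Cm (n + 1) → ℂ} (hΩ : IsOpen Ω)
    (hJ : ∀ z ∈ Ω, AnalyticAt ℂ J z) (hne : ∀ z ∈ Ω, ¬ J =ᶠ[𝓝 z] 0) :
    volume {z | z ∈ Ω ∧ J z = 0} = 0 := by
  obtain ⟨W, g, hW, hg, hcov⟩ := H622.stB1 n Ω J hΩ hJ hne
  refine measure_mono_null hcov (measure_iUnion_null fun k => ?_)
  exact volume_image_zero fun p hp => (hg k p hp).1

end Vale.Agent.P277.H19
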