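import Vale.Agent.P277.Stmts5
import Vale.Agent.P277.H19.NatD

/-!
# P277, package XF: pullback of forms by maps of manifolds, naturality of the wedge product
-/

set_option maxSynthPendingDepth 3

open scoped Manifold ContDiff Topology
open Vale.Agent.P267.H175 Set Filter
open Vale.Agent.P267.H928.Int ContinuousAlternatingMap

noncomputable section

namespace Vale.Agent.P277.H19

section pb

variable {E : Type*} [NormedAddCommGroup E] [NormedSpace ℝ E]
variable {X : Type*} [TopologicalSpace X] [ChartedSpace E X]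
variable {Y : Type*} [TopologicalSpace Y] [ChartedSpace E Y]

/-- The pullback of a form by `F : X → Y`. -/
def pb {k : ℕ} (F : X → Y) (a : Y → E [⋀^Fin k]→L[ℝ] ℝ) (x : X) : E [⋀^Fin k]→L[ℝ] ℝ :=
  (a (F x)).compContinuousLinearMap
    (fderiv ℝ (fun y => chartAt E (F x) (F ((chartAt E x).symm y))) (chartAt E x x))

variable (E) in
/-- Smoothness of the map `F` at `x`. -/
def SmM (F : X → Y) (x : X) : Prop :=
  ContinuousAt F x ∧
    ContDiffAt ℝ ∞ (fun y => chartAt E (F x) (F ((chartAt E x).symm y))) (chartAt E x x)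

omit [NormedSpace ℝ E] [ChartedSpace E X] in
theorem ev_symm {e : OpenPartialHomeomorph X E} {x : X} (hx : x ∈ e.source) {U : Set X}
    (hU : U ∈ 𝓝 x) : ∀ᶠ z in 𝓝 (e x), e.symm z ∈ U := by
  have h1 : ContinuousAt e.symm (e x) := e.continuousAt_symm (e.map_source hx)
  refine h1.eventually_mem ?_
  rw [e.left_inv hx]
  exact hU

variable [IsManifold 𝓘(ℝ, E) ∞ X] [IsManifold 𝓘(ℝ, E) ∞ Y]

theorem SmM.chart {F : X → Y} {x : X} (h : SmM E F x) {e : OpenPartialHomeomorph X E}
    (he : e ∈ atlas E X) {e' : OpenPartialHomeomorph Y E} (he' : e' ∈ atlas E Y)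
    (hx : x ∈ e.source) (hx' : F x ∈ e'.source) :
    ContDiffAt ℝ ∞ (fun z => e' (F (e.symm z))) (e x) := by
  set c := chartAt E x with hc
  set c' := chartAt E (F x) with hc'
  have hcx : x ∈ c.source := mem_chart_source E x
  have hcx' : F x ∈ c'.source := mem_chart_source E (F x)
  have h1 : ContDiffAt ℝ ∞ (fun z => c (e.symm z)) (e x) :=
    trR he (chart_mem_atlas E x) (e.map_source hx) (by rw [e.left_inv hx]; exact hcx)
  have h2 : ContDiffAt ℝ ∞ (fun z => e' (c'.symm z)) (c' (F x)) :=
    trR (chart_mem_atlas E (F x)) he' (c'.map_source hcx') (by rw [c'.left_inv hcx']; exact hx')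
  have h3 : ContDiffAt ℝ ∞ (fun z => c' (F (c.symm z))) (c (e.symm (e x))) := by
    rw [e.left_inv hx]; exact h.2
  have h4 := ContDiffAt.comp (g := fun z => c' (F (c.symm z))) (e x) h3 h1
  have h5 : ContDiffAt ℝ ∞ (fun z => e' (c'.symm z))
      (((fun z => c' (F (c.symm z))) ∘ fun z => c (e.symm z)) (e x)) := by
    simp only [Function.comp_apply]
    rw [e.left_inv hx, c.left_inv hcx]
    exact h2
  have h6 := ContDiffAt.comp (e x) h5 h4
  refine h6.congr_of_eventuallyEq ?_
  filter_upwards [ev_symm hx (c.open_source.mem_nhds hcx),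
    ev_symm hx (h.1.preimage_mem_nhds (c'.open_source.mem_nhds hcx'))] with z hz hz'
  simp only [Function.comp_apply]
  rw [c.left_inv hz, c'.left_inv hz']

theorem loc_pb {k : ℕ} {F : X → Y} {e : OpenPartialHomeomorph X E} (he : e ∈ atlas E X)
    {e' : OpenPartialHomeomorph Y E} (he' : e' ∈ atlas E Y) (a : Y → E [⋀^Fin k]→L[ℝ] ℝ) {x : X}
    (hF : SmM E F x) (hx : x ∈ e.source) (hx' : F x ∈ e'.source) :
    loc e (pb F a) (e x) = (loc e' a (e' (F x))).compContinuousLinearMap
      (fderiv ℝ (fun y => e' (F (e.symm y))) (e x)) := by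
  have h1 : e.symm (e x) = x := e.left_inv hx
  have h1' : e'.symm (e' (F x)) = F x := e'.left_inv hx'
  set c := chartAt E x with hc
  set c' := chartAt E (F x) with hc'
  have hcx : x ∈ c.source := mem_chart_source E x
  have hcx' : F x ∈ c'.source := mem_chart_source E (F x)
  have hL : loc e (pb F a) (e x) = ((a (F x)).compContinuousLinearMap
      (fderiv ℝ (fun y => c' (F (c.symm y))) (c x))).compContinuousLinearMap
      (fderiv ℝ (fun y => c (e.symm y)) (e x)) := by
    rw [loc, h1]; rfl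
  have hR : loc e' a (e' (F x)) = (a (F x)).compContinuousLinearMap
      (fderiv ℝ (fun y => c' (e'.symm y)) (e' (F x))) := by
    rw [loc, h1']
  rw [hL, hR, comp_comp_alt, comp_comp_alt]
  congr 1
  have d1 : DifferentiableAt ℝ (fun y => c' (F (c.symm y))) (c (e.symm (e x))) := by
    rw [h1]; exact hF.2.differentiableAt (by simp)
  have d2 : DifferentiableAt ℝ (fun y => c (e.symm y)) (e x) :=
    (trR he (chart_mem_atlas E x) (e.map_source hx) (by rw [h1]; exact hcx)).differentiableAt
      (by simp)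
  have d3 : DifferentiableAt ℝ (fun y => c' (e'.symm y)) (e' (F (e.symm (e x)))) := by
    rw [h1]
    exact (trR he' (chart_mem_atlas E (F x)) (e'.map_source hx')
      (by rw [h1']; exact hcx')).differentiableAt (by simp)
  have d4 : DifferentiableAt ℝ (fun y => e' (F (e.symm y))) (e x) :=
    (hF.chart he he' hx hx').differentiableAt (by simp)
  have k1 := fderiv_comp (𝕜 := ℝ) (g := fun y => c' (F (c.symm y))) (f := fun y => c (e.symm y))
    (e x) d1 d2
  have k2 := fderiv_comp (𝕜 := ℝ) (g := fun y => c' (e'.symm y)) (f := fun y => e' (F (e.symm y)))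
    (e x) d3 d4
  rw [h1] at k1 k2
  rw [← k1, ← k2]
  apply Filter.EventuallyEq.fderiv_eq
  filter_upwards [ev_symm hx (c.open_source.mem_nhds hcx),
    ev_symm hx (hF.1.preimage_mem_nhds (e'.open_source.mem_nhds hx'))] with z hz hz'
  simp only [Function.comp_apply]
  rw [c.left_inv hz, e'.left_inv hz']

/-- the local expression of a pullback near a point -/
theorem loc_pb_ev {k : ℕ} {F : X → Y} {e : OpenPartialHomeomorph X E} (he : e ∈ atlas E X)
    {e' : OpenPartialHomeomorph Y E} (he' : e' ∈ atlas E Y) (a : Y → E [⋀^Fin k]→L[ℝ] ℝ) {x : X}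
    (hF : ∀ᶠ y in 𝓝 x, SmM E F y) (hx : x ∈ e.source) (hx' : F x ∈ e'.source) :
    loc e (pb F a) =ᶠ[𝓝 (e x)] fun z => (loc e' a (e' (F (e.symm z)))).compContinuousLinearMap
      (fderiv ℝ (fun y => e' (F (e.symm y))) z) := by
  filter_upwards [ev_symm hx hF, ev_symm hx (e.open_source.mem_nhds hx),
    ev_symm hx (hF.self_of_nhds.1.preimage_mem_nhds (e'.open_source.mem_nhds hx')),
    e.open_target.mem_nhds (e.map_source hx)] with z hz hz1 hz2 hz3
  have := loc_pb he he' a hz hz1 hz2
  rw [e.right_inv hz3] at this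
  exact this

variable [FiniteDimensional ℝ E]

theorem smAt_pb {k : ℕ} {F : X → Y} {a : Y → E [⋀^Fin k]→L[ℝ] ℝ} {x : X}
    (hF : ∀ᶠ y in 𝓝 x, SmM E F y) (ha : SmAt a (F x)) : SmAt (pb F a) x := by
  have h1 := loc_pb_ev (chart_mem_atlas E x) (chart_mem_atlas E (F x)) a hF
    (mem_chart_source E x) (mem_chart_source E (F x))
  refine ContDiffAt.congr_of_eventuallyEq ?_ h1
  have h2 : (chartAt E x).symm (chartAt E x x) = x :=
    (chartAt E x).left_inv (mem_chart_source E x)
  refine contDiffAt_pullback hF.self_of_nhds.2 ?_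
  rw [h2]
  exact ha

omit [FiniteDimensional ℝ E] in
theorem dF_pb {k : ℕ} {F : X → Y} {a : Y → E [⋀^Fin k]→L[ℝ] ℝ} {x : X}
    (hF : ∀ᶠ y in 𝓝 x, SmM E F y) (ha : SmAt a (F x)) : dF (pb F a) x = pb F (dF a) x := by
  have h1 := loc_pb_ev (chart_mem_atlas E x) (chart_mem_atlas E (F x)) a hF
    (mem_chart_source E x) (mem_chart_source E (F x))
  have h2 : (chartAt E x).symm (chartAt E x x) = x :=
    (chartAt E x).left_inv (mem_chart_source E x)
  rw [dF, h1.extDeriv_eq]
  have h4 : DifferentiableAt ℝ (loc (chartAt E (F x)) a)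
      ((fun y => chartAt E (F x) (F ((chartAt E x).symm y))) (chartAt E x x)) := by
    simp only [h2]; exact ha.diff
  have h3 := extDeriv_pullback (r := ∞) (f := fun y => chartAt E (F x) (F ((chartAt E x).symm y)))
    h4 hF.self_of_nhds.2 minS
  refine h3.trans ?_
  simp only [h2]
  rfl

omit [FiniteDimensional ℝ E] in
theorem pb_pb {k : ℕ} {F : X → Y} {G : Y → X} {a : X → E [⋀^Fin k]→L[ℝ] ℝ} {x : X}
    (hF : SmM E F x) (hG : SmM E G (F x)) (hGF : ∀ᶠ y in 𝓝 x, G (F y) = y) :
    pb F (pb G a) x = a x := by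
  have h0 : G (F x) = x := hGF.self_of_nhds
  have hxs : x ∈ (chartAt E x).source := mem_chart_source E x
  have h2 : (chartAt E x).symm (chartAt E x x) = x := (chartAt E x).left_inv hxs
  have h3 : (chartAt E (F x)).symm (chartAt E (F x) (F x)) = F x :=
    (chartAt E (F x)).left_inv (mem_chart_source E _)
  rw [← loc_self (pb F (pb G a)) x, loc_pb (chart_mem_atlas E x) (chart_mem_atlas E (F x)) (pb G a)
    hF hxs (mem_chart_source E (F x)),
    loc_pb (e' := chartAt E x) (chart_mem_atlas E (F x)) (chart_mem_atlas E x) a hG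
      (mem_chart_source E (F x)) (by rw [h0]; exact hxs), comp_comp_alt, h0, loc_self]
  have d1 : DifferentiableAt ℝ (fun y => chartAt E x (G ((chartAt E (F x)).symm y)))
      (chartAt E (F x) (F ((chartAt E x).symm (chartAt E x x)))) := by
    rw [h2]
    exact (hG.chart (chart_mem_atlas E (F x)) (chart_mem_atlas E x) (mem_chart_source E (F x))
      (by rw [h0]; exact hxs)).differentiableAt (by simp)
  have d2 : DifferentiableAt ℝ (fun y => chartAt E (F x) (F ((chartAt E x).symm y)))
      (chartAt E x x) := hF.2.differentiableAt (by simp)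
  have k1 := fderiv_comp (𝕜 := ℝ) (g := fun y => chartAt E x (G ((chartAt E (F x)).symm y)))
    (f := fun y => chartAt E (F x) (F ((chartAt E x).symm y))) (chartAt E x x) d1 d2
  rw [h2] at k1
  rw [← k1]
  have k2 : (fun y => chartAt E x (G ((chartAt E (F x)).symm y))) ∘
      (fun y => chartAt E (F x) (F ((chartAt E x).symm y))) =ᶠ[𝓝 (chartAt E x x)] id := by
    filter_upwards [ev_symm hxs hGF, ev_symm hxs (hF.1.preimage_mem_nhds
      ((chartAt E (F x)).open_source.mem_nhds (mem_chart_source E (F x)))),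
      (chartAt E x).open_target.mem_nhds ((chartAt E x).map_source hxs)] with z hz hz1 hz2
    simp only [Function.comp_apply, id_eq]
    rw [(chartAt E (F x)).left_inv hz1, hz, (chartAt E x).right_inv hz2]
  rw [k2.fderiv_eq, fderiv_id]
  rfl

end pb

section wdg

variable {E : Type} [NormedAddCommGroup E] [NormedSpace ℝ E]

theorem wdg_zero_apply {q : ℕ} (a : E [⋀^Fin 0]→L[ℝ] ℝ) (b : E [⋀^Fin q]→L[ℝ] ℝ) :
    wdg a b = a Fin.elim0 • b := rfl

theorem wdg_succ_apply {p q : ℕ} (a : E [⋀^Fin (p + 1)]→L[ℝ] ℝ) (b : E [⋀^Fin q]→L[ℝ] ℝ)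
    (v : Fin (q + p + 1) → E) :
    (wdg (p := p + 1) (q := q) a b) v = ((p : ℝ) + 1)⁻¹ • ∑ i : Fin (q + p + 1),
      (-1) ^ i.val • (wdg (p := p) (q := q) (curryLeft a (v i)) b) (i.removeNth v) := by
  have h1 : wdg (p := p + 1) (q := q) a b = ((p : ℝ) + 1)⁻¹ • alternatizeUncurryFin
      (((ContinuousLinearMap.flip ((wdgL E p q).comp
        (curryLeftLI (𝕜 := ℝ) (E := E) (F := ℝ) (n := p) a))) b)) := rfl
  rw [h1, ContinuousAlternatingMap.smul_apply, alternatizeUncurryFin_apply]
  rfl

/-- The wedge product is natural. -/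
theorem wdg_comp {p q : ℕ} (T : E →L[ℝ] E) (a : E [⋀^Fin p]→L[ℝ] ℝ) (b : E [⋀^Fin q]→L[ℝ] ℝ) :
    (wdg a b).compContinuousLinearMap T =
      wdg (a.compContinuousLinearMap T) (b.compContinuousLinearMap T) := by
  induction p with
  | zero =>
    ext v
    simp only [wdg_zero_apply]
    have h1 : (a.compContinuousLinearMap T) Fin.elim0 = a Fin.elim0 := by
      show a (T ∘ Fin.elim0) = a Fin.elim0
      congr 1
      exact Subsingleton.elim _ _
    rw [h1]
    rfl
  | succ p ih =>
    ext v
    have h1 : ((wdg a b).compContinuousLinearMap T) v = wdg (p := p + 1) a b (T ∘ v) := rfl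
    rw [h1, wdg_succ_apply]
    refine Eq.trans ?_ (wdg_succ_apply (a.compContinuousLinearMap T)
      (b.compContinuousLinearMap T) v).symm
    congr 1
    refine Finset.sum_congr rfl fun i _ => ?_
    congr 1
    have h2 : curryLeft (a.compContinuousLinearMap T) (v i) =
        (curryLeft a ((T ∘ v) i)).compContinuousLinearMap T := by
      ext w
      show a (T ∘ _) = a _
      congr 1
      funext j
      refine Fin.cases ?_ (fun j => ?_) j <;> simp
    rw [h2, ← ih]
    rfl

end wdg

end Vale.Agent.P277.H19
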