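import Vale.Agent.P277.H19.Top

/-!
# P277: positivity of the integral of a nonnegative top form
-/

set_option maxSynthPendingDepth 3

open scoped Manifold ContDiff Topology
open Vale.Agent.P272.K Vale.Agent.P285.H281.FD Vale.Agent.P267.H175 Set Filter MeasureTheory
open Vale.Agent.P267.H928.Int ContinuousAlternatingMap

noncomputable section

namespace Vale.Agent.P277.H19

theorem isOpenPos_meas {M : Type} [TopologicalSpace M] [ChartedSpace (Cm 4) M]
    [IsManifold 𝓘(ℂ, Cm 4) ω M] [MeasurableSpace M] [BorelSpace M] (P : Pou (Cm 4) M) :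
    (P.meas (volume : Measure (Cm 4))).IsOpenPosMeasure := by
  refine ⟨fun U hU ⟨x, hx⟩ h0 => ?_⟩
  set e := chartAt (Cm 4) x with he
  have hea : e ∈ atlas (Cm 4) M := chart_mem_atlas _ x
  have hxe : x ∈ e.source := mem_chart_source _ x
  set V : Set M := U ∩ e.source with hV
  have hVo : IsOpen V := hU.inter e.open_source
  have h1 := P.lintegral_meas_chart volume hea (g := V.indicator fun _ => 1)
    (measurable_const.indicator hVo.measurableSet)
    (fun y hy => indicator_of_notMem (fun h => hy h.2) _)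
  rw [lintegral_indicator_const hVo.measurableSet, one_mul,
    measure_mono_null inter_subset_left h0] at h1
  have hm : Measurable fun z => V.indicator (fun _ => (1 : ENNReal)) z :=
    measurable_const.indicator hVo.measurableSet
  have h2 : ∀ᵐ z ∂(volume.restrict e.target),
      ENNReal.ofReal (P.w e z) * V.indicator (fun _ => 1) (e.symm z) = 0 := by
    exact (lintegral_eq_zero_iff' ((P.aemeas_w volume hea).mul
      (hm.comp_aemeasurable (Pou.aemeas_symm volume e)))).1 h1.symm
  have h3 : volume (e '' V) = 0 := by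
    rw [ae_restrict_iff' e.open_target.measurableSet] at h2
    refine measure_mono_null ?_ (ae_iff.1 h2)
    rintro _ ⟨y, hy, rfl⟩ h4
    have h5 := h4 (e.map_source hy.2)
    rw [e.left_inv hy.2, indicator_of_mem hy, mul_one, ENNReal.ofReal_eq_zero] at h5
    exact absurd h5 (not_le.2 (P.w_pos hea (e.map_source hy.2)))
  exact (e.isOpen_image_of_subset_source hVo inter_subset_right).measure_ne_zero volume
    ⟨e x, x, ⟨hx, hxe⟩, rfl⟩ h3

/-- A nonnegative top form with compact support has positive integral if it does not vanish. -/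
theorem intM_pos {M : Type} [TopologicalSpace M] [T2Space M] [SecondCountableTopology M]
    [ChartedSpace (Cm 4) M] [IsManifold 𝓘(ℂ, Cm 4) ω M] {a : Fm 8 M} (ha : ∀ y, SmAt a y)
    {K : Set M} (hK : IsCompact K) (h0 : ∀ y ∉ K, a y = 0)
    (hn : ∀ y, ∀ e ∈ atlas (Cm 4) M, y ∈ e.source → 0 ≤ loc e a (e y) stdB) {y₁ : M}
    {e₁ : OpenPartialHomeomorph M (Cm 4)} (he₁ : e₁ ∈ atlas (Cm 4) M) (hy₁ : y₁ ∈ e₁.source)
    (h1 : loc e₁ a (e₁ y₁) stdB ≠ 0) : 0 < intM M a := by
  let _ : MeasurableSpace M := borel M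
  have : BorelSpace M := ⟨rfl⟩
  obtain ⟨P, hP⟩ := intM_eq M
  rw [hP, intForm, Pou.integ]
  have hd : IsDens M (fun (e : OpenPartialHomeomorph M (Cm 4)) z =>
      cf stdB e (show Form (Cm 4) ℝ 8 M from a) z) := isDens_cf stdB _
  have hcont : DCont M (fun (e : OpenPartialHomeomorph M (Cm 4)) z =>
      cf stdB e (show Form (Cm 4) ℝ 8 M from a) z) := by
    intro e he
    have h3 : ContinuousOn (fun z => loc e a z stdB) e.target := by
      refine (ContinuousAlternatingMap.apply ℝ (Cm 4) ℝ
        (stdB : Fin 8 → Cm 4)).continuous.comp_continuousOn (f := loc e a) (s := e.target)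
        fun z hz => ?_
      have h2 := (smAt_iff he (e.map_target hz)).1 (ha (e.symm z))
      rw [e.right_inv hz] at h2
      exact h2.continuousAt.continuousWithinAt
    exact h3.congr fun z hz => cf_eq e he _ hz
  have hq : ∀ e ∈ atlas (Cm 4) M, ∀ x ∈ e.source, P.quo (fun (e : OpenPartialHomeomorph M (Cm 4))
      z => cf stdB e (show Form (Cm 4) ℝ 8 M from a) z) x = (P.w e (e x))⁻¹ • loc e a (e x) stdB := by
    intro e he x hx
    have h3 := P.quo_symm hd he (e.map_source hx)
    rw [e.left_inv hx, cf_eq e he _ (e.map_source hx)] at h3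
    exact h3
  have hop := isOpenPos_meas P
  refine (P.continuous_quo hd hcont).integral_pos_of_hasCompactSupport_nonneg_nonzero
    (x := y₁) ?_ ?_ ?_
  · refine HasCompactSupport.intro hK fun x hx => P.quo_eq_zero (K := K) ?_ hx
    exact SuppIn.dsupp stdB h0
  · intro x
    rw [Pi.zero_apply, hq _ (chart_mem_atlas _ x) x (mem_chart_source _ x)]
    exact smul_nonneg (inv_nonneg.2 (P.w_pos (chart_mem_atlas _ x) (mem_chart_target _ x)).le)
      (hn x _ (chart_mem_atlas _ x) (mem_chart_source _ x))
  · rw [hq e₁ he₁ y₁ hy₁]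
    exact smul_ne_zero (inv_ne_zero (P.w_pos he₁ (e₁.map_source hy₁)).ne') h1

end Vale.Agent.P277.H19
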