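import Vale.Agent.P277.H19.Rho
import Vale.Agent.P277.H762.Iface
import Vale.Agent.P272.K.Inv.Hess
import Vale.Agent.P272.K.C2.Mat

/-!
# P277, task TD: the geometric half (pull-back of the Kähler form)
-/

open scoped Manifold ContDiff ComplexOrder Topology
open Vale.Agent.P272.K Vale.Agent.P285.H281.FD Set Filter

noncomputable section

namespace Vale.Agent.P277.H19

/-! ### local pull-back -/

/-- the pull-back `Jᵀ (h ∘ F) J̄` -/
def plk (h : Cm 4 → Matrix (Fin 4) (Fin 4) ℂ) (F : Cm 4 → Cm 4) (x : Cm 4) :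
    Matrix (Fin 4) (Fin 4) ℂ :=
  (jmat F x).transpose * h (F x) * (jmat F x).map (starRingEnd ℂ)

theorem plk_apply (h : Cm 4 → Matrix (Fin 4) (Fin 4) ℂ) (F : Cm 4 → Cm 4) (x : Cm 4)
    (i j : Fin 4) : plk h F x i j =
      ∑ q, ∑ p, jmat F x p i * h (F x) p q * cj (jmat F x q j) := by
  simp only [plk, Matrix.mul_apply, Matrix.transpose_apply, Matrix.map_apply, Finset.sum_mul]

variable {h : Cm 4 → Matrix (Fin 4) (Fin 4) ℂ} {F : Cm 4 → Cm 4} {x : Cm 4}

theorem holo_jmat (hF : AnalyticAt ℂ F x) (p i : Fin 4) :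
    ContDiffAt ℂ ω (fun y => jmat F y p i) x := jmat_holo hF.contDiffAt p i

theorem contDiffAt_plk {r : WithTop ℕ∞} (hh : ∀ p q, ContDiffAt ℝ r (fun z => h z p q) (F x))
    (hF : AnalyticAt ℂ F x) (i j : Fin 4) : ContDiffAt ℝ r (fun y => plk h F y i j) x := by
  simp only [plk_apply]
  have h1 : ∀ p i, ContDiffAt ℝ r (fun y => jmat F y p i) x := fun p i =>
    ((holo_jmat hF p i).restrict_scalars ℝ).of_le le_top
  have hF' : ContDiffAt ℝ r F x := ((hF.contDiffAt (n := ω)).restrict_scalars ℝ).of_le le_top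
  refine ContDiffAt.sum fun q _ => ContDiffAt.sum fun p _ => ?_
  refine ((h1 p i).mul ((hh p q).comp x hF')).mul ?_
  exact Complex.conjCLE.contDiff.contDiffAt.comp x (h1 q j)

theorem closed_plk (hh : ∀ p q, ContDiffAt ℝ 1 (fun z => h z p q) (F x))
    (hc : ∀ i j k, dz k (fun z => h z i j) (F x) = dz i (fun z => h z k j) (F x))
    (hF : AnalyticAt ℂ F x) (i j k : Fin 4) :
    dz k (fun y => plk h F y i j) x = dz i (fun y => plk h F y k j) x := by
  have hF1 : DifferentiableAt ℂ F x := hF.differentiableAt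
  have hF' : ∀ p, ContDiffAt ℝ 2 (fun y => F y p) x := fun p =>
    ((contDiffAt_pi.1 ((hF.contDiffAt (n := ω)).restrict_scalars ℝ)) p).of_le le_top
  have hJ : ∀ p i, DifferentiableAt ℝ (fun y => jmat F y p i) x := fun p i =>
    ((holo_jmat hF p i).differentiableAt (by simp)).restrictScalars ℝ
  have hJb : ∀ p i, DifferentiableAt ℝ (fun y => cj (jmat F y p i)) x := fun p i =>
    Complex.conjCLE.differentiableAt.comp x (hJ p i)
  have hm : ∀ p q, DifferentiableAt ℝ (fun y => h (F y) p q) x := fun p q =>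
    DifferentiableAt.comp (g := fun z => h z p q) x ((hh p q).differentiableAt one_ne_zero)
      (hF1.restrictScalars ℝ)
  have key : ∀ i k, dz k (fun y => plk h F y i j) x =
      ∑ q, ∑ p, (dz k (fun y => jmat F y p i) x * h (F x) p q * cj (jmat F x q j)) +
      ∑ q, ∑ p, ∑ r, (jmat F x p i * dz r (fun z => h z p q) (F x) * jmat F x r k *
        cj (jmat F x q j)) := by
    intro i k
    simp only [plk_apply]
    have hpr : ∀ p q, DifferentiableAt ℝ
        (fun y => jmat F y p i * h (F y) p q * cj (jmat F y q j)) x := fun p q =>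
      ((hJ p i).mul (hm p q)).mul (hJb q j)
    rw [dz_sum (F := fun q y => ∑ p, jmat F y p i * h (F y) p q * cj (jmat F y q j)) Finset.univ
      fun q _ => DifferentiableAt.fun_sum fun p _ => hpr p q, ← Finset.sum_add_distrib]
    refine Finset.sum_congr rfl fun q _ => ?_
    rw [dz_sum (F := fun p y => jmat F y p i * h (F y) p q * cj (jmat F y q j)) Finset.univ
      fun p _ => hpr p q, ← Finset.sum_add_distrib]
    refine Finset.sum_congr rfl fun p _ => ?_
    have e1 : dz k (fun y => jmat F y p i * h (F y) p q * cj (jmat F y q j)) x =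
        dz k (fun y => jmat F y p i * h (F y) p q) x * cj (jmat F x q j) +
          jmat F x p i * h (F x) p q * dz k (fun y => cj (jmat F y q j)) x :=
      dz_mul (f := fun y => jmat F y p i * h (F y) p q) (g := fun y => cj (jmat F y q j))
        ((hJ p i).mul (hm p q)) (hJb q j)
    have e2 : dz k (fun y => jmat F y p i * h (F y) p q) x =
        dz k (fun y => jmat F y p i) x * h (F x) p q +
          jmat F x p i * dz k (fun y => h (F y) p q) x :=
      dz_mul (f := fun y => jmat F y p i) (g := fun y => h (F y) p q) (hJ p i) (hm p q)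
    have e3 : dz k (fun y => cj (jmat F y q j)) x = cj (dzb k (fun y => jmat F y q j) x) :=
      dz_cj (f := fun y => jmat F y q j) (hJ q j)
    have e4 : dzb k (fun y => jmat F y q j) x = 0 :=
      dzb_of_holo ((holo_jmat hF q j).differentiableAt (by simp))
    have e5 : dz k (fun y => h (F y) p q) x =
        ∑ r, dz r (fun z => h z p q) (F x) * jmat F x r k :=
      dz_comp_holo (f := fun z => h z p q) ((hh p q).differentiableAt one_ne_zero) hF1
    rw [e1, e2, e3, e4, e5]
    have : cj (0 : ℂ) = 0 := by simp [cj]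
    rw [this, mul_zero, add_zero, add_mul, Finset.mul_sum, Finset.sum_mul]
    congr 1
    refine Finset.sum_congr rfl fun r _ => ?_
    ring
  rw [key i k, key k i]
  congr 1
  · refine Finset.sum_congr rfl fun q _ => Finset.sum_congr rfl fun p _ => ?_
    have h1 : dz k (fun y => jmat F y p i) x = dz i (fun y => jmat F y p k) x :=
      dz_dz_comm (hF' p)
    rw [h1]
  · refine Finset.sum_congr rfl fun q _ => ?_
    rw [Finset.sum_comm]
    refine Finset.sum_congr rfl fun p _ => Finset.sum_congr rfl fun r _ => ?_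
    rw [hc r q p]
    ring

theorem posSemidef_plk (hh : (h (F x)).PosSemidef) : (plk h F x).PosSemidef := by
  have h1 : plk h F x = ((jmat F x).map (starRingEnd ℂ)).conjTranspose * h (F x) *
      (jmat F x).map (starRingEnd ℂ) := by
    rw [plk]
    congr 2
    ext i j
    simp [Matrix.conjTranspose_apply, Matrix.map_apply]
  rw [h1]
  exact hh.conjTranspose_mul_mul_same _

theorem jmat_comp {G F : Cm 4 → Cm 4} {x : Cm 4} (hG : DifferentiableAt ℂ G (F x))
    (hF : DifferentiableAt ℂ F x) : jmat (fun y => G (F y)) x = jmat G (F x) * jmat F x := by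
  ext p i
  rw [Matrix.mul_apply]
  exact dz_comp_holo (f := fun z => G z p) ((differentiableAt_comp_apply hG p).restrictScalars ℝ)
    hF

theorem jmat_congr {F G : Cm 4 → Cm 4} {x : Cm 4} (h : F =ᶠ[𝓝 x] G) : jmat F x = jmat G x := by
  ext p i
  exact dz_congr (by filter_upwards [h] with y hy; rw [hy])

theorem jmat_bl (w : Cm 4) :
    jmat bl w = !![1, 0, 0, 0; w 1, w 0, 0, 0; 0, 0, 1, 0; 0, 0, 0, 1] := by
  have h : ∀ j : Fin 4, HasFDerivAt (fun w : Cm 4 => w j)
      (ContinuousLinearMap.proj (R := ℂ) (φ := fun _ : Fin 4 => ℂ) j) w := fun j =>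
    (ContinuousLinearMap.proj (R := ℂ) (φ := fun _ : Fin 4 => ℂ) j).hasFDerivAt
  have hd := (analyticAt_bl w).differentiableAt
  have h0 : fderiv ℂ (fun w => bl w 0) w =
      ContinuousLinearMap.proj (R := ℂ) (φ := fun _ : Fin 4 => ℂ) 0 := (h 0).fderiv
  have h1 : fderiv ℂ (fun w => bl w 1) w =
      w 0 • ContinuousLinearMap.proj (R := ℂ) (φ := fun _ : Fin 4 => ℂ) 1 +
          w 1 • ContinuousLinearMap.proj (R := ℂ) (φ := fun _ : Fin 4 => ℂ) 0 :=
    ((h 0).mul (h 1)).fderiv
  have h2 : fderiv ℂ (fun w => bl w 2) w =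
      ContinuousLinearMap.proj (R := ℂ) (φ := fun _ : Fin 4 => ℂ) 2 := (h 2).fderiv
  have h3 : fderiv ℂ (fun w => bl w 3) w =
      ContinuousLinearMap.proj (R := ℂ) (φ := fun _ : Fin 4 => ℂ) 3 := (h 3).fderiv
  ext i j
  have h4 : jmat bl w i j = fderiv ℂ (fun w => bl w i) w (Pi.single j 1) := by
    rw [jmat_apply hd, fderiv_apply hd]; rfl
  rw [h4]
  fin_cases i
  · simp only [Fin.zero_eta, Fin.isValue, h0]
    fin_cases j <;> simp
  · simp only [Fin.mk_one, Fin.isValue, h1]
    fin_cases j <;> simp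
  · simp only [Fin.reduceFinMk, Fin.isValue, h2]
    fin_cases j <;> simp
  · simp only [Fin.reduceFinMk, Fin.isValue, h3]
    fin_cases j <;> simp

/-! ### the pull-back of the Kähler form -/

section
variable {Y : Type} [TopologicalSpace Y] [ChartedSpace (Cm 4) Y] [IsManifold 𝓘(ℂ, Cm 4) ω Y]

/-- the pull-back of the metric `χ` by `ρ` -/
def Hp (χ : Chart 4 Y → Cm 4 → Matrix (Fin 4) (Fin 4) ℂ) (ρ : Cm 4 → Y) (x : Cm 4) :
    Matrix (Fin 4) (Fin 4) ℂ :=
  plk (χ (chartAt (Cm 4) (ρ x))) (fun z => chartAt (Cm 4) (ρ x) (ρ z)) x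

variable {χ : Chart 4 Y → Cm 4 → Matrix (Fin 4) (Fin 4) ℂ} {ρ : Cm 4 → Y} {x : Cm 4}

theorem jmat_change (hρ : ContinuousAt ρ x) {e e' : Chart 4 Y} (he : At e (ρ x))
    (he' : At e' (ρ x)) (h : AnalyticAt ℂ (fun z => e (ρ z)) x) :
    jmat (fun z => e' (ρ z)) x = jacM e e' (ρ x) * jmat (fun z => e (ρ z)) x := by
  rw [jmat_congr (eventuallyEq_trans hρ he)]
  exact jmat_comp (G := fun z => e' (e.symm z)) (F := fun z => e (ρ z))
    (trans_analyticAt he he').differentiableAt h.differentiableAt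

theorem Hp_eq (hχ : IsKahler χ) (hρ : ContinuousAt ρ x) {e : Chart 4 Y} (he : At e (ρ x))
    (h : AnalyticAt ℂ (fun z => e (ρ z)) x) : Hp χ ρ x = plk (χ e) (fun z => e (ρ z)) x := by
  have he' : At (chartAt (Cm 4) (ρ x) : Chart 4 Y) (ρ x) := at_chartAt _
  rw [Hp, plk, plk, jmat_change hρ he he' h, hχ.change e _ (ρ x) he he']
  simp only [Matrix.transpose_mul, Matrix.mul_assoc, Matrix.map_mul]

theorem Hp_eventually (hχ : IsKahler χ) {D : Set (Cm 4)} (hD : IsOpen D)
    (hρ : ∀ x ∈ D, ContinuousAt ρ x ∧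
      ∀ e : Chart 4 Y, At e (ρ x) → AnalyticAt ℂ (fun z => e (ρ z)) x) (hx : x ∈ D)
    {e : Chart 4 Y} (he : At e (ρ x)) :
    Hp χ ρ =ᶠ[𝓝 x] plk (χ e) (fun z => e (ρ z)) := by
  filter_upwards [hD.mem_nhds hx, (hρ x hx).1.eventually_mem (e.open_source.mem_nhds he.2)]
    with y hy hy'
  exact Hp_eq hχ (hρ y hy).1 ⟨he.1, hy'⟩ ((hρ y hy).2 e ⟨he.1, hy'⟩)

end

end Vale.Agent.P277.H19
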