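import Vale.Agent.P277.H19.Pull

/-!
# P277, task TD: the geometric half, main part
-/

open scoped Manifold ContDiff ComplexOrder Topology
open Vale.Agent.P272.K Vale.Agent.P285.H281.FD Set Filter

noncomputable section

namespace Vale.Agent.P277.H19

theorem posSemidef_real_smul {A : Matrix (Fin 4) (Fin 4) ℂ} (hA : A.PosSemidef) {c : ℝ}
    (hc : 0 ≤ c) : ((c : ℂ) • A).PosSemidef :=
  hA.smul (by exact_mod_cast hc)

theorem norm_plk_le {h : Cm 4 → Matrix (Fin 4) (Fin 4) ℂ} {F : Cm 4 → Cm 4} {x : Cm 4} {C₁ C₂ : ℝ}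
    (h1 : ∀ p i, ‖jmat F x p i‖ ≤ C₁) (h2 : ∀ p q, ‖h (F x) p q‖ ≤ C₂) (i j : Fin 4) :
    ‖plk h F x i j‖ ≤ 16 * (C₁ * C₂ * C₁) := by
  have hC₁ : 0 ≤ C₁ := (norm_nonneg _).trans (h1 0 0)
  have hC₂ : 0 ≤ C₂ := (norm_nonneg _).trans (h2 0 0)
  rw [plk_apply]
  have h3 : ∀ q ∈ Finset.univ, ‖∑ p, jmat F x p i * h (F x) p q * cj (jmat F x q j)‖ ≤
      4 * (C₁ * C₂ * C₁) := by
    intro q _
    have h4 : ∀ p ∈ Finset.univ, ‖jmat F x p i * h (F x) p q * cj (jmat F x q j)‖ ≤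
        C₁ * C₂ * C₁ := by
      intro p _
      rw [norm_mul, norm_mul]
      have h5 : ‖cj (jmat F x q j)‖ = ‖jmat F x q j‖ := by simp [cj]
      rw [h5]
      gcongr
      · exact h1 p i
      · exact h2 p q
      · exact h1 q j
    refine (norm_sum_le _ _).trans ((Finset.sum_le_sum h4).trans ?_)
    simp
  refine (norm_sum_le _ _).trans ((Finset.sum_le_sum h3).trans ?_)
  simp only [Finset.sum_const, Finset.card_univ, Fintype.card_fin, nsmul_eq_mul]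
  push_cast
  linarith

theorem stPull : TD.StPull := by
  intro Y _ _ _ _ _ χ hχ M hM hNef q D hD ρ hρ n hn hch w₀ γ₀ hγc hγa hγρ i₀ hi₀ ν Φ hΦ hnΦ
  -- conditions near `w₀`
  set e : Chart 4 Y := chartAt (Cm 4) (γ₀ w₀) with he
  have he0 : At e (γ₀ w₀) := at_chartAt _
  have hga : AnalyticAt ℂ (fun w => e (γ₀ w)) w₀ := hγa e he0
  have c1 : ∀ᶠ w in 𝓝 w₀, At e (γ₀ w) := by
    filter_upwards [hγc.eventually_mem (e.open_source.mem_nhds he0.2)] with w hw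
    exact ⟨he0.1, hw⟩
  have c2 : ∀ᶠ w in 𝓝 w₀, AnalyticAt ℂ (fun w => e (γ₀ w)) w := hga.eventually_analyticAt
  have c3 : ∀ᶠ w in 𝓝 w₀, ∀ᶠ w' in 𝓝 w, bl w' ∈ D → γ₀ w' = ρ (bl w') := hγρ.eventually_nhds
  have c4 : ∀ᶠ w in 𝓝 w₀, γ₀ w ∈ M.U i₀ := hγc.eventually_mem ((hM.isOpen i₀).mem_nhds hi₀)
  refine ⟨Hp χ ρ, ?_, ?_, ?_, ?_, ?_⟩
  · intro x hx i j
    have he1 : At (chartAt (Cm 4) (ρ x) : Chart 4 Y) (ρ x) := at_chartAt _
    have h1 := Hp_eventually hχ hD hρ hx he1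
    refine ContDiffAt.congr_of_eventuallyEq ?_
      (h1.mono fun y hy => show Hp χ ρ y i j = _ by rw [hy])
    exact contDiffAt_plk (fun p q => (hχ.smooth _ _ he1 p q).of_le (by exact_mod_cast le_top))
      ((hρ x hx).2 _ he1) i j
  · intro x hx i j k
    have he1 : At (chartAt (Cm 4) (ρ x) : Chart 4 Y) (ρ x) := at_chartAt _
    have h1 := Hp_eventually hχ hD hρ hx he1
    have h2 : ∀ i j, (fun y => Hp χ ρ y i j) =ᶠ[𝓝 x] fun y =>
        plk (χ (chartAt (Cm 4) (ρ x))) (fun z => chartAt (Cm 4) (ρ x) (ρ z)) y i j := fun i j =>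
      h1.mono fun y hy => show Hp χ ρ y i j = _ by rw [hy]
    rw [dz_congr (h2 i j), dz_congr (h2 k j)]
    exact closed_plk (fun p q => (hχ.smooth _ _ he1 p q).of_le (by exact_mod_cast le_top))
      (fun i j k => hχ.closed _ _ he1 i j k) ((hρ x hx).2 _ he1) i j k
  · intro x hx
    exact posSemidef_plk (hχ.posDef _ _ (at_chartAt _)).posSemidef
  · -- the bound
    have hχc : ∀ᶠ w in 𝓝 w₀, ∀ p q, ‖χ e (e (γ₀ w)) p q‖ < ∑ p, ∑ q, (‖χ e (e (γ₀ w₀)) p q‖ + 1) := by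
      rw [eventually_all]
      intro p
      rw [eventually_all]
      intro q
      have h1 : ContinuousAt (fun w => ‖χ e (e (γ₀ w)) p q‖) w₀ :=
        (ContinuousAt.comp (g := fun z => χ e z p q) (f := fun w => e (γ₀ w))
          (hχ.smooth e _ he0 p q).continuousAt hga.continuousAt).norm
      refine h1.eventually_lt_const ?_
      have h2 : ‖χ e (e (γ₀ w₀)) p q‖ + 1 ≤ ∑ q, (‖χ e (e (γ₀ w₀)) p q‖ + 1) :=
        Finset.single_le_sum (f := fun q => ‖χ e (e (γ₀ w₀)) p q‖ + 1)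
          (fun _ _ => by positivity) (Finset.mem_univ q)
      have h3 : ∑ q, (‖χ e (e (γ₀ w₀)) p q‖ + 1) ≤ ∑ p, ∑ q, (‖χ e (e (γ₀ w₀)) p q‖ + 1) :=
        Finset.single_le_sum (f := fun p => ∑ q, (‖χ e (e (γ₀ w₀)) p q‖ + 1))
          (fun _ _ => Finset.sum_nonneg fun _ _ => by positivity) (Finset.mem_univ p)
      linarith
    have hJc : ∀ᶠ w in 𝓝 w₀, ∀ p i, ‖jmat (fun w => e (γ₀ w)) w p i‖ <
        ∑ p, ∑ i, (‖jmat (fun w => e (γ₀ w)) w₀ p i‖ + 1) := by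
      rw [eventually_all]
      intro p
      rw [eventually_all]
      intro i
      have h1 : ContinuousAt (fun w => ‖jmat (fun w => e (γ₀ w)) w p i‖) w₀ :=
        (holo_jmat hga p i).continuousAt.norm
      refine h1.eventually_lt_const ?_
      have h2 : ‖jmat (fun w => e (γ₀ w)) w₀ p i‖ + 1 ≤
          ∑ i, (‖jmat (fun w => e (γ₀ w)) w₀ p i‖ + 1) :=
        Finset.single_le_sum (f := fun i => ‖jmat (fun w => e (γ₀ w)) w₀ p i‖ + 1)
          (fun _ _ => by positivity) (Finset.mem_univ i)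
      have h3 : ∑ i, (‖jmat (fun w => e (γ₀ w)) w₀ p i‖ + 1) ≤
          ∑ p, ∑ i, (‖jmat (fun w => e (γ₀ w)) w₀ p i‖ + 1) :=
        Finset.single_le_sum (f := fun p => ∑ i, (‖jmat (fun w => e (γ₀ w)) w₀ p i‖ + 1))
          (fun _ _ => Finset.sum_nonneg fun _ _ => by positivity) (Finset.mem_univ p)
      linarith
    set C₁ : ℝ := ∑ p, ∑ i, (‖jmat (fun w => e (γ₀ w)) w₀ p i‖ + 1) with hC₁
    set C₂ : ℝ := ∑ p, ∑ q, (‖χ e (e (γ₀ w₀)) p q‖ + 1) with hC₂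
    have hw1 : ∀ᶠ w in 𝓝 w₀, ‖w 1‖ < ‖w₀ 1‖ + 1 :=
      ((continuous_apply (1 : Fin 4)).norm.continuousAt (x := w₀)).eventually_lt_const (by linarith)
    have hw0' : ∀ᶠ w in 𝓝 w₀, ‖w 0‖ < ‖w₀ 0‖ + 1 :=
      ((continuous_apply (0 : Fin 4)).norm.continuousAt (x := w₀)).eventually_lt_const (by linarith)
    set C₃ : ℝ := C₁ * (‖w₀ 0‖ + ‖w₀ 1‖ + 2) with hC₃
    refine ⟨16 * (C₃ * C₂ * C₃), ?_⟩
    filter_upwards [c1, c2, c3, hχc, hJc, hw1, hw0'] with w d1 d2 d3 d4 d5 d6 d7 hw0 hwD i j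
    have hw0n : 0 < ‖w 0‖ := norm_pos_iff.2 hw0
    have hγ : γ₀ w = ρ (bl w) := d3.self_of_nhds hwD
    have hat : At e (ρ (bl w)) := hγ ▸ d1
    have heq : (fun w => e (γ₀ w)) =ᶠ[𝓝 w] fun w => e (ρ (bl w)) := by
      filter_upwards [d3, continuous_bl.continuousAt.eventually_mem (hD.mem_nhds hwD)]
        with w' h1 h2
      rw [h1 h2]
    have hρa : AnalyticAt ℂ (fun z => e (ρ z)) (bl w) := (hρ _ hwD).2 e hat
    set J := jmat (fun z => e (ρ z)) (bl w) with hJ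
    have hG : jmat (fun w => e (γ₀ w)) w = J * jmat bl w := by
      rw [jmat_congr heq]
      exact jmat_comp (G := fun z => e (ρ z)) (F := bl) hρa.differentiableAt
        (analyticAt_bl w).differentiableAt
    rw [jmat_bl] at hG
    have hC₁0 : 0 ≤ C₁ := (norm_nonneg _).trans (d5 0 0).le
    have hJb : ∀ p i, ‖J p i‖ ≤ C₃ / ‖w 0‖ := by
      intro p i
      rw [le_div_iff₀ hw0n]
      have g0 : jmat (fun w => e (γ₀ w)) w p 0 = J p 0 + J p 1 * w 1 := by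
        rw [hG, Matrix.mul_apply]; simp [Fin.sum_univ_succ]
      have g1 : jmat (fun w => e (γ₀ w)) w p 1 = J p 1 * w 0 := by
        rw [hG, Matrix.mul_apply]; simp [Fin.sum_univ_succ]
      have g2 : jmat (fun w => e (γ₀ w)) w p 2 = J p 2 := by
        rw [hG, Matrix.mul_apply]; simp [Fin.sum_univ_succ]
      have g3 : jmat (fun w => e (γ₀ w)) w p 3 = J p 3 := by
        rw [hG, Matrix.mul_apply]; simp [Fin.sum_univ_succ]
      have n1 : ‖J p 1‖ * ‖w 0‖ ≤ C₁ := by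
        rw [← norm_mul, ← g1]; exact (d5 p 1).le
      fin_cases i
      · change ‖J p 0‖ * ‖w 0‖ ≤ C₃
        have h1 : J p 0 = jmat (fun w => e (γ₀ w)) w p 0 - J p 1 * w 1 := by rw [g0]; ring
        have h2 : ‖J p 0‖ ≤ C₁ + ‖J p 1‖ * ‖w 1‖ := by
          rw [h1]
          refine (norm_sub_le _ _).trans ?_
          rw [norm_mul]
          linarith [d5 p 0]
        calc ‖J p 0‖ * ‖w 0‖ ≤ (C₁ + ‖J p 1‖ * ‖w 1‖) * ‖w 0‖ := by gcongr
          _ = C₁ * ‖w 0‖ + (‖J p 1‖ * ‖w 0‖) * ‖w 1‖ := by ring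
          _ ≤ C₁ * (‖w₀ 0‖ + 1) + C₁ * (‖w₀ 1‖ + 1) :=
            add_le_add (mul_le_mul_of_nonneg_left d7.le hC₁0)
              (mul_le_mul n1 d6.le (norm_nonneg _) hC₁0)
          _ = C₃ := by rw [hC₃]; ring
      · change ‖J p 1‖ * ‖w 0‖ ≤ C₃
        refine n1.trans ?_
        rw [hC₃]
        nlinarith [norm_nonneg (w₀ 0), norm_nonneg (w₀ 1)]
      · change ‖J p 2‖ * ‖w 0‖ ≤ C₃
        rw [← g2]
        calc _ ≤ C₁ * (‖w₀ 0‖ + 1) := by gcongr; exact (d5 p 2).le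
          _ ≤ C₃ := by rw [hC₃]; nlinarith [norm_nonneg (w₀ 0), norm_nonneg (w₀ 1)]
      · change ‖J p 3‖ * ‖w 0‖ ≤ C₃
        rw [← g3]
        calc _ ≤ C₁ * (‖w₀ 0‖ + 1) := by gcongr; exact (d5 p 3).le
          _ ≤ C₃ := by rw [hC₃]; nlinarith [norm_nonneg (w₀ 0), norm_nonneg (w₀ 1)]
    rw [Hp_eq hχ (hρ _ hwD).1 hat hρa]
    refine (norm_plk_le (C₁ := C₃ / ‖w 0‖) (C₂ := C₂) hJb (fun p q => ?_) i j).trans (le_of_eq ?_)
    · rw [← hγ]; exact (d4 p q).le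
    · field_simp
  · -- the functions
    intro δ hδ
    obtain ⟨ψ, hψ, hcurv⟩ := hNef (δ / (q + 1)) (by positivity)
    choose idx hidx using hM.cover
    set φ : Cm 4 → ℝ := fun x => q * ψ (idx (ρ x)) (ρ x) - Real.log (‖n (idx (ρ x)) x‖ ^ 2) with hφ
    have hφeq : ∀ x ∈ D, ∀ i, ρ x ∈ M.U i → φ x = q * ψ i (ρ x) - Real.log (‖n i x‖ ^ 2) := by
      intro x hx i hi
      have h1 := hψ.change i (idx (ρ x)) (ρ x) hi (hidx _)
      have h2 := hch i (idx (ρ x)) x hx hi (hidx _)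
      have h3 : ‖M.g i (idx (ρ x)) (ρ x)‖ ≠ 0 := norm_ne_zero_iff.2 (hM.ne_zero _ _ _ hi (hidx _))
      have h4 : ‖n (idx (ρ x)) x‖ ≠ 0 := norm_ne_zero_iff.2 (hn _ x hx (hidx _)).2
      simp only [hφ]
      have h5 : Real.log ((‖M.g i (idx (ρ x)) (ρ x)‖ ^ q) ^ 2) =
          q * Real.log (‖M.g i (idx (ρ x)) (ρ x)‖ ^ 2) := by
        rw [Real.log_pow, Real.log_pow, Real.log_pow]
        ring
      rw [h1, h2, norm_mul, norm_pow, mul_pow, Real.log_mul (pow_ne_zero _ (pow_ne_zero _ h3))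
        (pow_ne_zero _ h4), h5]
      ring
    refine ⟨φ, ?_, ?_⟩
    · intro x hx
      obtain ⟨i, hi⟩ := hM.cover (ρ x)
      set e₁ : Chart 4 Y := chartAt (Cm 4) (ρ x) with he₁
      have he1 : At e₁ (ρ x) := at_chartAt _
      have hF : AnalyticAt ℂ (fun z => e₁ (ρ z)) x := (hρ x hx).2 e₁ he1
      obtain ⟨hna, hn0⟩ := hn i x hx hi
      have hev : φ =ᶠ[𝓝 x] fun y => (q : ℝ) * ψ i (e₁.symm (e₁ (ρ y))) -
          Real.log (‖n i y‖ ^ 2) := by
        filter_upwards [hD.mem_nhds hx, (hρ x hx).1.eventually_mem ((hM.isOpen i).mem_nhds hi),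
          (hρ x hx).1.eventually_mem (e₁.open_source.mem_nhds he1.2)] with y h1 h2 h3
        rw [hφeq y h1 i h2, e₁.left_inv h3]
      have hψs : ContDiffAt ℝ 2 (fun z => ψ i (e₁.symm z)) (e₁ (ρ x)) :=
        (hψ.smooth i e₁ (ρ x) he1 hi).of_le ENat.LEInfty.out
      have hFr : ContDiffAt ℝ 2 (fun z => e₁ (ρ z)) x :=
        ((hF.contDiffAt (n := ω)).restrict_scalars ℝ).of_le le_top
      have hψF : ContDiffAt ℝ 2 (fun y => ψ i (e₁.symm (e₁ (ρ y)))) x :=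
        ContDiffAt.comp x (g := fun z => ψ i (e₁.symm z)) (f := fun z => e₁ (ρ z)) hψs hFr
      have hnr : ContDiffAt ℝ 2 (n i) x :=
        ((hna.contDiffAt (n := ω)).restrict_scalars ℝ).of_le le_top
      have hlog : ContDiffAt ℝ 2 (fun y => Real.log (‖n i y‖ ^ 2)) x := by
        refine ContDiffAt.log (hnr.norm_sq ℝ) ?_
        exact pow_ne_zero _ (norm_ne_zero_iff.2 hn0)
      have hqψ : ContDiffAt ℝ 2 (fun y => (q : ℝ) * ψ i (e₁.symm (e₁ (ρ y)))) x :=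
        contDiffAt_const.mul hψF
      refine ⟨(hqψ.sub hlog).congr_of_eventuallyEq hev, ?_⟩
      rw [cHess_congr hev, cHess_sub hqψ hlog, cHess_const_mul (q : ℝ) hψF,
        cHess_log_norm_sq (hna.contDiffAt) hn0, sub_zero,
        cHess_comp (f := fun z => ψ i (e₁.symm z)) (τ := fun z => e₁ (ρ z)) hψs hF.contDiffAt,
        Hp_eq hχ (hρ x hx).1 he1 hF]
      have h1 := hcurv i e₁ (ρ x) he1 hi
      have h2 := posSemidef_plk (h := fun _ => cHess (fun z => ψ i (e₁.symm z)) (e₁ (ρ x)) +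
        ((δ / (q + 1) : ℝ) : ℂ) • χ e₁ (e₁ (ρ x))) (F := fun z => e₁ (ρ z)) (x := x) h1
      have h3 : (plk (χ e₁) (fun z => e₁ (ρ z)) x).PosSemidef :=
        posSemidef_plk (hχ.posDef e₁ (ρ x) he1).posSemidef
      have h4 : plk (fun _ => cHess (fun z => ψ i (e₁.symm z)) (e₁ (ρ x)) +
          ((δ / (q + 1) : ℝ) : ℂ) • χ e₁ (e₁ (ρ x))) (fun z => e₁ (ρ z)) x =
          (jmat (fun z => e₁ (ρ z)) x).transpose *
            cHess (fun z => ψ i (e₁.symm z)) (e₁ (ρ x)) *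
            (jmat (fun z => e₁ (ρ z)) x).map (starRingEnd ℂ) +
          ((δ / (q + 1) : ℝ) : ℂ) • plk (χ e₁) (fun z => e₁ (ρ z)) x := by
        simp only [plk, Matrix.mul_add, Matrix.add_mul, Matrix.mul_smul, Matrix.smul_mul]
      rw [h4] at h2
      have h5 := (posSemidef_real_smul h2 (Nat.cast_nonneg q)).add
        (posSemidef_real_smul h3 (c := δ - q * (δ / (q + 1))) (by
          have : (q : ℝ) * (δ / (q + 1)) ≤ δ := by
            rw [mul_div_assoc', div_le_iff₀ (by positivity)]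
            nlinarith [Nat.cast_nonneg (α := ℝ) q]
          linarith))
      convert h5 using 1
      rw [smul_add, smul_smul, add_assoc, ← add_smul]
      congr 2
      push_cast
      ring
    · have hΦb : ∀ᶠ w in 𝓝 w₀, ‖Φ w‖ < ‖Φ w₀‖ + 1 :=
        hΦ.norm.eventually_lt_const (by linarith)
      have hψb : ∀ᶠ w in 𝓝 w₀, ψ i₀ (γ₀ w₀) - 1 < ψ i₀ (γ₀ w) := by
        have h1 : ContinuousAt (fun w => ψ i₀ (e.symm (e (γ₀ w)))) w₀ :=
          ContinuousAt.comp (g := fun z => ψ i₀ (e.symm z)) (f := fun w => e (γ₀ w))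
            (hψ.smooth i₀ e _ he0 hi₀).continuousAt hga.continuousAt
        have h2 : ContinuousAt (fun w => ψ i₀ (γ₀ w)) w₀ := by
          refine h1.congr ?_
          filter_upwards [c1] with w hw
          rw [e.left_inv hw.2]
        exact h2.eventually_const_lt (by linarith)
      refine ⟨2 * Real.log (‖Φ w₀‖ + 1) - q * (ψ i₀ (γ₀ w₀) - 1), ?_⟩
      filter_upwards [c3, c4, hΦb, hψb, hnΦ] with w d1 d2 d3 d4 d5 hw0 hwD
      have hγ : γ₀ w = ρ (bl w) := d1.self_of_nhds hwD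
      have hi : ρ (bl w) ∈ M.U i₀ := hγ ▸ d2
      have hn0 := (hn i₀ _ hwD hi).2
      have hnw := d5 hwD
      have hΦ0 : Φ w ≠ 0 := by
        intro h0
        rw [hnw, h0, mul_zero] at hn0
        exact hn0 rfl
      rw [hφeq _ hwD i₀ hi, hnw, ← hγ]
      have h1 : Real.log (‖w 0 ^ ν * Φ w‖ ^ 2) = 2 * ν * Real.log ‖w 0‖ + 2 * Real.log ‖Φ w‖ := by
        rw [norm_mul, norm_pow, Real.log_pow, Real.log_mul
          (pow_ne_zero _ (norm_ne_zero_iff.2 hw0)) (norm_ne_zero_iff.2 hΦ0), Real.log_pow]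
        push_cast
        ring
      have h2 : Real.log ‖Φ w‖ ≤ Real.log (‖Φ w₀‖ + 1) :=
        Real.log_le_log (norm_pos_iff.2 hΦ0) d3.le
      have h3 : (q : ℝ) * (ψ i₀ (γ₀ w₀) - 1) ≤ q * ψ i₀ (γ₀ w) := by gcongr
      rw [h1, one_div, Real.log_inv]
      linarith

/-- Task TD from the analytic half. -/
theorem stTD_of_core (hC : TD.StCore) : StTD := TD.stTD_of hC stPull

end Vale.Agent.P277.H19
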