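import Vale.Agent.P277.H19.Pull
import Vale.Agent.P277.H19.Thin
import Vale.Agent.P272.K.INT.Wirt

/-!
# P277, package TX-PUSH: algebra and the divergence identity
-/

open scoped Manifold ContDiff ComplexOrder Topology
open Vale.Agent.P272.K Vale.Agent.P272.K.C2 Vale.Agent.P285.H281.FD Set Filter MeasureTheory

noncomputable section

namespace Vale.Agent.P277.H19

variable {ι : Type*} [Fintype ι] [DecidableEq ι]

theorem det_update_swap (M : Matrix ι ι ℂ) {i k : ι} (h : i ≠ k) (u w : ι → ℂ) :
    ((M.updateRow i u).updateRow k w).det = -((M.updateRow i w).updateRow k u).det := by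
  have h1 := Matrix.det_permute (Equiv.swap i k) ((M.updateRow i w).updateRow k u)
  have h2 : ((M.updateRow i w).updateRow k u).submatrix (Equiv.swap i k) id =
      (M.updateRow i u).updateRow k w := by
    ext a b
    simp only [Matrix.submatrix_apply, id_eq, Matrix.updateRow_apply]
    by_cases hk : a = k
    · subst hk
      simp [Equiv.swap_apply_right, h]
    · by_cases hi : a = i
      · subst hi
        simp [Equiv.swap_apply_left, h]
      · rw [Equiv.swap_apply_of_ne_of_ne hi hk]
        simp [hi, hk]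
  rw [h2, Equiv.Perm.sign_swap h] at h1
  simpa using h1

/-- the signed complementary minors -/
def Nn (J : Matrix ι ι ℂ) (i k m q : ι) : ℂ :=
  ((J.updateRow i (Pi.single m 1)).updateRow k (Pi.single q 1)).det

theorem Nn_swap (J : Matrix ι ι ℂ) {i k : ι} (h : i ≠ k) (m q : ι) :
    Nn J i k m q = -Nn J i k q m := det_update_swap J h _ _

theorem Nn_eq (J : Matrix ι ι ℂ) (i k m q : ι) :
    Nn J i k m q = (J.updateRow i (Pi.single m 1)).adjugate q k := by
  rw [Matrix.adjugate_apply]; rfl

theorem sum_mul_adj (R : Matrix ι ι ℂ) (k : ι) (u : ι → ℂ) :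
    ∑ q, u q * R.adjugate q k = (R.updateRow k u).det := by
  have h1 : (R.updateRow k u).det = (R.transpose.updateCol k u).det := by
    rw [Matrix.updateCol_transpose, Matrix.det_transpose]
  rw [h1, ← Matrix.cramer_apply, Matrix.cramer_eq_adjugate_mulVec, ← Matrix.adjugate_transpose]
  simp only [Matrix.mulVec, dotProduct, Matrix.transpose_apply]
  exact Finset.sum_congr rfl fun j _ => mul_comm _ _

theorem sum_mul_Nn (J : Matrix ι ι ℂ) {i k : ι} (h : i ≠ k) (m l : ι) :
    ∑ q, J l q * Nn J i k m q =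
      if l = k then J.adjugate m i else if l = i then -J.adjugate m k else 0 := by
  simp only [Nn_eq]
  rw [sum_mul_adj]
  split_ifs with h1 h2
  · subst h1
    rw [Matrix.adjugate_apply]
    congr 1
    ext a b
    simp only [Matrix.updateRow_apply]
    split_ifs <;> simp_all
  · subst h2
    rw [Matrix.adjugate_apply, det_update_swap J h]
    congr 2
    ext a b
    simp only [Matrix.updateRow_apply]
    split_ifs <;> simp_all
  · refine Matrix.det_zero_of_row_eq (i := l) (j := k) h1 ?_
    rw [Matrix.updateRow_ne h1, Matrix.updateRow_ne h2, Matrix.updateRow_self]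

omit [DecidableEq ι] in
theorem antisymm_sum {S T : ι → ι → ℂ} (hS : ∀ a b, S a b = S b a) (hT : ∀ a b, T a b = -T b a) :
    ∑ a, ∑ b, S a b * T a b = 0 := by
  have h1 : ∑ a, ∑ b, S a b * T a b = -∑ a, ∑ b, S a b * T a b := by
    conv_lhs => rw [Finset.sum_comm]
    rw [← Finset.sum_neg_distrib]
    refine Finset.sum_congr rfl fun a _ => ?_
    rw [← Finset.sum_neg_distrib]
    refine Finset.sum_congr rfl fun b _ => ?_
    rw [hS b a, hT b a]
    ring
  exact self_eq_neg.1 h1

/-- Piola identity for the adjugate of a matrix with closed rows -/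
theorem piola {n : ℕ} {R : Cm n → Matrix (Fin n) (Fin n) ℂ} {z : Cm n} {k : Fin n} (hR : MD R z)
    (hc : ∀ b, b ≠ k → ∀ q a, dz q (fun y => R y b a) z = dz a (fun y => R y b q) z) :
    ∑ q, dz q (fun y => (R y).adjugate q k) z = 0 := by
  have h1 : ∀ q, dz q (fun y => (R y).adjugate q k) z = ∑ b, ∑ a,
      (if b = k then 0 else dz q (fun y => R y b a) z *
        (((R z).updateRow k (Pi.single q 1)).updateRow b (Pi.single a 1)).det) := by
    intro q
    set B : Cm n → Matrix (Fin n) (Fin n) ℂ := fun y => (R y).updateRow k (Pi.single q 1) with hB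
    have hBd : MD B z := by
      intro b a
      simp only [hB, Matrix.updateRow_apply]
      by_cases hb : b = k
      · simp only [hb, if_true]; exact differentiableAt_const _
      · simp only [hb, if_false]; exact hR b a
    have e1 : dz q (fun y => (R y).adjugate q k) z = dz q (fun y => (B y).det) z := by
      congr 1
      ext y
      exact Matrix.adjugate_apply _ _ _
    rw [e1, dz_eq_DD, DD_det _ _ _ _ hBd]
    simp only [Matrix.trace, Matrix.diag_apply, Matrix.mul_apply, Matrix.of_apply, ← dz_eq_DD]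
    rw [Finset.sum_comm]
    refine Finset.sum_congr rfl fun b _ => Finset.sum_congr rfl fun a _ => ?_
    by_cases hb : b = k
    · subst hb
      simp only [hB, Matrix.updateRow_self, if_true]
      rw [C2.dz_const, mul_zero]
    · simp only [hB, Matrix.updateRow_ne hb, if_neg hb]
      rw [Matrix.adjugate_apply, mul_comm]
  rw [Finset.sum_congr rfl fun q _ => h1 q, Finset.sum_comm]
  refine Finset.sum_eq_zero fun b _ => ?_
  by_cases hb : b = k
  · simp [hb]
  · simp only [if_neg hb]
    exact antisymm_sum (S := fun q a => dz q (fun y => R y b a) z) (T := fun q a =>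
      (((R z).updateRow k (Pi.single q 1)).updateRow b (Pi.single a 1)).det)
      (fun q a => hc b hb q a) (fun q a => det_update_swap _ (Ne.symm hb) _ _)

section
variable {F : Cm 4 → Cm 4} {z : Cm 4} {i k : Fin 4}

theorem md_jmat (hF : AnalyticAt ℂ F z) : MD (jmat F) z := fun p i =>
  ((holo_jmat hF p i).differentiableAt (by simp)).restrictScalars ℝ

theorem mc_jmat {m : WithTop ℕ∞} (hF : AnalyticAt ℂ F z) : MC m (jmat F) z := fun p i =>
  ((holo_jmat hF p i).restrict_scalars ℝ).of_le le_top

theorem piola_Nn (hF : AnalyticAt ℂ F z) (m : Fin 4) :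
    ∑ q, dz q (fun y => Nn (jmat F y) i k m q) z = 0 := by
  simp only [Nn_eq]
  have hFr : ∀ p, ContDiffAt ℝ 2 (fun y => F y p) z := fun p =>
    ((contDiffAt_pi.1 ((hF.contDiffAt (n := ω)).restrict_scalars ℝ)) p).of_le le_top
  refine piola (R := fun y => (jmat F y).updateRow i (Pi.single m 1)) ?_ ?_
  · intro b a
    by_cases hb : b = i
    · subst hb
      simp only [Matrix.updateRow_self]; exact differentiableAt_const _
    · simp only [Matrix.updateRow_ne hb]; exact md_jmat hF b a
  · intro b _ q a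
    by_cases hb : b = i
    · subst hb
      simp only [Matrix.updateRow_self]; rw [C2.dz_const, C2.dz_const]
    · simp only [Matrix.updateRow_ne hb]
      exact dz_dz_comm (hFr b)

theorem contDiffAt_Nn {r : WithTop ℕ∞} (hF : AnalyticAt ℂ F z) (m q : Fin 4) :
    ContDiffAt ℝ r (fun y => Nn (jmat F y) i k m q) z := by
  simp only [Nn_eq]
  refine MC.adjugate (A := fun y => (jmat F y).updateRow i (Pi.single m 1)) ?_ q k
  intro b a
  by_cases hb : b = i
  · subst hb
    simp only [Matrix.updateRow_self]; exact contDiffAt_const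
  · simp only [Matrix.updateRow_ne hb]; exact mc_jmat hF b a

theorem analyticAt_adj_jmat (hF : AnalyticAt ℂ F z) (n j : Fin 4) :
    AnalyticAt ℂ (fun y => (jmat F y).adjugate n j) z := by
  simp only [Matrix.adjugate_apply]
  refine analyticAt_matdet (fun a b => ?_)
  simp only [Matrix.updateRow_apply]
  split_ifs
  · exact analyticAt_const
  · exact (holo_jmat hF a b).analyticAt

/-- `Aᵀ h Ā`, `A` the adjugate of the Jacobian matrix of `F` -/
def aH (h : Cm 4 → Matrix (Fin 4) (Fin 4) ℂ) (F : Cm 4 → Cm 4) (z : Cm 4) :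
    Matrix (Fin 4) (Fin 4) ℂ :=
  (jmat F z).adjugate.transpose * h z * (jmat F z).adjugate.map (starRingEnd ℂ)

theorem aH_apply (h : Cm 4 → Matrix (Fin 4) (Fin 4) ℂ) (F : Cm 4 → Cm 4) (z : Cm 4)
    (i j : Fin 4) : aH h F z i j =
      ∑ n, ∑ m, (jmat F z).adjugate m i * h z m n * cj ((jmat F z).adjugate n j) := by
  simp only [aH, Matrix.mul_apply, Matrix.transpose_apply, Matrix.map_apply, Finset.sum_mul]

variable {h : Cm 4 → Matrix (Fin 4) (Fin 4) ℂ} {Ω K : Set (Cm 4)} {b : Cm 4 → ℂ}

theorem div_identity (hF : AnalyticAt ℂ F z) (hh : ∀ p q, ContDiffAt ℝ 1 (fun y => h y p q) z)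
    (hc : ∀ i j k, dz k (fun y => h y i j) z = dz i (fun y => h y k j) z)
    (hb : ContDiffAt ℝ 1 b z) (hik : i ≠ k) (j : Fin 4) :
    ∑ q, dz q (fun y => ∑ m, ∑ n, b y * (h y m n * (cj ((jmat F y).adjugate n j) *
      Nn (jmat F y) i k m q))) z =
    ∑ m, ∑ n, h z m n * (cj ((jmat F z).adjugate n j) *
      ∑ q, Nn (jmat F z) i k m q * dz q b z) := by
  have db : DifferentiableAt ℝ b z := hb.differentiableAt one_ne_zero
  have dh : ∀ p q, DifferentiableAt ℝ (fun y => h y p q) z := fun p q =>
    (hh p q).differentiableAt one_ne_zero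
  have dA' : ∀ n, DifferentiableAt ℂ (fun y => (jmat F y).adjugate n j) z := fun n =>
    (analyticAt_adj_jmat hF n j).differentiableAt
  have dA : ∀ n, DifferentiableAt ℝ (fun y => (jmat F y).adjugate n j) z := fun n =>
    (dA' n).restrictScalars ℝ
  have dcA : ∀ n, DifferentiableAt ℝ (fun y => cj ((jmat F y).adjugate n j)) z := fun n =>
    Complex.conjCLE.differentiableAt.comp z (dA n)
  have dN : ∀ m q, DifferentiableAt ℝ (fun y => Nn (jmat F y) i k m q) z := fun m q =>
    (contDiffAt_Nn (r := 1) hF m q).differentiableAt one_ne_zero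
  have hterm : ∀ q m n, dz q (fun y => b y * (h y m n * (cj ((jmat F y).adjugate n j) *
      Nn (jmat F y) i k m q))) z =
      dz q b z * (h z m n * (cj ((jmat F z).adjugate n j) * Nn (jmat F z) i k m q)) +
      b z * (dz q (fun y => h y m n) z * (cj ((jmat F z).adjugate n j) * Nn (jmat F z) i k m q)) +
      b z * (h z m n * (cj ((jmat F z).adjugate n j) * dz q (fun y => Nn (jmat F y) i k m q) z))
      := by
    intro q m n
    have e0 : dz q (fun y => cj ((jmat F y).adjugate n j)) z = 0 := by
      have e3 : dz q (fun y => cj ((jmat F y).adjugate n j)) z =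
          cj (dzb q (fun y => (jmat F y).adjugate n j) z) :=
        dz_cj (f := fun y => (jmat F y).adjugate n j) (dA n)
      rw [e3, dzb_of_holo (dA' n)]
      simp [cj]
    have e1 := C2.dz_mul (z := z) q (f := b) (g := fun y => h y m n *
      (cj ((jmat F y).adjugate n j) * Nn (jmat F y) i k m q)) db
      ((dh m n).mul ((dcA n).mul (dN m q)))
    have e2 := C2.dz_mul (z := z) q (f := fun y => h y m n) (g := fun y =>
      cj ((jmat F y).adjugate n j) * Nn (jmat F y) i k m q) (dh m n) ((dcA n).mul (dN m q))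
    have e3 := C2.dz_mul (z := z) q (f := fun y => cj ((jmat F y).adjugate n j)) (g := fun y =>
      Nn (jmat F y) i k m q) (dcA n) (dN m q)
    rw [e1, e2, e3, e0]
    ring
  have hd : ∀ q m n, DifferentiableAt ℝ (fun y => b y * (h y m n *
      (cj ((jmat F y).adjugate n j) * Nn (jmat F y) i k m q))) z := fun q m n =>
    db.mul ((dh m n).mul ((dcA n).mul (dN m q)))
  have h1 : ∀ q, dz q (fun y => ∑ m, ∑ n, b y * (h y m n * (cj ((jmat F y).adjugate n j) *
      Nn (jmat F y) i k m q))) z = ∑ m, ∑ n,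
      (dz q b z * (h z m n * (cj ((jmat F z).adjugate n j) * Nn (jmat F z) i k m q)) +
      b z * (dz q (fun y => h y m n) z * (cj ((jmat F z).adjugate n j) * Nn (jmat F z) i k m q)) +
      b z * (h z m n * (cj ((jmat F z).adjugate n j) *
        dz q (fun y => Nn (jmat F y) i k m q) z))) := by
    intro q
    rw [C2.dz_sum q Finset.univ fun m _ => DifferentiableAt.fun_sum fun n _ => hd q m n]
    refine Finset.sum_congr rfl fun m _ => ?_
    rw [C2.dz_sum q Finset.univ fun n _ => hd q m n]
    exact Finset.sum_congr rfl fun n _ => hterm q m n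
  rw [Finset.sum_congr rfl fun q _ => h1 q]
  simp only [Finset.sum_add_distrib]
  have h2 : ∑ q, ∑ m, ∑ n, b z * (dz q (fun y => h y m n) z *
      (cj ((jmat F z).adjugate n j) * Nn (jmat F z) i k m q)) = 0 := by
    have h3 : ∀ n, ∑ q, ∑ m, dz q (fun y => h y m n) z * Nn (jmat F z) i k m q = 0 := fun n =>
      antisymm_sum (S := fun q m => dz q (fun y => h y m n) z)
        (T := fun q m => Nn (jmat F z) i k m q) (fun q m => hc m n q) (fun q m => Nn_swap _ hik _ _)
    have h4 : ∑ q, ∑ m, ∑ n, b z * (dz q (fun y => h y m n) z *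
        (cj ((jmat F z).adjugate n j) * Nn (jmat F z) i k m q)) =
        ∑ n, b z * cj ((jmat F z).adjugate n j) *
          ∑ q, ∑ m, dz q (fun y => h y m n) z * Nn (jmat F z) i k m q := by
      simp only [Finset.mul_sum]
      rw [Finset.sum_congr rfl fun q _ => Finset.sum_comm, Finset.sum_comm]
      refine Finset.sum_congr rfl fun n _ => Finset.sum_congr rfl fun q _ =>
        Finset.sum_congr rfl fun m _ => ?_
      ring
    rw [h4]
    exact Finset.sum_eq_zero fun n _ => by rw [h3, mul_zero]
  have h5 : ∑ q, ∑ m, ∑ n, b z * (h z m n * (cj ((jmat F z).adjugate n j) *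
      dz q (fun y => Nn (jmat F y) i k m q) z)) = 0 := by
    have h6 : ∑ q, ∑ m, ∑ n, b z * (h z m n * (cj ((jmat F z).adjugate n j) *
        dz q (fun y => Nn (jmat F y) i k m q) z)) = ∑ m, ∑ n, b z * (h z m n *
        (cj ((jmat F z).adjugate n j) * ∑ q, dz q (fun y => Nn (jmat F y) i k m q) z)) := by
      simp only [Finset.mul_sum]
      rw [Finset.sum_comm]
      refine Finset.sum_congr rfl fun m _ => ?_
      rw [Finset.sum_comm]
    rw [h6]
    exact Finset.sum_eq_zero fun m _ => Finset.sum_eq_zero fun n _ => by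
      rw [piola_Nn hF, mul_zero, mul_zero, mul_zero]
  rw [h2, h5, add_zero, add_zero]
  simp only [Finset.mul_sum]
  rw [Finset.sum_comm]
  refine Finset.sum_congr rfl fun m _ => ?_
  rw [Finset.sum_comm]
  refine Finset.sum_congr rfl fun n _ => Finset.sum_congr rfl fun q _ => ?_
  ring

theorem sum_Nn_dz {a : Cm 4 → ℂ} (hF : AnalyticAt ℂ F z) (ha : DifferentiableAt ℝ a (F z))
    (hik : i ≠ k) (m : Fin 4) :
    ∑ q, Nn (jmat F z) i k m q * dz q (fun y => a (F y)) z =
      dz k a (F z) * (jmat F z).adjugate m i - dz i a (F z) * (jmat F z).adjugate m k := by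
  have h1 : ∀ q, dz q (fun y => a (F y)) z = ∑ l, dz l a (F z) * jmat F z l q := fun q =>
    dz_comp_holo ha hF.differentiableAt
  simp only [h1, Finset.mul_sum]
  rw [Finset.sum_comm]
  have h2 : ∀ l, ∑ q, Nn (jmat F z) i k m q * (dz l a (F z) * jmat F z l q) =
      dz l a (F z) * (if l = k then (jmat F z).adjugate m i
        else if l = i then -(jmat F z).adjugate m k else 0) := by
    intro l
    rw [← sum_mul_Nn (jmat F z) hik m l, Finset.mul_sum]
    exact Finset.sum_congr rfl fun q _ => by ring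
  rw [Finset.sum_congr rfl fun l _ => h2 l, ← Finset.add_sum_erase _ _ (Finset.mem_univ k),
    ← Finset.add_sum_erase _ _ (Finset.mem_erase.2 ⟨hik, Finset.mem_univ i⟩)]
  rw [if_pos rfl, if_neg hik, if_pos rfl, Finset.sum_eq_zero, add_zero]
  · ring
  · intro l hl
    rw [Finset.mem_erase, Finset.mem_erase] at hl
    rw [if_neg hl.2.1, if_neg hl.1, mul_zero]

theorem weak_closed (hΩ : IsOpen Ω) (hK : IsCompact K) (hKΩ : K ⊆ Ω)
    (hF : ∀ z ∈ Ω, AnalyticAt ℂ F z)
    (hh : ∀ z ∈ Ω, ∀ p q, ContDiffAt ℝ 1 (fun y => h y p q) z)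
    (hc : ∀ z ∈ Ω, ∀ i j k, dz k (fun y => h y i j) z = dz i (fun y => h y k j) z)
    {a : Cm 4 → ℝ} (ha : ContDiff ℝ ∞ a) (haK : ∀ z ∈ Ω, z ∉ K → F z ∉ tsupport a)
    (i j k : Fin 4) :
    ∫ z in Ω, (aH h F z i j * dz k (fun w => (a w : ℂ)) (F z) -
      aH h F z k j * dz i (fun w => (a w : ℂ)) (F z)) = 0 := by
  classical
  by_cases hik : i = k
  · subst hik
    simp
  set b : Cm 4 → ℂ := fun y => (a (F y) : ℂ) with hb
  have ha' : ContDiff ℝ ∞ (fun w => (a w : ℂ)) := Complex.ofRealCLM.contDiff.comp ha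
  have hbc : ∀ z ∈ Ω, ContDiffAt ℝ 1 b z := fun z hz =>
    ContDiffAt.comp (g := fun w => (a w : ℂ)) z (ha'.contDiffAt.of_le (by exact_mod_cast le_top))
      (((hF z hz).contDiffAt (n := ω)).restrict_scalars ℝ |>.of_le le_top)
  have hb0 : ∀ z ∈ Ω, z ∉ K → b z = 0 := fun z hz hzK => by
    simp only [hb, image_eq_zero_of_notMem_tsupport (haK z hz hzK), Complex.ofReal_zero]
  set u : Fin 4 → Cm 4 → ℂ := fun q => Ω.indicator fun y => ∑ m, ∑ n, b y * (h y m n *
    (cj ((jmat F y).adjugate n j) * Nn (jmat F y) i k m q)) with hu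
  have hu0 : ∀ q z, z ∉ K → u q z = 0 := by
    intro q z hz
    by_cases hzΩ : z ∈ Ω
    · simp only [hu, indicator_of_mem hzΩ]
      rw [hb0 z hzΩ hz]
      simp
    · exact indicator_of_notMem hzΩ _
  have huc : ∀ q, HasCompactSupport (u q) := fun q => HasCompactSupport.intro hK (hu0 q)
  have hue : ∀ q, ∀ z ∈ Ω, u q =ᶠ[𝓝 z] fun y => ∑ m, ∑ n, b y * (h y m n *
      (cj ((jmat F y).adjugate n j) * Nn (jmat F y) i k m q)) := by
    intro q z hz
    filter_upwards [hΩ.mem_nhds hz] with y hy
    exact indicator_of_mem hy _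
  have hud : ∀ q, ContDiff ℝ 1 (u q) := by
    intro q
    rw [contDiff_iff_contDiffAt]
    intro z
    by_cases hz : z ∈ Ω
    · refine ContDiffAt.congr_of_eventuallyEq ?_ (hue q z hz)
      refine ContDiffAt.sum fun m _ => ContDiffAt.sum fun n _ => ?_
      refine (hbc z hz).mul ((hh z hz m n).mul (ContDiffAt.mul ?_ (contDiffAt_Nn (hF z hz) m q)))
      exact Complex.conjCLE.contDiff.contDiffAt.comp z
        (((analyticAt_adj_jmat (hF z hz) n j).contDiffAt (n := ω)).restrict_scalars ℝ
          |>.of_le le_top)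
    · have h1 : u q =ᶠ[𝓝 z] fun _ => 0 := by
        filter_upwards [hK.isClosed.isOpen_compl.mem_nhds fun h => hz (hKΩ h)] with y hy
        exact hu0 q y hy
      exact contDiffAt_const.congr_of_eventuallyEq h1
  have key : ∀ z, ∑ q, dz q (u q) z = Ω.indicator (fun z =>
      aH h F z i j * dz k (fun w => (a w : ℂ)) (F z) -
      aH h F z k j * dz i (fun w => (a w : ℂ)) (F z)) z := by
    intro z
    by_cases hz : z ∈ Ω
    · rw [indicator_of_mem hz, Finset.sum_congr rfl fun q _ => C2.dz_congr q (hue q z hz),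
        div_identity (hF z hz) (hh z hz) (hc z hz) (hbc z hz) hik j]
      have h2 : ∀ m, ∑ q, Nn (jmat F z) i k m q * dz q b z =
          dz k (fun w => (a w : ℂ)) (F z) * (jmat F z).adjugate m i -
            dz i (fun w => (a w : ℂ)) (F z) * (jmat F z).adjugate m k := fun m =>
        sum_Nn_dz (a := fun w => (a w : ℂ)) (hF z hz) (ha'.differentiable (by simp) _) hik m
      simp only [h2, aH_apply, Finset.sum_mul]
      rw [Finset.sum_comm, ← Finset.sum_sub_distrib]
      refine Finset.sum_congr rfl fun n _ => ?_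
      rw [← Finset.sum_sub_distrib]
      refine Finset.sum_congr rfl fun m _ => ?_
      ring
    · rw [indicator_of_notMem hz]
      refine Finset.sum_eq_zero fun q _ => ?_
      have h1 : u q =ᶠ[𝓝 z] fun _ => 0 := by
        filter_upwards [hK.isClosed.isOpen_compl.mem_nhds fun h => hz (hKΩ h)] with y hy
        exact hu0 q y hy
      rw [C2.dz_congr q h1, C2.dz_const]
  rw [← integral_indicator hΩ.measurableSet]
  simp only [← key]
  have hint : ∀ q, Integrable (fun z => dz q (u q) z) := by
    intro q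
    have h1 : Continuous (dz q (u q)) :=
      (contDiff_iff_contDiffAt.2 fun z => C2.contDiffAt_dz (m := 0) q ((hud q).contDiffAt (x := z))
        (by norm_num)).continuous
    refine h1.integrable_of_hasCompactSupport ?_
    refine HasCompactSupport.intro hK fun z hz => ?_
    have h2 : u q =ᶠ[𝓝 z] fun _ => 0 := by
      filter_upwards [hK.isClosed.isOpen_compl.mem_nhds hz] with y hy
      exact hu0 q y hy
    rw [C2.dz_congr q h2, C2.dz_const]
  rw [integral_finsetSum _ fun q _ => hint q]
  exact Finset.sum_eq_zero fun q _ => INT.integral_dz_eq_zero (hud q) (huc q) q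

end

end Vale.Agent.P277.H19
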