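import Vale.Agent.P277.H73.IFT
import Vale.Agent.P267.H928.Int.Cplx
import Mathlib.MeasureTheory.Function.Jacobian

/-!
# P277, package TX-PUSH: area formula for finite maps
-/

open scoped Manifold ContDiff ComplexOrder Topology
open Vale.Agent.P272.K Set Filter MeasureTheory

noncomputable section

namespace Vale.Agent.P277.H19

variable {Ω : Set (Cm 4)} {F : Cm 4 → Cm 4}

/-- sum over the fibre -/
def fsum {A : Type} [AddCommMonoid A] (Ω : Set (Cm 4)) (F : Cm 4 → Cm 4) (g : Cm 4 → A) (z : Cm 4) :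
    A := ∑ᶠ w ∈ {w | w ∈ Ω ∧ F w = z}, g w

/-- countable decomposition in pieces where `F` is injective -/
theorem exists_pieces (hΩ : IsOpen Ω) (hF : ∀ z ∈ Ω, AnalyticAt ℂ F z)
    (hdet : ∀ z ∈ Ω, (fderiv ℂ F z).det ≠ 0) :
    ∃ B : ℕ → Set (Cm 4), (∀ n, MeasurableSet (B n)) ∧ Pairwise (Function.onFun Disjoint B) ∧
      (⋃ n, B n) = Ω ∧ ∀ n, InjOn F (B n) := by
  classical
  have key : ∀ p : Ω, ∃ N : Set (Cm 4), IsOpen N ∧ (p : Cm 4) ∈ N ∧ N ⊆ Ω ∧ InjOn F N := by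
    rintro ⟨p, hp⟩
    have hdet' : (fderiv ℝ F p).det ≠ 0 := by
      have h1 : fderiv ℝ F p = (fderiv ℂ F p).restrictScalars ℝ :=
        (hF p hp).differentiableAt.fderiv_restrictScalars ℝ
      rw [h1, Vale.Agent.P267.H928.Int.det_real]
      have := hdet p hp
      rw [ne_eq, Complex.normSq_eq_zero]
      exact this
    let L : Cm 4 ≃L[ℝ] Cm 4 :=
      (LinearMap.equivOfDetNeZero (fderiv ℝ F p : Cm 4 →ₗ[ℝ] Cm 4) hdet').toContinuousLinearEquiv
    have hL : (L : Cm 4 →L[ℝ] Cm 4) = fderiv ℝ F p := by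
      ext v : 1
      rfl
    have hstrict : HasStrictFDerivAt F (L : Cm 4 →L[ℝ] Cm 4) p := by
      rw [hL]
      exact ((hF p hp).contDiffAt.restrict_scalars ℝ).hasStrictFDerivAt
        (by norm_num : (1 : WithTop ℕ∞) ≠ 0)
    obtain ⟨N, hN, hNo, hpN⟩ := _root_.eventually_nhds_iff.1
      (hstrict.eventually_left_inverse.and (hΩ.mem_nhds hp))
    refine ⟨N, hNo, hpN, fun y hy => (hN y hy).2, fun y hy y' hy' h => ?_⟩
    rw [← (hN y hy).1, h, (hN y' hy').1]
  choose N hNo hpN hNΩ hNi using key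
  obtain ⟨T, hT, hTcov⟩ := TopologicalSpace.isOpen_iUnion_countable N hNo
  have hcov : (⋃ p ∈ T, N p) = Ω := by
    rw [hTcov]
    ext z
    simp only [mem_iUnion]
    constructor
    · rintro ⟨p, hp⟩; exact hNΩ p hp
    · intro hz; exact ⟨⟨z, hz⟩, hpN ⟨z, hz⟩⟩
  have : Countable T := hT
  rcases isEmpty_or_nonempty T with hem | hne
  · refine ⟨fun _ => ∅, fun _ => MeasurableSet.empty, fun _ _ _ => disjoint_bot_left, ?_,
      fun _ => injOn_empty _⟩
    rw [← hcov]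
    ext z
    simp only [mem_iUnion, mem_empty_iff_false, exists_false, false_iff, not_exists]
    intro p hp
    exact (hem.false ⟨p, hp⟩).elim
  · obtain ⟨enum, henum⟩ := exists_surjective_nat T
    refine ⟨disjointed fun n => N (enum n), fun n => ?_, disjoint_disjointed _, ?_, fun n => ?_⟩
    · exact MeasurableSet.disjointed (fun n => (hNo _).measurableSet) n
    · refine iUnion_disjointed.trans (Eq.trans ?_ hcov)
      ext z
      simp only [mem_iUnion]
      constructor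
      · rintro ⟨n, hn⟩; exact ⟨enum n, (enum n).2, hn⟩
      · rintro ⟨p, hp, hz⟩
        obtain ⟨n, hn⟩ := henum ⟨p, hp⟩
        exact ⟨n, by rw [hn]; exact hz⟩
    · exact (hNi _).mono (disjointed_subset _ n)

section
variable {g : Cm 4 → ℂ} {B : Set (Cm 4)}

theorem fsum_eq {A : Type} [AddCommMonoid A] (hfin : ∀ z, {w | w ∈ Ω ∧ F w = z}.Finite)
    (g : Cm 4 → A) (z : Cm 4) : fsum Ω F g z = ∑ w ∈ (hfin z).toFinset, g w :=
  finsum_mem_eq_finite_toFinset_sum _ _

theorem fsum_indicator_of_mem {A : Type} [AddCommMonoid A]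
    (hfin : ∀ z, {w | w ∈ Ω ∧ F w = z}.Finite) (hB : B ⊆ Ω) (hi : InjOn F B) (g : Cm 4 → A)
    {w : Cm 4} (hw : w ∈ B) : fsum Ω F (B.indicator g) (F w) = g w := by
  rw [fsum_eq hfin, Finset.sum_eq_single_of_mem w]
  · exact indicator_of_mem hw _
  · rw [Set.Finite.mem_toFinset]; exact ⟨hB hw, rfl⟩
  · intro x hx hxw
    rw [Set.Finite.mem_toFinset] at hx
    exact indicator_of_notMem (fun hxB => hxw (hi hxB hw hx.2)) _

theorem fsum_indicator_of_notMem {A : Type} [AddCommMonoid A]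
    (hfin : ∀ z, {w | w ∈ Ω ∧ F w = z}.Finite) (g : Cm 4 → A)
    {z : Cm 4} (hz : z ∉ F '' B) : fsum Ω F (B.indicator g) z = 0 := by
  rw [fsum_eq hfin]
  refine Finset.sum_eq_zero fun x hx => ?_
  rw [Set.Finite.mem_toFinset] at hx
  exact indicator_of_notMem (fun hxB => hz ⟨x, hxB, hx.2⟩) _

theorem fderiv_det_real {w : Cm 4} (hF : DifferentiableAt ℂ F w) :
    |(fderiv ℝ F w).det| = ‖(fderiv ℂ F w).det‖ ^ 2 := by
  have h1 : fderiv ℝ F w = (fderiv ℂ F w).restrictScalars ℝ := hF.fderiv_restrictScalars ℝ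
  rw [h1, Vale.Agent.P267.H928.Int.det_real, abs_of_nonneg (Complex.normSq_nonneg _),
    Complex.normSq_eq_norm_sq]

theorem fsum_piece (hF : ∀ z ∈ Ω, AnalyticAt ℂ F z) (hfin : ∀ z, {w | w ∈ Ω ∧ F w = z}.Finite)
    (hB : B ⊆ Ω) (hBm : MeasurableSet B) (hi : InjOn F B)
    (hg : IntegrableOn (fun w => ‖(fderiv ℂ F w).det‖ ^ 2 • g w) B) :
    Integrable (fsum Ω F (B.indicator g)) ∧
      ∫ z, fsum Ω F (B.indicator g) z = ∫ w in B, ‖(fderiv ℂ F w).det‖ ^ 2 • g w ∧
      ∫ z, ‖fsum Ω F (B.indicator g) z‖ = ∫ w in B, ‖‖(fderiv ℂ F w).det‖ ^ 2 • g w‖ := by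
  have hd : ∀ x ∈ B, HasFDerivWithinAt F (fderiv ℝ F x) B x := fun x hx =>
    ((hF x (hB hx)).differentiableAt.restrictScalars ℝ).hasFDerivAt.hasFDerivWithinAt
  have h0 : ∀ z ∉ F '' B, fsum Ω F (B.indicator g) z = 0 := fun z hz =>
    fsum_indicator_of_notMem hfin g hz
  have h1 : EqOn (fun w => ‖(fderiv ℂ F w).det‖ ^ 2 • g w)
      (fun w => |(fderiv ℝ F w).det| • fsum Ω F (B.indicator g) (F w)) B := by
    intro w hw
    simp only
    rw [fderiv_det_real (hF w (hB hw)).differentiableAt, fsum_indicator_of_mem hfin hB hi g hw]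
  have h2 : IntegrableOn (fsum Ω F (B.indicator g)) (F '' B) := by
    rw [integrableOn_image_iff_integrableOn_abs_det_fderiv_smul volume hBm hd hi]
    exact hg.congr_fun h1 hBm
  refine ⟨?_, ?_, ?_⟩
  · refine (integrableOn_iff_integrable_of_support_subset fun z hz => ?_).1 h2
    by_contra hcon
    exact hz (h0 z hcon)
  · rw [← setIntegral_eq_integral_of_forall_compl_eq_zero h0,
      integral_image_eq_integral_abs_det_fderiv_smul volume hBm hd hi]
    exact (setIntegral_congr_fun hBm h1).symm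
  · rw [← setIntegral_eq_integral_of_forall_compl_eq_zero (s := F '' B) fun z hz => by
      rw [h0 z hz, norm_zero],
      integral_image_eq_integral_abs_det_fderiv_smul volume hBm hd hi]
    refine setIntegral_congr_fun hBm fun w hw => ?_
    have h3 := h1 hw
    simp only at h3 ⊢
    rw [h3, norm_smul, smul_eq_mul, Real.norm_eq_abs, abs_abs]

theorem fsum_integral (hΩ : IsOpen Ω) (hF : ∀ z ∈ Ω, AnalyticAt ℂ F z)
    (hdet : ∀ z ∈ Ω, (fderiv ℂ F z).det ≠ 0) (hfin : ∀ z, {w | w ∈ Ω ∧ F w = z}.Finite)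
    (hg : IntegrableOn (fun w => ‖(fderiv ℂ F w).det‖ ^ 2 • g w) Ω) :
    Integrable (fsum Ω F g) ∧
      ∫ z, fsum Ω F g z = ∫ w in Ω, ‖(fderiv ℂ F w).det‖ ^ 2 • g w := by
  obtain ⟨B, hBm, hBd, hBU, hBi⟩ := exists_pieces hΩ hF hdet
  have hBΩ : ∀ n, B n ⊆ Ω := fun n => hBU ▸ subset_iUnion B n
  have hp := fun n => fsum_piece hF hfin (hBΩ n) (hBm n) (hBi n) (hg.mono_set (hBΩ n))
  have hsum : ∀ z, HasSum (fun n => fsum Ω F ((B n).indicator g) z) (fsum Ω F g z) := by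
    intro z
    simp only [fsum_eq hfin]
    refine hasSum_sum fun w hw => ?_
    rw [Set.Finite.mem_toFinset] at hw
    have hwU : w ∈ ⋃ n, B n := hBU ▸ hw.1
    obtain ⟨n, hn⟩ := mem_iUnion.1 hwU
    have h1 : g w = (B n).indicator g w := (indicator_of_mem hn _).symm
    rw [h1]
    refine hasSum_single n fun m hm => ?_
    exact indicator_of_notMem (fun hwm => (disjoint_left.1 (hBd hm) hwm hn)) _
  have hS1 : HasSum (fun n => ∫ w in B n, ‖‖(fderiv ℂ F w).det‖ ^ 2 • g w‖)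
      (∫ w in ⋃ n, B n, ‖‖(fderiv ℂ F w).det‖ ^ 2 • g w‖) :=
    hasSum_integral_iUnion hBm hBd (by rw [hBU]; exact hg.norm)
  have hS2 : HasSum (fun n => ∫ w in B n, ‖(fderiv ℂ F w).det‖ ^ 2 • g w)
      (∫ w in ⋃ n, B n, ‖(fderiv ℂ F w).det‖ ^ 2 • g w) :=
    hasSum_integral_iUnion hBm hBd (by rw [hBU]; exact hg)
  rw [hBU] at hS1 hS2
  have hsn : Summable fun n => ∫ z, ‖fsum Ω F ((B n).indicator g) z‖ := by
    refine hS1.summable.congr fun n => ?_
    exact ((hp n).2.2).symm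
  have hT : (fun z => ∑' n, fsum Ω F ((B n).indicator g) z) = fsum Ω F g :=
    funext fun z => (hsum z).tsum_eq
  have hI := hasSum_integral_of_summable_integral_norm (fun n => (hp n).1) hsn
  simp only [(hp _).2.1] at hI
  rw [hT] at hI
  refine ⟨⟨?_, ?_⟩, hI.unique hS2⟩
  · refine aestronglyMeasurable_of_tendsto_ae atTop (f := fun N z =>
      ∑ n ∈ Finset.range N, fsum Ω F ((B n).indicator g) z) (fun N => ?_)
      (Eventually.of_forall fun z => (hsum z).tendsto_sum_nat)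
    exact Finset.aestronglyMeasurable_fun_sum _ fun n _ => (hp n).1.1
  · rw [hasFiniteIntegral_iff_enorm]
    have h1 : ∀ z, ‖fsum Ω F g z‖ₑ ≤ ∑' n, ‖fsum Ω F ((B n).indicator g) z‖ₑ := by
      intro z
      rw [← (hsum z).tsum_eq]
      exact enorm_tsum_le_tsum_enorm
    refine lt_of_le_of_lt (lintegral_mono h1) ?_
    rw [lintegral_tsum fun n => (hp n).1.1.enorm]
    have h2 : ∀ n, ∫⁻ z, ‖fsum Ω F ((B n).indicator g) z‖ₑ =
        ENNReal.ofReal (∫ z, ‖fsum Ω F ((B n).indicator g) z‖) := fun n =>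
      (ofReal_integral_norm_eq_lintegral_enorm (hp n).1).symm
    simp only [h2]
    rw [← ENNReal.ofReal_tsum_of_nonneg (fun n => integral_nonneg fun _ => norm_nonneg _) hsn]
    exact ENNReal.ofReal_lt_top

end

end Vale.Agent.P277.H19
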