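import Vale.Agent.P277.H371.Fun
import Vale.Agent.P277.H19.PushAlg
import Vale.Agent.P277.H19.PushInt
import Vale.Agent.P277.H19.Null

/-!
# P277, package TX-PUSH: the unbranched part and local structure
-/

open scoped Manifold ContDiff ComplexOrder Topology
open Vale.Agent.P272.K Vale.Agent.P285.H281.FD Set Filter MeasureTheory Metric

noncomputable section

namespace Vale.Agent.P277.H19

open TX H371

variable {Y : Type} [TopologicalSpace Y] [ChartedSpace (Cm 4) Y] [IsManifold 𝓘(ℂ, Cm 4) ω Y]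
  {χ : Chart 4 Y → Cm 4 → Matrix (Fin 4) (Fin 4) ℂ} {D : Set (Cm 4)} {ρ : Cm 4 → Y} {x : Cm 4}

theorem contDiffAt_Hp (hχ : IsKahler χ) (hD : IsOpen D)
    (hρ : ∀ x ∈ D, ContinuousAt ρ x ∧
      ∀ e : Chart 4 Y, At e (ρ x) → AnalyticAt ℂ (fun z => e (ρ z)) x) (hx : x ∈ D)
    (i j : Fin 4) : ContDiffAt ℝ 1 (fun y => Hp χ ρ y i j) x := by
  have he1 : At (chartAt (Cm 4) (ρ x) : Chart 4 Y) (ρ x) := at_chartAt _
  have h1 := Hp_eventually hχ hD hρ hx he1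
  refine ContDiffAt.congr_of_eventuallyEq ?_
    (h1.mono fun y hy => show Hp χ ρ y i j = _ by rw [hy])
  exact contDiffAt_plk (fun p q => (hχ.smooth _ _ he1 p q).of_le (by exact_mod_cast le_top))
    ((hρ x hx).2 _ he1) i j

theorem closed_Hp (hχ : IsKahler χ) (hD : IsOpen D)
    (hρ : ∀ x ∈ D, ContinuousAt ρ x ∧
      ∀ e : Chart 4 Y, At e (ρ x) → AnalyticAt ℂ (fun z => e (ρ z)) x) (hx : x ∈ D)
    (i j k : Fin 4) :
    dz k (fun y => Hp χ ρ y i j) x = dz i (fun y => Hp χ ρ y k j) x := by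
  have he1 : At (chartAt (Cm 4) (ρ x) : Chart 4 Y) (ρ x) := at_chartAt _
  have h1 := Hp_eventually hχ hD hρ hx he1
  have h2 : ∀ i j, (fun y => Hp χ ρ y i j) =ᶠ[𝓝 x] fun y =>
      plk (χ (chartAt (Cm 4) (ρ x))) (fun z => chartAt (Cm 4) (ρ x) (ρ z)) y i j := fun i j =>
    h1.mono fun y hy => show Hp χ ρ y i j = _ by rw [hy]
  rw [dz_congr (h2 i j), dz_congr (h2 k j)]
  exact closed_plk (fun p q => (hχ.smooth _ _ he1 p q).of_le (by exact_mod_cast le_top))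
    (fun i j k => hχ.closed _ _ he1 i j k) ((hρ x hx).2 _ he1) i j k

omit [IsManifold 𝓘(ℂ, Cm 4) ω Y] in
theorem posSemidef_Hp (hχ : IsKahler χ) : (Hp χ ρ x).PosSemidef :=
  posSemidef_plk (hχ.posDef _ _ (at_chartAt _)).posSemidef

section
variable {X : CSp} {O : Set Y} {v : Y → X.pt} {V : Set X.pt} {G : X.pt → Cm 4} {c : Cm 4} {r : ℝ}
  {d : ℕ} {lam : X.pt → ℂ} {θ : Cm 4 → ℂ} {E : Set (Cm 4)}

omit [TopologicalSpace Y] [ChartedSpace (Cm 4) Y] [IsManifold 𝓘(ℂ, Cm 4) ω Y] in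
theorem mem_of_notMem_E (hE : E = G '' (V \ v '' O)) {z : Cm 4} (hz : z ∉ E) :
    ∀ x ∈ V, G x = z → x ∈ v '' O := by
  intro x hx hxz
  by_contra hcon
  exact hz (hE ▸ ⟨x, ⟨hx, hcon⟩, hxz⟩)

theorem push_a (hχ : IsKahler χ) (hv : IsOpenEmb X O v) (hc : IsCov X V G c r d lam θ)
    (hE : E = G '' (V \ v '' O)) {z : Cm 4} (hz : z ∈ ball c r \ E) (hθ : θ z ≠ 0) :
    (∀ i j, ContDiffAt ℝ 1 (fun w => pushH χ O v V G w i j) z) ∧
      (∀ i j k, dz k (fun w => pushH χ O v V G w i j) z =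
        dz i (fun w => pushH χ O v V G w k j) z) ∧ (pushH χ O v V G z).PosSemidef := by
  obtain ⟨D, ρ, hzD, hD, hb⟩ := exists_br hv hc hz.1 hθ (mem_of_notMem_E hE hz.2)
  have hρ : ∀ k, ∀ x ∈ D, ContinuousAt (ρ k) x ∧
      ∀ e : Chart 4 Y, At e (ρ k x) → AnalyticAt ℂ (fun z => e (ρ k z)) x := fun k x hx =>
    ⟨hb.cont x hx k, hb.an x hx k⟩
  have hG := hc.holo
  have h1 : ∀ i j, (fun w => pushH χ O v V G w i j) =ᶠ[𝓝 z] fun w => ∑ k, Hp χ (ρ k) w i j := by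
    intro i j
    filter_upwards [hb.isOpen.mem_nhds hzD] with w hw
    rw [hb.pushH_eq χ hv hG hw, Matrix.sum_apply]
  refine ⟨fun i j => ?_, fun i j k => ?_, ?_⟩
  · exact (ContDiffAt.sum fun k _ => contDiffAt_Hp hχ hb.isOpen (hρ k) hzD i j).congr_of_eventuallyEq
      (h1 i j)
  · rw [dz_congr (h1 i j), dz_congr (h1 k j)]
    have h2 : ∀ k i j, DifferentiableAt ℝ (fun w => Hp χ (ρ k) w i j) z := fun k i j =>
      (contDiffAt_Hp hχ hb.isOpen (hρ k) hzD i j).differentiableAt one_ne_zero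
    rw [C2.dz_sum k Finset.univ fun l _ => h2 l i j, C2.dz_sum i Finset.univ fun l _ => h2 l k j]
    exact Finset.sum_congr rfl fun l _ => closed_Hp hχ hb.isOpen (hρ l) hzD i j k
  · rw [hb.pushH_eq χ hv hG hzD]
    exact Matrix.posSemidef_sum _ fun k _ => posSemidef_Hp hχ

/-- `|det|²` times the Kähler form in the coordinates `G` -/
theorem det_sq_upH (hχ : IsKahler χ) {e : Chart 4 Y} {y : Y} (he : At e y)
    (hG : AnalyticAt ℂ (fun z => G (v (e.symm z))) (e y))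
    (h0 : (fderiv ℂ (fun z => G (v (e.symm z))) (e y)).det ≠ 0) (i j : Fin 4) :
    ‖(fderiv ℂ (fun z => G (v (e.symm z))) (e y)).det‖ ^ 2 • upH χ v G y i j =
      aH (χ e) (fun z => G (v (e.symm z))) (e y) i j := by
  have hdet : (jmat (fun z => G (v (e.symm z))) (e y)).det =
      (fderiv ℂ (fun z => G (v (e.symm z))) (e y)).det := det_jmat hG.differentiableAt
  rw [H371.upH_eq hχ he hG, jacG_eq hG.differentiableAt, ← hdet, aH]
  rw [← hdet] at h0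
  set J := jmat (fun z => G (v (e.symm z))) (e y) with hJ
  have h1 : J⁻¹ = J.det⁻¹ • J.adjugate := by rw [Matrix.inv_def, Ring.inverse_eq_inv']
  have h2 : (J⁻¹).map (starRingEnd ℂ) = (starRingEnd ℂ) J.det⁻¹ • J.adjugate.map (starRingEnd ℂ) := by
    rw [h1]
    ext a b
    simp
  rw [h2, h1, Matrix.transpose_smul, Matrix.smul_mul, Matrix.smul_mul, Matrix.mul_smul,
    Matrix.smul_apply, Matrix.smul_apply, smul_smul, Complex.real_smul, smul_eq_mul, ← mul_assoc]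
  have h3 : ((‖J.det‖ ^ 2 : ℝ) : ℂ) * (J.det⁻¹ * (starRingEnd ℂ) J.det⁻¹) = 1 := by
    rw [Complex.mul_conj, ← Complex.ofReal_mul, Complex.normSq_eq_norm_sq, norm_inv]
    have h4 : ‖J.det‖ ≠ 0 := norm_ne_zero_iff.2 h0
    rw [← mul_pow, mul_inv_cancel₀ h4]
    norm_num
  rw [h3, one_mul]

end

end Vale.Agent.P277.H19
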