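import Vale.Agent.P277.H19.PushA

/-!
# P277, package TX-PUSH: local structure near a value outside `E`
-/

open scoped Manifold ContDiff ComplexOrder Topology
open Vale.Agent.P272.K Vale.Agent.P285.H281.FD Set Filter MeasureTheory Metric

noncomputable section

namespace Vale.Agent.P277.H19

open TX H371

variable {Y : Type} [TopologicalSpace Y] [ChartedSpace (Cm 4) Y]
  {X : CSp} {O : Set Y} {v : Y → X.pt} {V : Set X.pt} {G : X.pt → Cm 4} {c : Cm 4} {r : ℝ}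
  {d : ℕ} {lam : X.pt → ℂ} {θ : Cm 4 → ℂ} {E : Set (Cm 4)}

/-- Local description of the covering over the ball `ball z₀ ρ` by balls in charts of `Y`. -/
structure LocD (O : Set Y) (v : Y → X.pt) (V : Set X.pt) (G : X.pt → Cm 4) (c : Cm 4) (r : ℝ)
    (z₀ : Cm 4) (ρ : ℝ) {P : Type} (e : P → Chart 4 Y) (q : P → Cm 4) (s : P → ℝ) : Prop where
  pos : 0 < ρ
  sub : closedBall z₀ ρ ⊆ ball c r
  atl : ∀ p, e p ∈ atlas (Cm 4) Y
  spos : ∀ p, 0 < s p
  mem : ∀ p, ∀ w ∈ closedBall (q p) (s p), w ∈ (e p).target ∧ (e p).symm w ∈ O ∧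
    v ((e p).symm w) ∈ V
  disj : ∀ p p' w w', w ∈ closedBall (q p) (s p) → w' ∈ closedBall (q p') (s p') →
    v ((e p).symm w) = v ((e p').symm w') → p = p'
  cov : ∀ x ∈ V, G x ∈ ball z₀ ρ → ∃ p, ∃ w ∈ ball (q p) (s p), v ((e p).symm w) = x

theorem exists_locD (hv : IsOpenEmb X O v) (hc : IsCov X V G c r d lam θ)
    (hE : E = G '' (V \ v '' O)) {z₀ : Cm 4} (hz₀ : z₀ ∈ ball c r \ E) :
    ∃ (P : Type) (_ : Fintype P) (ρ : ℝ) (e : P → Chart 4 Y) (q : P → Cm 4) (s : P → ℝ),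
      LocD O v V G c r z₀ ρ e q s := by
  classical
  set P : Set X.pt := {x | x ∈ V ∧ G x = z₀} with hP
  have hPf : P.Finite := (hc.finite z₀ hz₀.1).1
  have : Finite P := hPf
  obtain ⟨U, hU, hUd⟩ := hPf.t2_separation
  have key : ∀ p : P, ∃ y ∈ O, v y = p.1 := fun p =>
    mem_of_notMem_E hE hz₀.2 p.1 p.2.1 p.2.2
  choose y hy hvy using key
  set e : P → Chart 4 Y := fun p => chartAt (Cm 4) (y p) with he
  have hat : ∀ p, At (e p) (y p) := fun p => at_chartAt _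
  have key2 : ∀ p : P, ∃ s : ℝ, 0 < s ∧ ∀ w ∈ closedBall (e p (y p)) s, w ∈ (e p).target ∧
      (e p).symm w ∈ O ∧ v ((e p).symm w) ∈ V ∩ U p.1 := by
    intro p
    have h0 : (e p).symm (e p (y p)) = y p := (e p).left_inv (hat p).2
    have h1 : ContinuousAt (e p).symm (e p (y p)) :=
      (e p).continuousAt_symm ((e p).map_source (hat p).2)
    have h2 : ContinuousAt (fun w => v ((e p).symm w)) (e p (y p)) :=
      ContinuousAt.comp (g := v) (by rw [h0]; exact hv.continuousAt (hy p)) h1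
    have h3 : ∀ᶠ w in 𝓝 (e p (y p)), w ∈ (e p).target ∧ (e p).symm w ∈ O ∧
        v ((e p).symm w) ∈ V ∩ U p.1 := by
      refine Filter.Eventually.and ((e p).open_target.mem_nhds ((e p).map_source (hat p).2))
        (Filter.Eventually.and ?_ ?_)
      · exact h1.eventually_mem (by rw [h0]; exact hv.isOpen.mem_nhds (hy p))
      · refine h2.eventually_mem ?_
        rw [h0, hvy]
        exact (hc.isOpen.inter (hU p.1).2).mem_nhds ⟨p.2.1, (hU p.1).1⟩
    obtain ⟨s, hs, hs'⟩ := Metric.nhds_basis_closedBall.mem_iff.1 h3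
    exact ⟨s, hs, fun w hw => hs' hw⟩
  choose s hs hsm using key2
  have hN : ∀ x ∈ V, G x = z₀ → (⋃ p : P, (fun w => v ((e p).symm w)) '' ball (e p (y p)) (s p)) ∈
      𝓝 x := by
    intro x hx hxz
    set p : P := ⟨x, hx, hxz⟩ with hp
    refine mem_of_superset ?_ (subset_iUnion _ p)
    have h1 : (fun w => v ((e p).symm w)) '' ball (e p (y p)) (s p) =
        v '' ((e p).symm '' ball (e p (y p)) (s p)) := by rw [image_image]
    have h2 : x = v (y p) := (hvy p).symm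
    rw [h1, h2]
    refine hv.image_mem_nhds (hy p) ?_
    have h3 := (e p).symm.image_mem_nhds (x := e p (y p)) ((e p).map_source (hat p).2)
      (ball_mem_nhds (e p (y p)) (hs p))
    rwa [(e p).left_inv (hat p).2] at h3
  obtain ⟨ρ₁, hρ₁, h1⟩ := Metric.eventually_nhds_iff_ball.1 (cov_eventually hc hz₀.1 hN)
  obtain ⟨ρ₂, hρ₂, h2⟩ := Metric.nhds_basis_closedBall.mem_iff.1 (isOpen_ball.mem_nhds hz₀.1)
  refine ⟨P, Fintype.ofFinite P, min ρ₁ ρ₂, e, fun p => e p (y p), s, lt_min hρ₁ hρ₂,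
    (closedBall_subset_closedBall (min_le_right _ _)).trans h2, fun p => (hat p).1, hs,
    fun p w hw => ⟨(hsm p w hw).1, (hsm p w hw).2.1, (hsm p w hw).2.2.1⟩, ?_, ?_⟩
  · intro p p' w w' hw hw' hww'
    by_contra hne
    have h3 := hUd p.2 p'.2 fun h => hne (Subtype.ext h)
    exact disjoint_left.1 h3 (hsm p w hw).2.2.2 (hww' ▸ (hsm p' w' hw').2.2.2)
  · intro x hx hGx
    have h3 := h1 (G x) (ball_subset_ball (min_le_left _ _) hGx) x hx rfl
    obtain ⟨p, w, hw, hwx⟩ := mem_iUnion.1 h3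
    exact ⟨p, w, hw, hwx⟩

section
variable {z₀ : Cm 4} {ρ : ℝ} {P : Type} {e : P → Chart 4 Y} {q : P → Cm 4} {s : P → ℝ}

/-- the map `G` in the chart `e` -/
def Fp (v : Y → X.pt) (G : X.pt → Cm 4) (e : Chart 4 Y) (w : Cm 4) : Cm 4 := G (v (e.symm w))

/-- the unbranched part of the ball over `ball z₀ ρ` -/
def Om (v : Y → X.pt) (G : X.pt → Cm 4) (θ : Cm 4 → ℂ) (z₀ : Cm 4) (ρ : ℝ) (e : Chart 4 Y)
    (q : Cm 4) (s : ℝ) : Set (Cm 4) :=
  {w | w ∈ ball q s ∧ Fp v G e w ∈ ball z₀ ρ ∧ θ (Fp v G e w) ≠ 0}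

theorem LocD.analyticAt (hL : LocD O v V G c r z₀ ρ e q s) (hv : IsOpenEmb X O v)
    (hG : ∀ x ∈ V, ∀ i, X.Hol (fun y => G y i) x) {p : P} {w : Cm 4}
    (hw : w ∈ closedBall (q p) (s p)) : AnalyticAt ℂ (Fp v G (e p)) w := by
  obtain ⟨h1, h2, h3⟩ := hL.mem p w hw
  have h4 := an_G (e := e p) hv hG h2 h3 ⟨hL.atl p, (e p).map_target h1⟩
  rw [(e p).right_inv h1] at h4
  exact h4

theorem LocD.cov' (hL : LocD O v V G c r z₀ ρ e q s) :
    ∀ z ∈ ball z₀ ρ, ∀ x ∈ V, G x = z → x ∈ v '' O := by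
  intro z hz x hx hxz
  obtain ⟨p, w, hw, hwx⟩ := hL.cov x hx (by rw [hxz]; exact hz)
  exact ⟨_, (hL.mem p w (ball_subset_closedBall hw)).2.1, hwx⟩

theorem LocD.isOpen_Om (hL : LocD O v V G c r z₀ ρ e q s) (hv : IsOpenEmb X O v)
    (hc : IsCov X V G c r d lam θ) (p : P) : IsOpen (Om v G θ z₀ ρ (e p) (q p) (s p)) := by
  rw [isOpen_iff_mem_nhds]
  rintro w ⟨h1, h2, h3⟩
  have h4 : ContinuousAt (Fp v G (e p)) w :=
    (hL.analyticAt hv hc.holo (ball_subset_closedBall h1)).continuousAt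
  have h5 : ContinuousAt (fun w => θ (Fp v G (e p) w)) w :=
    ContinuousAt.comp (g := θ) (hc.an _ (hL.sub (ball_subset_closedBall h2))).continuousAt h4
  filter_upwards [isOpen_ball.mem_nhds h1, h4.eventually_mem (isOpen_ball.mem_nhds h2),
    h5.eventually_ne h3] with y a b c using ⟨a, b, c⟩

theorem LocD.finite (hL : LocD O v V G c r z₀ ρ e q s) (hv : IsOpenEmb X O v)
    (hc : IsCov X V G c r d lam θ) (p : P) (z : Cm 4) :
    {w | w ∈ Om v G θ z₀ ρ (e p) (q p) (s p) ∧ Fp v G (e p) w = z}.Finite := by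
  by_cases hz : z ∈ ball c r
  · refine Set.Finite.of_finite_image (f := fun w => v ((e p).symm w))
      ((hc.finite z hz).1.subset ?_) ?_
    · rintro _ ⟨w, ⟨⟨h1, h2, h3⟩, h4⟩, rfl⟩
      exact ⟨(hL.mem p w (ball_subset_closedBall h1)).2.2, h4⟩
    · intro a ha b hb hab
      have h1 := hL.mem p a (ball_subset_closedBall ha.1.1)
      have h2 := hL.mem p b (ball_subset_closedBall hb.1.1)
      exact (e p).symm.injOn h1.1 h2.1 (hv.inj h1.2.1 h2.2.1 hab)
  · have : {w | w ∈ Om v G θ z₀ ρ (e p) (q p) (s p) ∧ Fp v G (e p) w = z} = ∅ := by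
      ext w
      simp only [Set.mem_ofPred_eq, mem_empty_iff_false, iff_false, not_and]
      rintro ⟨h1, h2, h3⟩ h4
      exact hz (h4 ▸ hL.sub (ball_subset_closedBall h2))
    rw [this]
    exact finite_empty

theorem LocD.det_ne_zero [IsManifold 𝓘(ℂ, Cm 4) ω Y] (hL : LocD O v V G c r z₀ ρ e q s)
    (hv : IsOpenEmb X O v) (hc : IsCov X V G c r d lam θ) (p : P) {w : Cm 4}
    (hw : w ∈ Om v G θ z₀ ρ (e p) (q p) (s p)) : (fderiv ℂ (Fp v G (e p)) w).det ≠ 0 := by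
  obtain ⟨h1, h2, h3⟩ := hw
  have hm := hL.mem p w (ball_subset_closedBall h1)
  obtain ⟨D, τ, hzD, -, hb⟩ := exists_br hv hc (hL.sub (ball_subset_closedBall h2)) h3
    (hL.cov' _ h2)
  obtain ⟨k, hk⟩ := hb.all _ hzD _ hm.2.2 rfl
  have hk' : τ k (Fp v G (e p) w) = (e p).symm w := hv.inj (hb.mem _ hzD k).1 hm.2.1 hk
  have he : At (e p) (τ k (Fp v G (e p) w)) := by
    rw [hk']; exact ⟨hL.atl p, (e p).map_target hm.1⟩
  have h4 := hb.det_ne_zero hv hc.holo hzD he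
  rw [hk'] at h4
  have h5 := hL.analyticAt hv hc.holo (ball_subset_closedBall h1)
  have h6 : (jacG v G (e p) ((e p).symm w)).det = (fderiv ℂ (Fp v G (e p)) w).det := by
    have h7 := det_jacG (v := v) (G := G) (e := e p) (y := (e p).symm w) (by
      rw [(e p).right_inv hm.1]; exact h5.differentiableAt)
    rw [(e p).right_inv hm.1] at h7
    exact h7
  rwa [h6] at h4

theorem LocD.pushH_eq [Fintype P] [IsManifold 𝓘(ℂ, Cm 4) ω Y]
    (hL : LocD O v V G c r z₀ ρ e q s)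
    (hv : IsOpenEmb X O v) (hc : IsCov X V G c r d lam θ)
    (χ : Chart 4 Y → Cm 4 → Matrix (Fin 4) (Fin 4) ℂ) {z : Cm 4} (hz : z ∈ ball z₀ ρ)
    (hθ : θ z ≠ 0) (i j : Fin 4) :
    pushH χ O v V G z i j = ∑ p, fsum (Om v G θ z₀ ρ (e p) (q p) (s p)) (Fp v G (e p))
      (fun w => upH χ v G ((e p).symm w) i j) z := by
  classical
  set T : P → Set (Cm 4) := fun p =>
    {w | w ∈ Om v G θ z₀ ρ (e p) (q p) (s p) ∧ Fp v G (e p) w = z} with hT
  have hfin : ∀ p, (T p).Finite := fun p => hL.finite hv hc p z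
  have hset : {y | y ∈ O ∧ v y ∈ V ∧ G (v y) = z} = ⋃ p, (e p).symm '' T p := by
    ext y
    constructor
    · rintro ⟨h1, h2, h3⟩
      obtain ⟨p, w, hw, hwx⟩ := hL.cov (v y) h2 (by rw [h3]; exact hz)
      have hm := hL.mem p w (ball_subset_closedBall hw)
      have hwy : (e p).symm w = y := hv.inj hm.2.1 h1 hwx
      have hF : Fp v G (e p) w = z := by rw [Fp, hwx, h3]
      exact mem_iUnion.2 ⟨p, w, ⟨⟨hw, by rw [hF]; exact hz, by rw [hF]; exact hθ⟩, hF⟩, hwy⟩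
    · intro hy
      obtain ⟨p, w, ⟨⟨hw, -, -⟩, hF⟩, rfl⟩ := mem_iUnion.1 hy
      have hm := hL.mem p w (ball_subset_closedBall hw)
      exact ⟨hm.2.1, hm.2.2, hF⟩
  have hdisj : Pairwise (Function.onFun Disjoint fun p => (e p).symm '' T p) := by
    intro p p' hpp'
    rw [Function.onFun, disjoint_left]
    rintro _ ⟨w, ⟨⟨hw, -, -⟩, -⟩, rfl⟩ ⟨w', ⟨⟨hw', -, -⟩, -⟩, hww'⟩
    exact hpp' (hL.disj p p' w w' (ball_subset_closedBall hw) (ball_subset_closedBall hw')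
      (by rw [hww']))
  have hfin' : ∀ p, ((e p).symm '' T p).Finite := fun p => (hfin p).image _
  have hinj : ∀ p, InjOn (e p).symm (T p) := fun p a ha b hb hab =>
    (e p).symm.injOn (hL.mem p a (ball_subset_closedBall ha.1.1)).1
      (hL.mem p b (ball_subset_closedBall hb.1.1)).1 hab
  have hS : {y | y ∈ O ∧ v y ∈ V ∧ G (v y) = z}.Finite := by
    rw [hset]; exact finite_iUnion hfin'
  have h1 : pushH χ O v V G z i j =
      ∑ᶠ y ∈ {y | y ∈ O ∧ v y ∈ V ∧ G (v y) = z}, upH χ v G y i j := by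
    rw [pushH, finsum_mem_eq_finite_toFinset_sum _ hS, finsum_mem_eq_finite_toFinset_sum _ hS,
      Matrix.sum_apply]
  rw [h1, hset, finsum_mem_iUnion hdisj hfin', finsum_eq_sum_of_fintype]
  refine Finset.sum_congr rfl fun p _ => ?_
  rw [finsum_mem_image (hinj p)]
  rfl

end

end Vale.Agent.P277.H19
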