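import Vale.Agent.P277.H19.Loc
import Vale.Agent.P277.H19.DivL

/-!
# P277: frames pulled back by the local isomorphism `ρ = v⁻¹ ξ`
-/

open scoped Manifold ContDiff Topology
open Vale.Agent.P272.K Vale.Agent.P285.H281.FD Vale.Agent.P267.H175 Set Filter

noncomputable section

namespace Vale.Agent.P277.H19

variable {X : CSp} {ξ : Cm 4 → X.pt} {B : Set (Cm 4)}

/-! ### the blow-up chart -/

theorem exists_ne_zero {N : Set (Cm 4)} {w : Cm 4} (hN : N ∈ 𝓝 w) : ∃ w' ∈ N, w' 0 ≠ 0 := by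
  by_cases h0 : w 0 = 0
  · have h1 : Tendsto (fun t : ℂ => upd w t) (𝓝 0) (𝓝 w) := by
      have h2 : Continuous fun t : ℂ => upd w t :=
        differentiable_upd.continuous.comp (Continuous.prodMk continuous_const continuous_id)
      have h3 := h2.tendsto 0
      rwa [← h0, upd_self, h0] at h3
    have h2 : ∀ᶠ t in 𝓝[≠] (0 : ℂ), upd w t ∈ N := (h1.eventually hN).filter_mono nhdsWithin_le_nhds
    obtain ⟨t, ht, ht0⟩ := (h2.and self_mem_nhdsWithin).exists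
    exact ⟨upd w t, ht, by rw [upd_zero]; exact ht0⟩
  · exact ⟨w, mem_of_mem_nhds hN, h0⟩

theorem continuous_bl : Continuous bl := continuous_iff_continuousAt.2 fun w =>
  (analyticAt_bl w).continuousAt

theorem isOpen_image_bl {V : Set (Cm 4)} (hV : IsOpen V) (h0 : ∀ w ∈ V, w 0 ≠ 0) :
    IsOpen (bl '' V) := by
  have h1 : bl '' V = {z | z 0 ≠ 0 ∧ (![z 0, z 1 / z 0, z 2, z 3] : Cm 4) ∈ V} := by
    ext z
    constructor
    · rintro ⟨w, hw, rfl⟩
      refine ⟨h0 w hw, ?_⟩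
      have h2 : (![bl w 0, bl w 1 / bl w 0, bl w 2, bl w 3] : Cm 4) = w := by
        ext i
        fin_cases i
        · rfl
        · change w 0 * w 1 / w 0 = w 1
          field_simp [h0 w hw]
        · rfl
        · rfl
      rw [h2]
      exact hw
    · rintro ⟨hz, hzV⟩
      refine ⟨_, hzV, ?_⟩
      ext i
      fin_cases i
      · rfl
      · change z 0 * (z 1 / z 0) = z 1
        field_simp
      · rfl
      · rfl
  rw [h1, isOpen_iff_eventually]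
  rintro z ⟨hz, hzV⟩
  have h2 : ContinuousAt (fun z : Cm 4 => (![z 0, z 1 / z 0, z 2, z 3] : Cm 4)) z := by
    rw [continuousAt_pi]
    intro i
    fin_cases i
    · exact (continuous_apply 0).continuousAt
    · exact ((continuous_apply 1).continuousAt).div ((continuous_apply 0).continuousAt) hz
    · exact (continuous_apply 2).continuousAt
    · exact (continuous_apply 3).continuousAt
  exact (((continuous_apply (0 : Fin 4)).continuousAt (x := z)).eventually_ne hz).and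
    (h2.eventually_mem (hV.mem_nhds hzV))

theorem bl_add {w τ : Cm 4} (h0 : τ 0 = 0) (h1 : τ 1 = 0) : bl (w + τ) = bl w + τ := by
  ext i
  fin_cases i
  · rfl
  · change (w 0 + τ 0) * (w 1 + τ 1) = w 0 * w 1 + τ 1
    rw [h0, h1]; ring
  · rfl
  · rfl

/-! ### shifts -/

theorem LocIso.mono (h : LocIso X ξ B) {B' : Set (Cm 4)} (hB' : IsOpen B') (hB : B' ⊆ B) :
    LocIso X ξ B' where
  isOpen := hB'
  inj := h.inj.mono hB
  isOpenMap W hW := h.isOpenMap W (hW.trans hB)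
  hol w hw := h.hol w (hB hw)

theorem LocIso.shift (h : LocIso X ξ B) (τ : Cm 4) : LocIso X (fun x => ξ (x + τ))
    ((fun x => x + τ) ⁻¹' B) where
  isOpen := h.isOpen.preimage (continuous_add_const τ)
  inj x hx y hy hxy := add_right_cancel (h.inj hx hy hxy)
  isOpenMap W hW hWo := by
    have h1 : (fun x => ξ (x + τ)) '' W = ξ '' ((fun x => x + τ) '' W) := by
      rw [image_image]
    rw [h1]
    refine h.isOpenMap _ (image_subset_iff.2 hW) ?_
    exact (Homeomorph.addRight τ).isOpenMap W hWo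
  hol w hw := by
    have h2 : AnalyticAt ℂ (fun x : Cm 4 => x + τ) w := by fun_prop
    refine ⟨ContinuousAt.comp (g := ξ) (f := fun x => x + τ) (h.hol _ hw).1 h2.continuousAt,
      fun f => ?_⟩
    rw [(h.hol _ hw).2 f]
    constructor
    · intro h3
      exact AnalyticAt.comp (g := f ∘ ξ) (f := fun x => x + τ) h3 h2
    · intro h3
      have h4 : AnalyticAt ℂ (fun x : Cm 4 => x - τ) (w + τ) := by fun_prop
      have h5 : AnalyticAt ℂ ((f ∘ fun x => ξ (x + τ)) ∘ fun x => x - τ) (w + τ) := by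
        refine AnalyticAt.comp (g := f ∘ fun x => ξ (x + τ)) (f := fun x => x - τ) ?_ h4
        rwa [add_sub_cancel_right]
      refine h5.congr (Eventually.of_forall fun x => ?_)
      simp only [Function.comp, sub_add_cancel]

/-! ### chain rule for determinants -/

theorem det_fderiv_comp {F G : Cm 4 → Cm 4} {w : Cm 4} (hG : DifferentiableAt ℂ G (F w))
    (hF : DifferentiableAt ℂ F w) : (fderiv ℂ (fun z => G (F z)) w).det =
      (fderiv ℂ G (F w)).det * (fderiv ℂ F w).det := by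
  rw [← det_comp]
  congr 1
  exact fderiv_comp w hG hF

section
variable {Y : Type} [TopologicalSpace Y] [ChartedSpace (Cm 4) Y] [IsManifold 𝓘(ℂ, Cm 4) ω Y]

omit [IsManifold 𝓘(ℂ, Cm 4) ω Y] in
theorem eventuallyEq_trans {γ : Cm 4 → Y} {w : Cm 4} (hγ : ContinuousAt γ w) {e e' : Chart 4 Y}
    (he : At e (γ w)) : (fun z => e' (γ z)) =ᶠ[𝓝 w] fun z => e' (e.symm (e (γ z))) := by
  filter_upwards [hγ.eventually_mem (e.open_source.mem_nhds he.2)] with z hz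
  rw [e.left_inv hz]

theorem analyticAt_change {γ : Cm 4 → Y} {w : Cm 4} (hγ : ContinuousAt γ w) {e e' : Chart 4 Y}
    (he : At e (γ w)) (he' : At e' (γ w)) (h : AnalyticAt ℂ (fun z => e (γ z)) w) :
    AnalyticAt ℂ (fun z => e' (γ z)) w :=
  (AnalyticAt.comp (g := fun z => e' (e.symm z)) (f := fun z => e (γ z)) (trans_analyticAt he he')
    h).congr (eventuallyEq_trans hγ he).symm

theorem det_change {γ : Cm 4 → Y} {w : Cm 4} (hγ : ContinuousAt γ w) {e e' : Chart 4 Y}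
    (he : At e (γ w)) (he' : At e' (γ w)) (h : AnalyticAt ℂ (fun z => e (γ z)) w) :
    (fderiv ℂ (fun z => e' (γ z)) w).det =
      (jacM e e' (γ w)).det * (fderiv ℂ (fun z => e (γ z)) w).det := by
  rw [(eventuallyEq_trans hγ he).fderiv_eq, det_jacM he he']
  exact det_fderiv_comp (trans_analyticAt he he').differentiableAt h.differentiableAt

theorem det_jacM_mul {y : Y} {e e' : Chart 4 Y} (he : At e y) (he' : At e' y) :
    (jacM e e' y).det * (jacM e' e y).det = 1 := by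
  have h1 := det_change (γ := e'.symm) (w := e' y)
    (e'.continuousAt_symm (e'.map_source he'.2)) (e := e) (e' := e')
    (by rw [e'.left_inv he'.2]; exact he) (by rw [e'.left_inv he'.2]; exact he')
    (trans_analyticAt he' he)
  have h2 : (fun z => e' (e'.symm z)) =ᶠ[𝓝 (e' y)] fun z => z := by
    filter_upwards [e'.open_target.mem_nhds (e'.map_source he'.2)] with z hz
    exact e'.right_inv hz
  rw [h2.fderiv_eq, e'.left_inv he'.2, ← det_jacM he' he] at h1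
  have h3 : (fderiv ℂ (fun z : Cm 4 => z) (e' y)) = ContinuousLinearMap.id ℂ (Cm 4) := fderiv_fun_id
  rw [h3, det_id] at h1
  exact h1.symm

variable {O : Set Y} {v : Y → X.pt}

omit [IsManifold 𝓘(ℂ, Cm 4) ω Y] in
theorem LocIso.rho_continuousAt (h : LocIso X ξ B) (hv : IsOpenEmb X O v) (y₀ : Y) {w : Cm 4}
    (hw : w ∈ B) (hO : ξ w ∈ v '' O) : ContinuousAt (fun w => hv.inv y₀ (ξ w)) w := by
  obtain ⟨y, hy, hyw⟩ := hO
  exact ContinuousAt.comp (g := hv.inv y₀) (hyw ▸ hv.inv_continuousAt y₀ hy) (h.hol w hw).1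

omit [IsManifold 𝓘(ℂ, Cm 4) ω Y] in
theorem LocIso.rho_analyticAt (h : LocIso X ξ B) (hv : IsOpenEmb X O v) (y₀ : Y) {w : Cm 4}
    (hw : w ∈ B) (hO : ξ w ∈ v '' O) {e : Chart 4 Y} (he : At e (hv.inv y₀ (ξ w))) :
    AnalyticAt ℂ (fun w => e (hv.inv y₀ (ξ w))) w := by
  obtain ⟨y, hy, hyw⟩ := hO
  rw [← hyw, hv.inv_apply y₀ hy] at he
  rw [analyticAt_pi_iff]
  intro a
  exact ((h.hol w hw).2 _).1 (hyw ▸ hv.hol_chart y₀ hy he a)

omit [IsManifold 𝓘(ℂ, Cm 4) ω Y] in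
theorem LocIso.rho_det_ne_zero (h : LocIso X ξ B) (hv : IsOpenEmb X O v) (y₀ : Y) {w : Cm 4}
    (hw : w ∈ B) (hO : ξ w ∈ v '' O) {e : Chart 4 Y} (he : At e (hv.inv y₀ (ξ w))) :
    (fderiv ℂ (fun w => e (hv.inv y₀ (ξ w))) w).det ≠ 0 := by
  have hF := h.rho_analyticAt hv y₀ hw hO he
  have hcont := h.rho_continuousAt hv y₀ hw hO
  have hyO : hv.inv y₀ (ξ w) ∈ O := hv.inv_mem y₀ hO
  have hG : AnalyticAt ℂ (fun z => h.inv (v (e.symm z))) (e (hv.inv y₀ (ξ w))) := by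
    refine h.analyticAt_inv (hv.holAt hyO he) ⟨w, hw, ?_⟩
    rw [e.left_inv he.2, hv.apply_inv y₀ hO]
  have h1 : (fun z => h.inv (v (e.symm (e (hv.inv y₀ (ξ z)))))) =ᶠ[𝓝 w] fun z => z := by
    filter_upwards [(h.isOpen_preimage hv.isOpen_image).mem_nhds ⟨hw, hO⟩,
      hcont.eventually_mem (e.open_source.mem_nhds he.2)] with z hz hz'
    rw [e.left_inv hz', hv.apply_inv y₀ hz.2, h.inv_apply hz.1]
  have h2 := det_fderiv_comp (F := fun w => e (hv.inv y₀ (ξ w))) (w := w) hG.differentiableAt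
    hF.differentiableAt
  rw [h1.fderiv_eq] at h2
  have h3 : (fderiv ℂ (fun z : Cm 4 => z) w) = ContinuousLinearMap.id ℂ (Cm 4) := fderiv_fun_id
  rw [h3, det_id] at h2
  exact right_ne_zero_of_mul (h2 ▸ one_ne_zero)

/-! ### the functions `n` -/

variable {L : Bd X.pt} {M : Bd Y} {m Q : ℕ}
  {T : L.ι → ((((Bd.can 4 Y).pow m).mul M).pow Q).ι → Y → ℂ}

omit [IsManifold 𝓘(ℂ, Cm 4) ω Y] in
theorem isIsoY_change (hL : IsLBx X L) (hT : IsIsoY O v L ((((Bd.can 4 Y).pow m).mul M).pow Q) T)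
    {y : Y} (hy : y ∈ O) {i : L.ι} (hi : v y ∈ L.U i) {e e₁ : Chart 4 Y} (he : At e y)
    (he₁ : At e₁ y) {a a₁ : M.ι} (ha : y ∈ M.U a) (ha₁ : y ∈ M.U a₁) :
    T i (e₁, a₁) y = ((jacM e₁ e y).det ^ m * M.g a₁ a y) ^ Q * T i (e, a) y := by
  have h1 := hT.change y hy i i (e, a) (e₁, a₁) hi hi ⟨he, ha⟩ ⟨he₁, ha₁⟩
  have h2 : L.g i i (v y) = 1 := by
    have h3 := hL.cocycle i i i (v y) hi hi hi
    exact (mul_eq_left₀ (hL.ne_zero i i (v y) hi hi)).1 h3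
  rw [h1, h2, one_mul, mul_comm]
  rfl

/-- the pulled back section -/
def nf (T : L.ι → ((((Bd.can 4 Y).pow m).mul M).pow Q).ι → Y → ℂ) (ρ : Cm 4 → Y) (i : L.ι)
    (a : M.ι) (w : Cm 4) : ℂ :=
  T i (chartAt (Cm 4) (ρ w), a) (ρ w) *
    (fderiv ℂ (fun z => chartAt (Cm 4) (ρ w) (ρ z)) w).det ^ (m * Q)

omit [IsManifold 𝓘(ℂ, Cm 4) ω Y] in
theorem at_chartAt (y : Y) : At (chartAt (Cm 4) y : Chart 4 Y) y :=
  ⟨chart_mem_atlas _ y, mem_chart_source _ y⟩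

theorem nf_change' (hL : IsLBx X L) (hT : IsIsoY O v L ((((Bd.can 4 Y).pow m).mul M).pow Q) T)
    (h : LocIso X ξ B) (hv : IsOpenEmb X O v) (y₀ : Y) {w : Cm 4} (hw : w ∈ B)
    (hO : ξ w ∈ v '' O) {i : L.ι} (hi : ξ w ∈ L.U i) {e e₁ : Chart 4 Y}
    (he : At e (hv.inv y₀ (ξ w))) (he₁ : At e₁ (hv.inv y₀ (ξ w))) {a a₁ : M.ι}
    (ha : hv.inv y₀ (ξ w) ∈ M.U a) (ha₁ : hv.inv y₀ (ξ w) ∈ M.U a₁) :
    T i (e₁, a₁) (hv.inv y₀ (ξ w)) *
        (fderiv ℂ (fun w => e₁ (hv.inv y₀ (ξ w))) w).det ^ (m * Q) =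
      M.g a₁ a (hv.inv y₀ (ξ w)) ^ Q * (T i (e, a) (hv.inv y₀ (ξ w)) *
        (fderiv ℂ (fun w => e (hv.inv y₀ (ξ w))) w).det ^ (m * Q)) := by
  have h1 := isIsoY_change hL hT (hv.inv_mem y₀ hO) (by rwa [hv.apply_inv y₀ hO]) he he₁ ha ha₁
  have h2 := det_change (h.rho_continuousAt hv y₀ hw hO) he he₁ (h.rho_analyticAt hv y₀ hw hO he)
  have h3 := det_jacM_mul he₁ he
  rw [h1, h2, mul_pow, mul_pow, ← pow_mul]
  have h4 : (jacM e₁ e (hv.inv y₀ (ξ w))).det ^ (m * Q) *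
      (jacM e e₁ (hv.inv y₀ (ξ w))).det ^ (m * Q) = 1 := by
    rw [← mul_pow, h3, one_pow]
  linear_combination (M.g a₁ a (hv.inv y₀ (ξ w)) ^ Q * T i (e, a) (hv.inv y₀ (ξ w)) *
    (fderiv ℂ (fun w => e (hv.inv y₀ (ξ w))) w).det ^ (m * Q)) * h4

theorem nf_eq (hM : IsLB 4 M) (hL : IsLBx X L)
    (hT : IsIsoY O v L ((((Bd.can 4 Y).pow m).mul M).pow Q) T)
    (h : LocIso X ξ B) (hv : IsOpenEmb X O v) (y₀ : Y) {w : Cm 4} (hw : w ∈ B)
    (hO : ξ w ∈ v '' O) {i : L.ι} (hi : ξ w ∈ L.U i) {e : Chart 4 Y}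
    (he : At e (hv.inv y₀ (ξ w))) {a : M.ι} (ha : hv.inv y₀ (ξ w) ∈ M.U a) :
    nf T (fun w => hv.inv y₀ (ξ w)) i a w = T i (e, a) (hv.inv y₀ (ξ w)) *
        (fderiv ℂ (fun w => e (hv.inv y₀ (ξ w))) w).det ^ (m * Q) := by
  have h1 := nf_change' hL hT h hv y₀ hw hO hi he (at_chartAt _) ha ha
  have h2 : M.g a a (hv.inv y₀ (ξ w)) = 1 :=
    (mul_eq_left₀ (hM.ne_zero a a _ ha ha)).1 (hM.cocycle a a a _ ha ha ha)
  rw [h2, one_pow, one_mul] at h1
  exact h1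

theorem nf_change (hL : IsLBx X L) (hT : IsIsoY O v L ((((Bd.can 4 Y).pow m).mul M).pow Q) T)
    (h : LocIso X ξ B) (hv : IsOpenEmb X O v) (y₀ : Y) {w : Cm 4} (hw : w ∈ B)
    (hO : ξ w ∈ v '' O) {i : L.ι} (hi : ξ w ∈ L.U i) {a a₁ : M.ι}
    (ha : hv.inv y₀ (ξ w) ∈ M.U a) (ha₁ : hv.inv y₀ (ξ w) ∈ M.U a₁) :
    nf T (fun w => hv.inv y₀ (ξ w)) i a₁ w =
      M.g a₁ a (hv.inv y₀ (ξ w)) ^ Q * nf T (fun w => hv.inv y₀ (ξ w)) i a w :=
  nf_change' hL hT h hv y₀ hw hO hi (at_chartAt _) (at_chartAt _) ha ha₁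

theorem nf_analyticAt (hM : IsLB 4 M) (hL : IsLBx X L)
    (hT : IsIsoY O v L ((((Bd.can 4 Y).pow m).mul M).pow Q) T)
    (h : LocIso X ξ B) (hv : IsOpenEmb X O v) (y₀ : Y) {w : Cm 4} (hw : w ∈ B)
    (hO : ξ w ∈ v '' O) {i : L.ι} (hi : ξ w ∈ L.U i) {a : M.ι}
    (ha : hv.inv y₀ (ξ w) ∈ M.U a) :
    AnalyticAt ℂ (nf T (fun w => hv.inv y₀ (ξ w)) i a) w ∧
      nf T (fun w => hv.inv y₀ (ξ w)) i a w ≠ 0 := by
  set e : Chart 4 Y := chartAt (Cm 4) (hv.inv y₀ (ξ w)) with he'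
  have he : At e (hv.inv y₀ (ξ w)) := at_chartAt _
  have hcont := h.rho_continuousAt hv y₀ hw hO
  have hF := h.rho_analyticAt hv y₀ hw hO he
  have hh := hT.holo (hv.inv y₀ (ξ w)) (hv.inv_mem y₀ hO) i (e, a) e he
    (by rwa [hv.apply_inv y₀ hO]) ⟨he, ha⟩
  have hev : nf T (fun w => hv.inv y₀ (ξ w)) i a =ᶠ[𝓝 w] fun w =>
      T i (e, a) (e.symm (e (hv.inv y₀ (ξ w)))) *
        (fderiv ℂ (fun w => e (hv.inv y₀ (ξ w))) w).det ^ (m * Q) := by
    filter_upwards [(h.isOpen_preimage hv.isOpen_image).mem_nhds ⟨hw, hO⟩,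
      hcont.eventually_mem (e.open_source.mem_nhds he.2),
      hcont.eventually_mem ((hM.isOpen a).mem_nhds ha),
      (h.hol w hw).1.eventually_mem ((hL.isOpen i).mem_nhds hi)] with z hz hz' hza hzi
    rw [nf_eq hM hL hT h hv y₀ hz.1 hz.2 hzi ⟨he.1, hz'⟩ hza, e.left_inv hz']
  constructor
  · refine AnalyticAt.congr ?_ hev.symm
    exact (AnalyticAt.comp (g := fun z => T i (e, a) (e.symm z))
      (f := fun w => e (hv.inv y₀ (ξ w))) hh.1 hF).mul ((analyticAt_det hF).pow _)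
  · rw [nf_eq hM hL hT h hv y₀ hw hO hi he ha]
    exact mul_ne_zero hh.2 (pow_ne_zero _ (h.rho_det_ne_zero hv y₀ hw hO he))

end

end Vale.Agent.P277.H19
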