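import Vale.Agent.P277.H884.StEta
import Vale.Agent.P277.H335.E8
import Vale.Agent.P277.H619.StFfin

/-!
# P277: `StF'`
-/

namespace Vale.Agent.P277.H19

theorem stFp : StF' := H619.stF'_of H335.stE8 _root_.Vale.Agent.P277.H884.F.stEta H619.stPair

end Vale.Agent.P277.H19
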