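import Vale.Agent.P277.H19.TXs
import Vale.Agent.P277.Stmts6

/-!
# P277, package TX2: wedges of flipped surfaces are generically local isomorphisms
-/

open scoped Manifold ContDiff Topology
open Vale.Agent.P272.K Vale.Agent.P285.H281.FD Vale.Agent.P267.H175 Set Filter

noncomputable section

namespace Vale.Agent.P277.H19

/-- the data for `StTD` and `StDis` at a point of the exceptional divisor -/
theorem core_data {Y : Type} [TopologicalSpace Y] [T2Space Y] [CompactSpace Y]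
    [ChartedSpace (Cm 4) Y] [IsManifold 𝓘(ℂ, Cm 4) ω Y] {M : Bd Y} (hM : IsLB 4 M) {m : ℕ}
    {X : CSp} {O : Set Y} {v : Y → X.pt} (hv : IsOpenEmb X O v) (hO : DimLe X 2 (v '' O)ᶜ)
    {L : Bd X.pt} (hL : IsLBx X L) {Q : ℕ}
    {T : L.ι → ((((Bd.can 4 Y).pow m).mul M).pow Q).ι → Y → ℂ}
    (hT : IsIsoY O v L ((((Bd.can 4 Y).pow m).mul M).pow Q) T)
    {ξ : Cm 4 → X.pt} {B : Set (Cm 4)} (hξ : LocIso X ξ B) (y₀ : Y) {γ₀ : Cm 4 → Y} {i : L.ι}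
    {a : M.ι} {e₁ : Chart 4 Y} (K : ℕ) {w₂ : Cm 4} (hw₂0 : w₂ 0 = 0) (f1 : bl w₂ ∈ B)
    (f2 : ξ (bl w₂) ∈ L.U i) (f3 : γ₀ w₂ ∈ M.U a) (f4 : At e₁ (γ₀ w₂)) (f5 : ContinuousAt γ₀ w₂)
    (f6 : AnalyticAt ℂ (fun w => e₁ (γ₀ w)) w₂)
    (f7 : ∀ᶠ w in 𝓝 w₂, ξ (bl w) ∈ v '' O → γ₀ w ∈ O ∧ γ₀ w = hv.inv y₀ (ξ (bl w))) :
    ∃ (r' : ℝ) (E₀ : Set (Cm 4)) (Ω : ℕ → Set (Cm 2)) (g : ℕ → Cm 2 → Cm 4)
      (ρ : Cm 4 → Y) (n : M.ι → Cm 4 → ℂ) (w₃ : Cm 4) (γ₁ : Cm 4 → Y) (τ : Cm 4), 0 < r' ∧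
      IsOpen (Metric.ball (0 : Cm 4) r' \ E₀) ∧ (∀ k, IsOpen (Ω k)) ∧
      (∀ k, ∀ p ∈ Ω k, AnalyticAt ℂ (g k) p) ∧ E₀ ⊆ ⋃ k, g k '' Ω k ∧
      (∀ x ∈ Metric.ball (0 : Cm 4) r' \ E₀, ContinuousAt ρ x ∧
        ∀ e : Chart 4 Y, At e (ρ x) → AnalyticAt ℂ (fun z => e (ρ z)) x) ∧
      (∀ i, ∀ x ∈ Metric.ball (0 : Cm 4) r' \ E₀, ρ x ∈ M.U i →
        AnalyticAt ℂ (n i) x ∧ n i x ≠ 0) ∧
      (∀ i j, ∀ x ∈ Metric.ball (0 : Cm 4) r' \ E₀, ρ x ∈ M.U i → ρ x ∈ M.U j →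
        n i x = M.g i j (ρ x) ^ (Q * K) * n j x) ∧
      w₃ 0 = 0 ∧ bl w₃ ∈ Metric.ball (0 : Cm 4) r' ∧ ContinuousAt γ₁ w₃ ∧
      (∀ e : Chart 4 Y, At e (γ₁ w₃) → AnalyticAt ℂ (fun z => e (γ₁ z)) w₃) ∧
      (∀ᶠ w in 𝓝 w₃, bl w ∉ E₀ → γ₁ w = ρ (bl w)) ∧ γ₁ w₃ ∈ M.U a ∧
      w₃ + τ = w₂ ∧ τ 0 = 0 ∧ Tendsto (fun w : Cm 4 => w + τ) (𝓝 w₃) (𝓝 w₂) ∧
      ∀ᶠ w in 𝓝 w₃, bl w ∉ E₀ → ξ (bl (w + τ)) ∈ v '' O ∧
        n a (bl w) = nf T (fun w => hv.inv y₀ (ξ w)) i a (bl (w + τ)) ^ K := by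
  set ρ : Cm 4 → Y := fun w => hv.inv y₀ (ξ w) with hρ
  have hvO : IsOpen (v '' O) := hv.isOpen_image
  -- shift
  set τ : Cm 4 := bl w₂ with hτ
  have hτ0 : τ 0 = 0 := hw₂0
  have hτ1 : τ 1 = 0 := by
    change w₂ 0 * w₂ 1 = 0
    rw [hw₂0, zero_mul]
  obtain ⟨r', hr', hr'B⟩ := Metric.isOpen_iff.1 (hξ.isOpen_preimage (hL.isOpen i)) τ ⟨f1, f2⟩
  have hsh : ∀ x : Cm 4, x ∈ Metric.ball (0 : Cm 4) r' → x + τ ∈ B ∧ ξ (x + τ) ∈ L.U i := by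
    intro x hx
    refine hr'B ?_
    rw [Metric.mem_ball, dist_eq_norm, add_sub_cancel_right]
    simpa using hx
  have hξ' : LocIso X (fun x => ξ (x + τ)) (Metric.ball 0 r') :=
    (hξ.shift τ).mono Metric.isOpen_ball fun x hx => (hsh x hx).1
  set E₀ : Set (Cm 4) := {x | x ∈ Metric.ball (0 : Cm 4) r' ∧ ξ (x + τ) ∉ v '' O} with hE₀
  have hE₀' : ∀ x ∈ Metric.ball (0 : Cm 4) r' \ E₀, ξ (x + τ) ∈ v '' O := by
    intro x hx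
    by_contra h
    exact hx.2 ⟨hx.1, h⟩
  have hopen' : IsOpen (Metric.ball (0 : Cm 4) r' \ E₀) := by
    have h1 : Metric.ball (0 : Cm 4) r' \ E₀ =
        {x | x ∈ Metric.ball (0 : Cm 4) r' ∧ ξ (x + τ) ∈ v '' O} := by
      ext x
      constructor
      · intro hx
        exact ⟨hx.1, hE₀' x hx⟩
      · intro hx
        exact ⟨hx.1, fun h => h.2 hx.2⟩
    rw [h1]
    exact hξ'.isOpen_preimage hvO
  obtain ⟨Ω, g, hΩ, hg, hcov⟩ := hξ'.cover hO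
  have hadd : ∀ x : Cm 4, AnalyticAt ℂ (fun x : Cm 4 => x + τ) x := fun x => by fun_prop
  have hw₂' : w₂ - τ + τ = w₂ := sub_add_cancel _ _
  have hblw : bl (w₂ - τ) = 0 := by
    have h1 := bl_add (w := w₂ - τ) hτ0 hτ1
    rw [hw₂'] at h1
    exact (add_eq_right.1 h1.symm)
  have htend : Tendsto (fun w : Cm 4 => w + τ) (𝓝 (w₂ - τ)) (𝓝 w₂) := by
    have := (hadd (w₂ - τ)).continuousAt.tendsto
    rwa [hw₂'] at this
  have hblB : ∀ᶠ w in 𝓝 (w₂ - τ), bl w ∈ Metric.ball (0 : Cm 4) r' := by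
    refine continuous_bl.continuousAt.eventually_mem ?_
    rw [hblw]
    exact Metric.ball_mem_nhds _ hr'
  refine ⟨r', E₀, Ω, g, fun x => ρ (x + τ), fun a x => nf T ρ i a (x + τ) ^ K, w₂ - τ,
    fun w => γ₀ (w + τ), τ, hr', hopen', hΩ, hg, hcov, ?_, ?_, ?_, ?_, ?_, ?_, ?_, ?_, ?_, hw₂', hτ0,
    htend, ?_⟩
  · intro x hx
    obtain ⟨h1, h2⟩ := hsh x hx.1
    have h3 := hE₀' x hx
    refine ⟨ContinuousAt.comp (g := ρ) (f := fun x => x + τ) (hξ.rho_continuousAt hv y₀ h1 h3)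
      (hadd x).continuousAt, fun e he => ?_⟩
    exact AnalyticAt.comp (g := fun x => e (ρ x)) (f := fun x => x + τ)
      (hξ.rho_analyticAt hv y₀ h1 h3 he) (hadd x)
  · intro a x hx hxa
    obtain ⟨h1, h2⟩ := hsh x hx.1
    have h3 := hE₀' x hx
    obtain ⟨h4, h5⟩ := nf_analyticAt hM hL hT hξ hv y₀ h1 h3 h2 hxa
    refine ⟨?_, pow_ne_zero _ h5⟩
    exact (AnalyticAt.comp (g := nf T ρ i a) (f := fun x => x + τ) h4 (hadd x)).pow K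
  · intro a a' x hx hxa hxa'
    obtain ⟨h1, h2⟩ := hsh x hx.1
    have h3 := hE₀' x hx
    have h4 := nf_change hL hT hξ hv y₀ h1 h3 h2 hxa' hxa
    simp only [hρ] at h4 ⊢
    rw [h4, mul_pow, ← pow_mul]
  · change w₂ 0 - τ 0 = 0
    rw [hw₂0, hτ0, sub_zero]
  · rw [hblw]
    exact Metric.mem_ball_self hr'
  · exact ContinuousAt.comp (g := γ₀) (f := fun w => w + τ) (by rw [hw₂']; exact f5)
      (hadd _).continuousAt
  · intro e' he'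
    simp only [hw₂'] at he'
    have h1 := analyticAt_change f5 f4 he' f6
    exact AnalyticAt.comp (g := fun w => e' (γ₀ w)) (f := fun w => w + τ) (by rw [hw₂']; exact h1)
      (hadd _)
  · filter_upwards [htend.eventually f7, hblB] with w h1 h2 h3
    rw [bl_add hτ0 hτ1] at h1
    exact (h1 (hE₀' _ ⟨h2, h3⟩)).2
  · simp only [hw₂']
    exact f3
  · filter_upwards [hblB] with w h2 h3
    have h4 := hE₀' _ ⟨h2, h3⟩
    rw [← bl_add hτ0 hτ1] at h4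
    exact ⟨h4, by rw [bl_add hτ0 hτ1]⟩

theorem stTX2 (hTA : StTA) (hTD : StTD) (hDis : T2.StDis) : T2.StTX2 := by
  intro Y _ _ _ _ _ χ hχ M hM hNef m hm X hX hs O v hv hO S hSan hSO hS1 L hL Q hQ T hT
  have hS2 : DimLe X 2 S := hO.mono hSO
  obtain ⟨ξ, r, hr, hinj, hopen, hhol, hξS⟩ := hTA X S hSan hS2 hS1 hs
  set B : Set (Cm 4) := Metric.ball 0 r with hB
  have hξ : LocIso X ξ B := ⟨Metric.isOpen_ball, hinj, hopen, hhol⟩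
  have hWo : IsOpen {w : Cm 4 | bl w ∈ B} := Metric.isOpen_ball.preimage continuous_bl
  have hbl0 : bl 0 = 0 := by
    ext i
    fin_cases i
    · rfl
    · change (0 : ℂ) * 0 = 0; ring
    · rfl
    · rfl
  have hφ : ∀ w : Cm 4, bl w ∈ B → HolAt X (fun w => ξ (bl w)) w := fun w hw =>
    (hξ.holAt hw).comp (analyticAt_bl w)
  have hφS : ∀ w : Cm 4, bl w ∈ B → w 0 = 0 → ξ (bl w) ∈ S := by
    intro w hw h0
    refine hξS _ hw ?_ ?_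
    · exact h0
    · change w 0 * w 1 = 0
      rw [h0, zero_mul]
  have hvO : IsOpen (v '' O) := hv.isOpen_image
  have hdense : ∀ w : Cm 4, bl w ∈ B → ∀ N ∈ 𝓝 w, ∃ w' ∈ N, bl w' ∈ B ∧ ξ (bl w') ∈ v '' O := by
    intro w hw N hN
    obtain ⟨N', hN'N, hN'o, hwN'⟩ := mem_nhds_iff.1 (inter_mem hN (hWo.mem_nhds hw))
    obtain ⟨w', hw', hw'0⟩ := exists_ne_zero (hN'o.mem_nhds hwN')
    have h1 : IsOpen (N' ∩ {w : Cm 4 | w 0 ≠ 0}) :=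
      hN'o.inter (isOpen_ne_fun (continuous_apply 0) continuous_const)
    obtain ⟨z, ⟨w'', hw'', rfl⟩, hz2⟩ := hξ.dense (by norm_num) hO
      (isOpen_image_bl h1 fun w hw => hw.2) (image_subset_iff.2 fun w hw => (hN'N hw.1).2)
      ⟨bl w', mem_image_of_mem bl ⟨hw', hw'0⟩⟩
    exact ⟨w'', (hN'N hw''.1).1, (hN'N hw''.1).2, by simpa using hz2⟩
  refine ⟨{w | bl w ∈ B}, 0, fun w => ξ (bl w), hWo, ?_, rfl, hφ, hφS, ?_, ?_⟩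
  · change bl 0 ∈ B
    rw [hbl0]; exact Metric.mem_ball_self hr
  · intro w hw
    rw [mem_closure_iff_nhds]
    intro N hN
    obtain ⟨w', h1, h2, h3⟩ := hdense w hw N hN
    exact ⟨w', h1, h2, h3⟩
  intro w₁ hw₁ hw₁0 γ₀ e F i j hγc he hγa hlift hi hj hF K hK hFT hF0
  obtain ⟨e₁, a, rfl⟩ : ∃ (e₁ : Chart 4 Y) (a : M.ι), j = (e₁, a) := ⟨j.1, j.2, rfl⟩
  obtain ⟨he₁, ha⟩ : At e₁ (γ₀ w₁) ∧ γ₀ w₁ ∈ M.U a := hj
  set y₀ : Y := γ₀ w₁ with hy₀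
  set ρ : Cm 4 → Y := fun w => hv.inv y₀ (ξ w) with hρ
  have hγa₁ : AnalyticAt ℂ (fun w => e₁ (γ₀ w)) w₁ := analyticAt_change hγc he he₁ hγa
  set J : Cm 4 → ℂ := fun w => (fderiv ℂ (fun w => e₁ (γ₀ w)) w).det with hJ
  have hJan : AnalyticAt ℂ J w₁ := analyticAt_det hγa₁
  -- conditions near `w₁`
  have c1 : ∀ᶠ w in 𝓝 w₁, bl w ∈ B := hWo.mem_nhds hw₁
  have c2 : ∀ᶠ w in 𝓝 w₁, ξ (bl w) ∈ L.U i := (hφ w₁ hw₁).1.eventually_mem ((hL.isOpen i).mem_nhds hi)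
  have c3 : ∀ᶠ w in 𝓝 w₁, γ₀ w ∈ M.U a := hγc.eventually_mem ((hM.isOpen a).mem_nhds ha)
  have c4 : ∀ᶠ w in 𝓝 w₁, At e₁ (γ₀ w) := by
    filter_upwards [hγc.eventually_mem (e₁.open_source.mem_nhds he₁.2)] with w hw
    exact ⟨he₁.1, hw⟩
  have c4' : ∀ᶠ w in 𝓝 w₁, At e (γ₀ w) := by
    filter_upwards [hγc.eventually_mem (e.open_source.mem_nhds he.2)] with w hw
    exact ⟨he.1, hw⟩
  have c5 : ∀ᶠ w in 𝓝 w₁, ContinuousAt γ₀ w := by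
    have h1 : ∀ᶠ w in 𝓝 w₁, ∀ᶠ w' in 𝓝 w, At e₁ (γ₀ w') := c4.eventually_nhds
    filter_upwards [h1, hγa₁.eventually_analyticAt] with w h1 h2
    have h3 : ContinuousAt (fun w => e₁.symm (e₁ (γ₀ w))) w := by
      refine ContinuousAt.comp (g := e₁.symm) (f := fun w => e₁ (γ₀ w)) ?_ h2.continuousAt
      exact e₁.continuousAt_symm (e₁.map_source h1.self_of_nhds.2)
    refine h3.congr ?_
    filter_upwards [h1] with w' hw'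
    exact e₁.left_inv hw'.2
  have c6 : ∀ᶠ w in 𝓝 w₁, AnalyticAt ℂ (fun w => e₁ (γ₀ w)) w := hγa₁.eventually_analyticAt
  have c6' : ∀ᶠ w in 𝓝 w₁, AnalyticAt ℂ (fun w => e (γ₀ w)) w := hγa.eventually_analyticAt
  -- the lift is given by `ρ`
  have c7 : ∀ᶠ w in 𝓝 w₁, ξ (bl w) ∈ v '' O → γ₀ w ∈ O ∧ γ₀ w = ρ (bl w) := by
    filter_upwards [hlift] with w h1 h2
    obtain ⟨h3, h4⟩ := h1 h2
    refine ⟨h3, ?_⟩
    simp only [hρ]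
    rw [← h4, hv.inv_apply y₀ h3]
  -- the main relation
  have c8 : ∀ᶠ w in 𝓝 w₁, ξ (bl w) ∈ v '' O → w 0 ≠ 0 ∧ F w ≠ 0 ∧ J w ≠ 0 ∧
      (w 0 ^ (m * Q) * nf T ρ i a (bl w)) ^ K = F w * J w ^ (m * Q * K) := by
    filter_upwards [c1, c2, c3, c4, c5, c6, c7.eventually_nhds, hFT] with w d1 d2 d3 d4 d5 d6 d7 d8 d9
    have hw0 : w 0 ≠ 0 := fun h0 => (hSO (hφS w d1 h0)) d9
    obtain ⟨hγO, hγρ⟩ := d7.self_of_nhds d9
    have heq : (fun w => e₁ (γ₀ w)) =ᶠ[𝓝 w] fun w => e₁ (ρ (bl w)) := by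
      filter_upwards [d7, (hφ w d1).1.eventually_mem (hvO.mem_nhds d9)] with w' h1 h2
      rw [(h1 h2).2]
    have hat : At e₁ (ρ (bl w)) := hγρ ▸ d4
    have hρan := hξ.rho_analyticAt hv y₀ d1 d9 hat
    have hJw : J w = (fderiv ℂ (fun w => e₁ (ρ w)) (bl w)).det * w 0 := by
      simp only [hJ]
      rw [heq.fderiv_eq, ← det_fderiv_bl w]
      exact det_fderiv_comp (G := fun w => e₁ (ρ w)) (F := bl) hρan.differentiableAt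
        (analyticAt_bl w).differentiableAt
    have hnf := nf_eq hM hL hT hξ hv y₀ d1 d9 d2 hat (hγρ ▸ d3 : ρ (bl w) ∈ M.U a)
    have hTne : T i (e₁, a) (γ₀ w) ≠ 0 :=
      (hT.holo (γ₀ w) hγO i (e₁, a) e₁ d4 (by rw [hγρ, hv.apply_inv y₀ d9]; exact d2) ⟨d4, d3⟩).2
    have hFw := d8 hγO
    refine ⟨hw0, ?_, ?_, ?_⟩
    · rw [hFw]; exact pow_ne_zero _ hTne
    · rw [hJw]; exact mul_ne_zero (hξ.rho_det_ne_zero hv y₀ d1 d9 hat) hw0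
    · have key : ∀ x D t : ℂ, (x ^ (m * Q) * (t * D ^ (m * Q))) ^ K =
          t ^ K * (D * x) ^ (m * Q * K) := by
        intro x D t
        ring
      rw [hnf, hFw, hJw, hγρ]
      exact key _ _ _
  refine ⟨?_, ?_⟩
  · by_contra hcon
    rw [Filter.not_frequently] at hcon
    have hJ0 : ∀ᶠ w in 𝓝 w₁, w 0 = 0 → (fderiv ℂ (fun w => e (γ₀ w)) w).det = 0 := by
      filter_upwards [hcon] with w h1 h2
      by_contra h3
      exact h1 ⟨h2, h3⟩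
    have hJ0' : ∀ᶠ w in 𝓝 w₁, w 0 = 0 → J w = 0 := by
      filter_upwards [hJ0, c4, c4', c5, c6'] with w h1 h2 h3 h4 h5 h6
      simp only [hJ]
      rw [det_change h4 h3 h2 h5, h1 h6, mul_zero]
    obtain ⟨F₁, hF₁, hFF₁⟩ := exists_div hF hw₁0 hF0
    obtain ⟨J₁, hJ₁, hJJ₁⟩ := exists_div hJan hw₁0 hJ0'
    have hP₁ : ¬ ∀ᶠ w in 𝓝 w₁, F₁ w * J₁ w ^ (m * Q * K) = 0 := by
      intro h
      obtain ⟨w, ⟨d1, d2, d3, d4⟩, -, d5⟩ := hdense w₁ hw₁ _ (h.and (c8.and (hFF₁.and hJJ₁)))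
      obtain ⟨-, h1, h2, -⟩ := d2 d5
      rw [d3] at h1
      rw [d4] at h2
      exact mul_ne_zero (right_ne_zero_of_mul h1) (pow_ne_zero _ (right_ne_zero_of_mul h2)) d1
    obtain ⟨b, P, hP, hPP, hPne⟩ := exists_max_pow (hF₁.mul (hJ₁.pow (m * Q * K))) hw₁0 hP₁
    have c9 : ∀ᶠ w in 𝓝 w₁, ξ (bl w) ∈ v '' O → nf T ρ i a (bl w) ^ K = w 0 ^ (1 + b) * P w := by
      filter_upwards [c8, hFF₁, hJJ₁, hPP] with w d1 d2 d3 d4 d5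
      obtain ⟨h0, -, -, h1⟩ := d1 d5
      have h2 : F₁ w * J₁ w ^ (m * Q * K) = w 0 ^ b * P w := d4
      rw [d2, d3, mul_pow, mul_pow, ← pow_mul] at h1
      have h3 : w 0 ^ (m * Q * K) * nf T ρ i a (bl w) ^ K =
          w 0 ^ (m * Q * K) * (w 0 ^ (1 + b) * P w) := by
        rw [h1]
        linear_combination w 0 * w 0 ^ (m * Q * K) * h2
      exact mul_left_cancel₀ (pow_ne_zero _ h0) h3
    obtain ⟨w₂, ⟨hw₂0, hPw₂⟩, f1, f2, f3, f4, f5, f6, f7, f8, f9⟩ : ∃ w₂ : Cm 4,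
        (w₂ 0 = 0 ∧ P w₂ ≠ 0) ∧ bl w₂ ∈ B ∧ ξ (bl w₂) ∈ L.U i ∧ γ₀ w₂ ∈ M.U a ∧ At e₁ (γ₀ w₂) ∧
        ContinuousAt γ₀ w₂ ∧ AnalyticAt ℂ (fun w => e₁ (γ₀ w)) w₂ ∧
        (∀ᶠ w in 𝓝 w₂, ξ (bl w) ∈ v '' O → γ₀ w ∈ O ∧ γ₀ w = ρ (bl w)) ∧
        (∀ᶠ w in 𝓝 w₂, ξ (bl w) ∈ v '' O → nf T ρ i a (bl w) ^ K = w 0 ^ (1 + b) * P w) ∧
        AnalyticAt ℂ P w₂ := by
      have h1 : ∃ᶠ w in 𝓝 w₁, w 0 = 0 ∧ P w ≠ 0 := by
        rw [Filter.not_eventually] at hPne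
        refine hPne.mono fun w hw => ?_
        push Not at hw
        exact hw
      exact (h1.and_eventually (c1.and (c2.and (c3.and (c4.and (c5.and (c6.and
        (c7.eventually_nhds.and (c9.eventually_nhds.and hP.eventually_analyticAt))))))))).exists
    obtain ⟨r', E₀, Ω, g, ρ', n, w₃, γ₁, τ, g1, g2, g3, g4, g5, g6, g7, g8, g9, g10, g11, g12, g13,
      g14, g15, g16, g17, g18⟩ := core_data hM hv hO hL hT hξ y₀ K hw₂0 f1 f2 f3 f4 f5 f6 f7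
    refine hTD Y χ hχ M hM hNef (Q * K) r' g1 E₀ g2 Ω g g3 g4 g5 ρ' g6 n g7 g8 w₃ g9 g10 γ₁ g11 g12
      g13 a g14 (1 + b) (by omega) (fun w => P (w + τ)) ?_ ?_ ?_
    · exact ContinuousAt.comp (g := P) (f := fun w => w + τ) (by rw [g15]; exact f9.continuousAt)
        (by fun_prop)
    · simp only [g15]
      exact hPw₂
    · filter_upwards [g17.eventually f8, g18] with w h1 h2 h3
      obtain ⟨h4, h5⟩ := h2 h3
      rw [h5, h1 h4, Pi.add_apply, g16, add_zero]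
  · intro ν Φ hΦ hΦ0 hdet hFΦ
    have hJ1 : J w₁ ≠ 0 := by
      simp only [hJ]
      rw [det_change hγc he he₁ hγa]
      exact mul_ne_zero (left_ne_zero_of_mul (by rw [det_jacM_mul he he₁]; exact one_ne_zero)) hdet
    set Φ' : Cm 4 → ℂ := fun w => Φ w * J w ^ (m * Q * K) with hΦ'
    have hΦ'c : ContinuousAt Φ' w₁ := hΦ.mul (hJan.continuousAt.pow _)
    have hΦ'0 : Φ' w₁ ≠ 0 := mul_ne_zero hΦ0 (pow_ne_zero _ hJ1)
    have c9 : ∀ᶠ w in 𝓝 w₁, ξ (bl w) ∈ v '' O → w 0 ≠ 0 ∧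
        w 0 ^ (m * Q * K) * nf T ρ i a (bl w) ^ K = w 0 ^ ν * Φ' w := by
      filter_upwards [c8, hFΦ] with w d1 d2 d5
      obtain ⟨h0, -, -, h1⟩ := d1 d5
      refine ⟨h0, ?_⟩
      rw [d2, mul_pow, ← pow_mul] at h1
      rw [h1]
      simp only [hΦ']
      ring
    obtain ⟨r', E₀, Ω, g, ρ', n, w₃, γ₁, τ, g1, g2, g3, g4, g5, g6, g7, g8, g9, g10, g11, g12, g13,
      g14, g15, g16, g17, g18⟩ := core_data hM hv hO hL hT hξ y₀ K hw₁0 hw₁ hi ha he₁ hγc hγa₁ c7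
    have hΦ'' : ContinuousAt (fun w => Φ' (w + τ)) w₃ :=
      ContinuousAt.comp (g := Φ') (f := fun w => w + τ) (by rw [g15]; exact hΦ'c) (by fun_prop)
    have hΦ''0 : Φ' (w₃ + τ) ≠ 0 := by rw [g15]; exact hΦ'0
    have hle : ν ≤ m * (Q * K) := by
      by_contra hcon
      push Not at hcon
      rw [← mul_assoc] at hcon
      refine hTD Y χ hχ M hM hNef (Q * K) r' g1 E₀ g2 Ω g g3 g4 g5 ρ' g6 n g7 g8 w₃ g9 g10 γ₁ g11
        g12 g13 a g14 (ν - m * Q * K) (by omega) (fun w => Φ' (w + τ)) hΦ'' hΦ''0 ?_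
      filter_upwards [g17.eventually c9, g18] with w h1 h2 h3
      obtain ⟨h4, h5⟩ := h2 h3
      obtain ⟨h0, h6⟩ := h1 h4
      rw [h5]
      rw [Pi.add_apply, g16, add_zero] at h6 h0
      have h7 : w 0 ^ (m * Q * K) ≠ 0 := pow_ne_zero _ h0
      have h8 : w 0 ^ ν = w 0 ^ (m * Q * K) * w 0 ^ (ν - m * Q * K) := by
        rw [← pow_add]
        congr 1
        omega
      rw [h8] at h6
      exact mul_left_cancel₀ h7 (h6.trans (mul_assoc _ _ _))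
    refine ⟨?_, hle⟩
    have hdvd : Q * K ∣ m * (Q * K) - ν := by
      refine hDis Y M hM (Q * K) (Nat.mul_pos hQ hK) r' g1 E₀ g2 Ω g g3 g4 g5 ρ' g6 n g7 g8 w₃ g9
        g10 γ₁ g11 g12 g13 a g14 _ (fun w => Φ' (w + τ)) hΦ'' hΦ''0 ?_
      filter_upwards [g17.eventually c9, g18] with w h1 h2 h3
      obtain ⟨h4, h5⟩ := h2 h3
      obtain ⟨h0, h6⟩ := h1 h4
      rw [h5]
      rw [Pi.add_apply, g16, add_zero] at h6 h0
      have h7 : w 0 ^ ν ≠ 0 := pow_ne_zero _ h0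
      have h8 : w 0 ^ (m * Q * K) = w 0 ^ ν * w 0 ^ (m * (Q * K) - ν) := by
        rw [← pow_add, mul_assoc]
        congr 1
        omega
      rw [h8] at h6
      refine mul_left_cancel₀ h7 (Eq.trans ?_ h6)
      ring
    have h8 : ν = m * (Q * K) - (m * (Q * K) - ν) := by omega
    rw [h8]
    exact Nat.dvd_sub (Dvd.intro_left _ rfl) hdvd

end Vale.Agent.P277.H19
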