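import Vale.Agent.P277.H19.PB

/-!
# P277, package XF: naturality of the pairing
-/

set_option maxSynthPendingDepth 3

open scoped Manifold ContDiff Topology
open Vale.Agent.P272.K Vale.Agent.P285.H281.FD Vale.Agent.P267.H175 Set Filter MeasureTheory
open Vale.Agent.P267.H928.Int ContinuousAlternatingMap

noncomputable section

namespace Vale.Agent.P277.H19

section

variable {E : Type*} [NormedAddCommGroup E] [NormedSpace ℝ E]
variable {M : Type*} [TopologicalSpace M] [ChartedSpace E M] [IsManifold 𝓘(ℝ, E) ∞ M]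

theorem mfd_symm {e : OpenPartialHomeomorph M E} (he : e ∈ atlas E M) {z : E} (hz : z ∈ e.target) :
    mfd e.symm z = fderiv ℝ (fun y => chartAt E (e.symm z) (e.symm y)) z := by
  have h1 := (mdiffAt_symm he hz).mfderiv
  have h2 : mfd e.symm z = mfderiv 𝓘(ℝ, E) 𝓘(ℝ, E) e.symm z := rfl
  rw [h2, h1]
  simp only [writtenInExtChartAt, mfld_simps]
  rw [fderivWithin_univ]
  rfl

/-- The two local expressions of a form agree. -/
theorem pull_eq_loc {k : ℕ} {e : OpenPartialHomeomorph M E} (he : e ∈ atlas E M)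
    (a : M → E [⋀^Fin k]→L[ℝ] ℝ) {z : E} (hz : z ∈ e.target) :
    pull e.symm (show Form E ℝ k M from a) z = loc e a z := by
  rw [pull_eq, mfd_symm he hz]
  rfl

end

section pairing

variable {M : Type} [TopologicalSpace M] [T2Space M] [SecondCountableTopology M]
  [ChartedSpace (Cm 4) M] [IsManifold 𝓘(ℂ, Cm 4) ω M]
variable {M' : Type} [TopologicalSpace M'] [T2Space M'] [SecondCountableTopology M']
  [ChartedSpace (Cm 4) M'] [IsManifold 𝓘(ℂ, Cm 4) ω M']

omit [T2Space M] [SecondCountableTopology M] [IsManifold 𝓘(ℂ, Cm 4) ω M] in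
theorem loc_wdg {p q : ℕ} (e : OpenPartialHomeomorph M (Cm 4)) (a : Fm p M) (b : Fm q M)
    (z : Cm 4) : loc e (fun y => wdg (a y) (b y)) z = wdg (loc e a z) (loc e b z) := by
  rw [loc, loc, loc, wdg_comp]

omit [T2Space M] [SecondCountableTopology M] in
theorem cf_eq (e : OpenPartialHomeomorph M (Cm 4)) (he : e ∈ atlas (Cm 4) M) (a : Fm 8 M)
    {z : Cm 4} (hz : z ∈ e.target) :
    cf stdB e (show Form (Cm 4) ℝ 8 M from a) z = loc e a z stdB := by
  rw [cf, pull_eq_loc he a hz]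

/-- The values of `F` on the frame `v` are continuous on `S`. -/
def ContApp {E : Type} [NormedAddCommGroup E] [NormedSpace ℝ E] {n : ℕ} {T : Type}
    [TopologicalSpace T] (F : T → E [⋀^Fin n]→L[ℝ] ℝ) (v : Fin n → E) (S : Set T) : Prop :=
  ContinuousOn (fun z => F z v) S

theorem contApp_wdg {E : Type} [NormedAddCommGroup E] [NormedSpace ℝ E] {p q : ℕ} {T : Type}
    [TopologicalSpace T] {F : T → E [⋀^Fin p]→L[ℝ] ℝ} {G : T → E [⋀^Fin q]→L[ℝ] ℝ}
    (v : Fin (q + p) → E) {S : Set T} (hF : ContinuousOn F S) (hG : ContinuousOn G S) :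
    ContApp (fun z => wdg (F z) (G z)) v S := by
  have h3 : ContinuousOn (fun z => wdgL E p q (F z)) S :=
    (wdgL E p q).continuous.comp_continuousOn hF
  have h4 : ContinuousOn (fun z => wdg (F z) (G z)) S := h3.clm_apply hG
  exact (ContinuousAlternatingMap.apply ℝ E ℝ v).continuous.comp_continuousOn h4

/-- The two forms agree at every point of `S`. -/
def EqPt {E : Type} [NormedAddCommGroup E] [NormedSpace ℝ E] {n : ℕ} {T : Type}
    (F G : T → E [⋀^Fin n]→L[ℝ] ℝ) : Prop := ∀ z, F z = G z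

omit [T2Space M] [SecondCountableTopology M] in
theorem dcont_of {A : Fm 8 M} (h : ∀ e ∈ atlas (Cm 4) M, ∃ F : Cm 4 → Cm 4 [⋀^Fin 8]→L[ℝ] ℝ,
    EqPt (loc e A) F ∧ ContApp F (stdB : Fin 8 → Cm 4) e.target) :
    DCont M (fun (e : OpenPartialHomeomorph M (Cm 4)) z =>
      cf stdB e (show Form (Cm 4) ℝ 8 M from A) z) := by
  intro e he
  obtain ⟨F, h1, h2⟩ := h e he
  refine ContinuousOn.congr (f := fun z => F z stdB) h2 fun z hz => ?_
  show cf stdB e (show Form (Cm 4) ℝ 8 M from A) z = _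
  rw [cf_eq e he _ hz, h1 z]

omit [T2Space M] [SecondCountableTopology M] in
theorem dcont_wdg {a b : Fm 4 M} (ha : ∀ y, SmAt a y) (hb : ∀ y, SmAt b y) :
    DCont M (fun (e : OpenPartialHomeomorph M (Cm 4)) z =>
      cf stdB e (show Form (Cm 4) ℝ 8 M from fun y => wdg (a y) (b y)) z) := by
  refine dcont_of (A := fun y => wdg (a y) (b y)) fun e he => ?_
  have h1 : ∀ a : Fm 4 M, (∀ y, SmAt a y) → ContinuousOn (loc e a) e.target := by
    intro a ha z hz
    have h2 := (smAt_iff he (e.map_target hz)).1 (ha (e.symm z))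
    rw [e.right_inv hz] at h2
    exact h2.continuousAt.continuousWithinAt
  exact ⟨fun z => wdg (loc e a z) (loc e b z), fun z => loc_wdg e a b z,
    contApp_wdg (stdB : Fin 8 → Cm 4) (h1 a ha) (h1 b hb)⟩

omit [T2Space M] [SecondCountableTopology M] in
theorem wdg_zero_right {p q : ℕ} (a : Cm 4 [⋀^Fin p]→L[ℝ] ℝ) :
    wdg a (0 : Cm 4 [⋀^Fin q]→L[ℝ] ℝ) = 0 := by
  rw [wdg, _root_.map_zero]

/-- intM is the integral with respect to a partition of unity. -/
theorem intM_eq (M : Type) [TopologicalSpace M] [T2Space M] [SecondCountableTopology M]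
    [ChartedSpace (Cm 4) M] [IsManifold 𝓘(ℂ, Cm 4) ω M] [i1 : MeasurableSpace M]
    [i2 : BorelSpace M] : ∃ P : Pou (Cm 4) M, ∀ a : Fm 8 M,
      intM M a = intForm volume P stdB (show Form (Cm 4) ℝ 8 M from a) := by
  obtain rfl : i1 = borel M := i2.measurable_eq
  have : LocallyCompactSpace M := ChartedSpace.locallyCompactSpace (Cm 4) M
  exact ⟨(exists_pou (E := Cm 4) (M := M)).some, fun a => rfl⟩

/-- Negligible sets. -/
def Null (M : Type) [TopologicalSpace M] [ChartedSpace (Cm 4) M] (S : Set M) : Prop :=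
  ∀ e ∈ atlas (Cm 4) M, volume (e '' (S ∩ e.source)) = 0

omit [T2Space M] [SecondCountableTopology M] [IsManifold 𝓘(ℂ, Cm 4) ω M] in
theorem Null.meas [MeasurableSpace M] [BorelSpace M] (P : Pou (Cm 4) M) {S : Set M}
    (hS : Null M S) (hm : MeasurableSet S) : P.meas volume S = 0 := by
  rw [Pou.meas, Measure.sum_apply _ hm, ENNReal.tsum_eq_zero]
  intro i
  rw [Measure.map_apply_of_aemeasurable ((Pou.aemeas_symm volume (P.e i)).mono_ac
    (withDensity_absolutelyContinuous _ _)) hm]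
  refine withDensity_absolutelyContinuous _ _ ?_
  have h1 : MeasurableSet ((P.e i).target) := (P.e i).open_target.measurableSet
  rw [Measure.restrict_apply₀' h1.nullMeasurableSet]
  refine measure_mono_null ?_ (hS (P.e i) (P.mem i))
  rintro z ⟨hz, hz'⟩
  exact ⟨(P.e i).symm z, ⟨hz, (P.e i).map_target hz'⟩, (P.e i).right_inv hz'⟩

omit [T2Space M] [SecondCountableTopology M] [IsManifold 𝓘(ℂ, Cm 4) ω M] [T2Space M']
  [SecondCountableTopology M'] [IsManifold 𝓘(ℂ, Cm 4) ω M'] in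
theorem smM_of {φ : M → M'} {U : Set M} (hU : IsOpen U) (hφ : ContinuousOn φ U)
    (hol : ∀ y ∈ U, ∀ (e : Chart 4 M) (e' : Chart 4 M'), At e y → At e' (φ y) →
      AnalyticAt ℂ (fun z => e' (φ (e.symm z))) (e y)) {y : M} (hy : y ∈ U) :
    SmM (Cm 4) φ y :=
  ⟨hφ.continuousAt (hU.mem_nhds hy), ((hol y hy _ _ ⟨chart_mem_atlas _ y, mem_chart_source _ y⟩
    ⟨chart_mem_atlas _ (φ y), mem_chart_source _ (φ y)⟩).contDiffAt.restrict_scalars ℝ)⟩

/-- `x = 0` -/
def ZRel {E : Type} [NormedAddCommGroup E] [NormedSpace ℝ E] {n : ℕ}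
    (x : E [⋀^Fin n]→L[ℝ] ℝ) : Prop := x = 0

theorem wdg_zRel {E : Type} [NormedAddCommGroup E] [NormedSpace ℝ E] {p q : ℕ}
    (a : E [⋀^Fin p]→L[ℝ] ℝ) {b : E [⋀^Fin q]→L[ℝ] ℝ} (h : b = 0) : ZRel (wdg a b) := by
  subst h
  show wdg a 0 = 0
  rw [wdg, _root_.map_zero]

omit [T2Space M] [SecondCountableTopology M] [IsManifold 𝓘(ℂ, Cm 4) ω M] in
theorem suppIn_of {A : Fm 8 M} {K : Set M} (h : ∀ y ∉ K, ZRel (A y)) :
    SuppIn K (show Form (Cm 4) ℝ 8 M from A) := h

/-- `A` is at `y` the pullback of `A'`. -/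
def PbRel {k : ℕ} (φ : M → M') (A : Fm k M) (A' : Fm k M') (y : M) : Prop := A y = pb φ A' y

omit [T2Space M] [SecondCountableTopology M] [IsManifold 𝓘(ℂ, Cm 4) ω M]
  [T2Space M'] [SecondCountableTopology M'] [IsManifold 𝓘(ℂ, Cm 4) ω M'] in
theorem wdg_pbRel {φ : M → M'} {p q : ℕ} {a : Fm p M} {b : Fm q M} {a' : Fm p M'} {b' : Fm q M'}
    {y : M} (ha : a y = pb φ a' y) (hb : b y = pb φ b' y) :
    PbRel φ (fun y => wdg (a y) (b y)) (fun y => wdg (a' y) (b' y)) y := by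
  rw [PbRel, ha, hb, pb, pb, ← wdg_comp]
  rfl

omit [SecondCountableTopology M] in
/-- the integral over an open set which carries the form -/
theorem int_restrict [MeasurableSpace M] [BorelSpace M] (P : Pou (Cm 4) M) {A : Fm 8 M}
    (hd : DCont M (fun (e : OpenPartialHomeomorph M (Cm 4)) z =>
      cf stdB e (show Form (Cm 4) ℝ 8 M from A) z)) {C : Set M} (hC : IsCompact C)
    (hAC : ∀ y ∉ C, ZRel (A y)) {U : Set M} (hU : IsOpen U)
    (hn : (∀ y ∉ U, ZRel (A y)) ∨ Null M Uᶜ) :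
      Integrable (P.quo fun (e : OpenPartialHomeomorph M (Cm 4)) z =>
        cf stdB e (show Form (Cm 4) ℝ 8 M from A) z) (P.meas volume) ∧
      ∫ x, (P.quo fun (e : OpenPartialHomeomorph M (Cm 4)) z => cf stdB e
          (show Form (Cm 4) ℝ 8 M from A) z) x ∂(P.meas volume) =
        ∫ x in U, (P.quo fun (e : OpenPartialHomeomorph M (Cm 4)) z => cf stdB e
          (show Form (Cm 4) ℝ 8 M from A) z) x ∂(P.meas volume) := by
  have hs : ∀ {K : Set M}, (∀ y ∉ K, ZRel (A y)) →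
      DSupp K (fun (e : OpenPartialHomeomorph M (Cm 4)) z => cf stdB e
        (show Form (Cm 4) ℝ 8 M from A) z) := by
    intro K hK
    exact SuppIn.dsupp stdB (suppIn_of hK)
  have hint := P.integrable_quo volume (isDens_cf stdB _) hd hC (hs hAC)
  refine ⟨hint, ?_⟩
  symm
  refine setIntegral_eq_integral_of_ae_compl_eq_zero ?_
  rcases hn with hn | hn
  · exact Filter.Eventually.of_forall fun x hx => P.quo_eq_zero (hs hn) hx
  · have h5 := hn.meas P hU.isClosed_compl.measurableSet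
    have h6 : ∀ᵐ x ∂(P.meas volume), x ∈ U := by
      rw [ae_iff]; exact h5
    filter_upwards [h6] with x hx hx'
    exact absurd hx hx'

/-- Naturality of the integral. -/
theorem intM_nat {U : Set M} {U' : Set M'} (hU : IsOpen U) (hU' : IsOpen U') {φ : M → M'}
    {ψ : M' → M} (hφ : ContinuousOn φ U) (hψ : ContinuousOn ψ U') (h1 : MapsTo φ U U')
    (h2 : MapsTo ψ U' U) (h3 : LeftInvOn ψ φ U) (h4 : RightInvOn ψ φ U')
    (hol : ∀ y ∈ U, ∀ (e : Chart 4 M) (e' : Chart 4 M'), At e y → At e' (φ y) →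
      AnalyticAt ℂ (fun z => e' (φ (e.symm z))) (e y)) {A : Fm 8 M} {A' : Fm 8 M'}
    (hd : DCont M (fun (e : OpenPartialHomeomorph M (Cm 4)) z =>
      cf stdB e (show Form (Cm 4) ℝ 8 M from A) z))
    (hd' : DCont M' (fun (e : OpenPartialHomeomorph M' (Cm 4)) z =>
      cf stdB e (show Form (Cm 4) ℝ 8 M' from A') z))
    {C : Set M} (hC : IsCompact C) (hAC : ∀ y ∉ C, ZRel (A y)) {C' : Set M'} (hC' : IsCompact C')
    (hAC' : ∀ y ∉ C', ZRel (A' y)) (hAU : ∀ y ∈ U, PbRel φ A A' y)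
    (hn : (∀ y ∉ U, ZRel (A y)) ∨ Null M Uᶜ) (hn' : (∀ y ∉ U', ZRel (A' y)) ∨ Null M' U'ᶜ) :
    intM M A = intM M' A' := by
  let _ : MeasurableSpace M := borel M
  have : BorelSpace M := ⟨rfl⟩
  let _ : MeasurableSpace M' := borel M'
  have : BorelSpace M' := ⟨rfl⟩
  obtain ⟨P, hP⟩ := intM_eq M
  obtain ⟨P', hP'⟩ := intM_eq M'
  rw [hP, hP', intForm, intForm, Pou.integ, Pou.integ]
  set c : OpenPartialHomeomorph M (Cm 4) → Cm 4 → ℝ := fun e z =>
    cf stdB e (show Form (Cm 4) ℝ 8 M from A) z with hc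
  set c' : OpenPartialHomeomorph M' (Cm 4) → Cm 4 → ℝ := fun e z =>
    cf stdB e (show Form (Cm 4) ℝ 8 M' from A') z with hc'
  have hcd : IsDens M c := isDens_cf stdB _
  have hcd' : IsDens M' c' := isDens_cf stdB _
  obtain ⟨i1, e1⟩ := int_restrict P hd hC hAC hU hn
  obtain ⟨i1', e1'⟩ := int_restrict P' hd' hC' hAC' hU' hn'
  refine e1.trans (Eq.trans ?_ e1'.symm)
  refine nat_dens volume P P' hcd hcd' i1 i1' hU hU' hφ hψ h1 h2 h3 h4 ?_
  intro y hy e he e' he' hye hye'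
  have hsm : SmM (Cm 4) φ y := smM_of hU hφ hol hy
  have han := hol y hy e e' ⟨he, hye⟩ ⟨he', hye'⟩
  refine ⟨han.differentiableAt.restrictScalars ℝ, ?_⟩
  have hdet : 0 ≤ (fderiv ℝ (fun z => e' (φ (e.symm z))) (e y)).det := by
    have h5 : fderiv ℝ (fun z => e' (φ (e.symm z))) (e y) =
        (fderiv ℂ (fun z => e' (φ (e.symm z))) (e y)).restrictScalars ℝ :=
      han.differentiableAt.fderiv_restrictScalars ℝ
    rw [h5, det_real]
    exact Complex.normSq_nonneg _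
  rw [abs_of_nonneg hdet, hc, hc']
  simp only
  rw [cf_eq e he _ (e.map_source hye), cf_eq e' he' _ (e'.map_source hye')]
  have h6 : A y = pb φ A' y := hAU y hy
  have h5 : loc e A (e y) = loc e (pb φ A') (e y) := by
    rw [loc, loc, e.left_inv hye, h6]
  rw [h5, loc_pb he he' _ hsm hye hye', top_comp]

/-- Naturality of the pairing. -/
theorem pr_nat {U : Set M} {U' : Set M'} (hU : IsOpen U) (hU' : IsOpen U') {φ : M → M'}
    {ψ : M' → M} (hφ : ContinuousOn φ U) (hψ : ContinuousOn ψ U') (h1 : MapsTo φ U U')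
    (h2 : MapsTo ψ U' U) (h3 : LeftInvOn ψ φ U) (h4 : RightInvOn ψ φ U')
    (hol : ∀ y ∈ U, ∀ (e : Chart 4 M) (e' : Chart 4 M'), At e y → At e' (φ y) →
      AnalyticAt ℂ (fun z => e' (φ (e.symm z))) (e y)) {a b : Fm 4 M} {a' b' : Fm 4 M'}
    (ha : ∀ y, SmAt a y) (hb : ∀ y, SmAt b y) (ha' : ∀ y, SmAt a' y) (hb' : ∀ y, SmAt b' y)
    {C : Set M} (hC : IsCompact C) (hbC : ∀ y ∉ C, b y = 0) {C' : Set M'} (hC' : IsCompact C')
    (hbC' : ∀ y ∉ C', b' y = 0) (haU : ∀ y ∈ U, a y = pb φ a' y) (hbU : ∀ y ∈ U, b y = pb φ b' y)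
    (hn : (∀ y ∉ U, b y = 0) ∨ Null M Uᶜ) (hn' : (∀ y ∉ U', b' y = 0) ∨ Null M' U'ᶜ) :
    pr M a b = pr M' a' b' := by
  rw [pr, pr]
  exact intM_nat hU hU' hφ hψ h1 h2 h3 h4 hol (dcont_wdg ha hb) (dcont_wdg ha' hb') hC
    (fun y hy => wdg_zRel (a y) (hbC y hy)) hC' (fun y hy => wdg_zRel (a' y) (hbC' y hy))
    (fun y hy => wdg_pbRel (haU y hy) (hbU y hy))
    (hn.imp_left fun h y hy => wdg_zRel (a y) (h y hy))
    (hn'.imp_left fun h y hy => wdg_zRel (a' y) (h y hy))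

end pairing

end Vale.Agent.P277.H19
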