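import Vale.Agent.P277.H19.Top
import Vale.Agent.P277.H285.E3
import Vale.Agent.P277.H619.Rinf
import Mathlib.MeasureTheory.Measure.Haar.Unique

/-!
# P277, package XF: transfer of the rank of the pairing
-/

set_option maxSynthPendingDepth 3

open scoped Manifold ContDiff Topology
open Vale.Agent.P272.K Vale.Agent.P285.H281.FD Vale.Agent.P267.H175 Set Filter MeasureTheory
open Vale.Agent.P267.H928.Int ContinuousAlternatingMap

noncomputable section

namespace Vale.Agent.P277.H19

variable {M : Type} [TopologicalSpace M] [T2Space M] [SecondCountableTopology M]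
  [ChartedSpace (Cm 4) M] [IsManifold 𝓘(ℂ, Cm 4) ω M]
variable {M' : Type} [TopologicalSpace M'] [T2Space M'] [SecondCountableTopology M']
  [ChartedSpace (Cm 4) M'] [IsManifold 𝓘(ℂ, Cm 4) ω M']

open scoped Classical in
/-- The pullback of a form on an open set, extended by zero. -/
def pz {k : ℕ} (V : Set M) (F : M → M') (a : Fm k M') : Fm k M :=
  fun x => if x ∈ V then pb F a x else 0

omit [SecondCountableTopology M] [T2Space M'] [SecondCountableTopology M'] in
theorem ccf_pz {k : ℕ} {V : Set M} (hV : IsOpen V) {F : M → M'} (hF : ∀ x ∈ V, SmM (Cm 4) F x)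
    {a : Fm k M'} (hs : ∀ y, SmAt a y) (hc : ∀ y, dF a y = 0) {K : Set M} (hK : IsCompact K)
    (hKV : K ⊆ V) (h0 : ∀ x ∈ V, x ∉ K → a (F x) = 0) : CCF V (pz V F a) := by
  classical
  have hz : ∀ x ∉ K, pz V F a x = 0 := by
    intro x hx
    by_cases hxV : x ∈ V
    · simp only [pz, if_pos hxV, pb, h0 x hxV hx]
      rfl
    · simp only [pz, if_neg hxV]
  have hev : ∀ x ∈ V, pz V F a =ᶠ[𝓝 x] pb F a := by
    intro x hx
    filter_upwards [hV.mem_nhds hx] with y hy
    simp only [pz, if_pos hy]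
  have hev0 : ∀ x ∉ K, pz V F a =ᶠ[𝓝 x] 0 := by
    intro x hx
    filter_upwards [hK.isClosed.isOpen_compl.mem_nhds hx] with y hy
    exact hz y hy
  have hFe : ∀ x ∈ V, ∀ᶠ y in 𝓝 x, SmM (Cm 4) F y := fun x hx => by
    filter_upwards [hV.mem_nhds hx] with y hy using hF y hy
  refine ⟨fun x => ?_, fun x => ?_, K, hKV, hK, hz⟩
  · by_cases hx : x ∈ V
    · exact (smAt_pb (hFe x hx) (hs _)).congr (hev x hx)
    · exact (smAt_zero x).congr (hev0 x fun h => hx (hKV h))
  · by_cases hx : x ∈ V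
    · rw [dF_congr (hev x hx), dF_pb (hFe x hx) (hs _), pb, hc]
      rfl
    · rw [dF_congr (hev0 x fun h => hx (hKV h))]
      have h1 := dF_smul (0 : ℝ) (0 : Fm k M) x
      simpa using h1

omit [SecondCountableTopology M] [T2Space M'] [SecondCountableTopology M'] [T2Space M]
  [IsManifold 𝓘(ℂ, Cm 4) ω M] [IsManifold 𝓘(ℂ, Cm 4) ω M'] in
theorem pb_congr_at {k : ℕ} {F : M → M'} {a b : Fm k M'} {x : M} (h : a (F x) = b (F x)) :
    pb F a x = pb F b x := by
  rw [pb, pb, h]

/-- **Transfer of the rank by biholomorphic maps of open subsets.** -/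
theorem stXfer : StXfer := by
  intro M _ _ _ _ _ M' _ _ _ _ _ U U' φ ψ hU hU' hφ hψ h1 h2 h3 h4 hol hol' ρ hρ n a b ha hb
  have hsφ : ∀ y ∈ U, SmM (Cm 4) φ y := fun y hy => smM_of hU hφ hol hy
  have hsψ : ∀ y ∈ U', SmM (Cm 4) ψ y := fun y hy =>
    smM_of hU' hψ (fun y hy e e' he he' => hol' y hy e' e he' he) hy
  have hccf : ∀ a : Fm 4 M, CCF U a → CCF U' (pz U' ψ a) := by
    intro a ha
    obtain ⟨C, hCU, hC, hC0⟩ := ha.cpt
    refine ccf_pz hU' hsψ ha.sm ha.closed (hC.image_of_continuousOn (hφ.mono hCU)) ?_ ?_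
    · rintro _ ⟨y, hy, rfl⟩
      exact h1 (hCU hy)
    · intro x hx hxK
      exact hC0 _ fun h => hxK ⟨ψ x, h, h4 hx⟩
  have hpr : ∀ a b : Fm 4 M, CCF U a → CCF U b → pr M a b = pr M' (pz U' ψ a) (pz U' ψ b) := by
    intro a b ha hb
    have hback : ∀ a : Fm 4 M, ∀ y ∈ U, a y = pb φ (pz U' ψ a) y := by
      intro a y hy
      have h5 : pb φ (pz U' ψ a) y = pb φ (pb ψ a) y := by
        refine pb_congr_at ?_
        simp only [pz, if_pos (h1 hy)]
      rw [h5, pb_pb (hsφ y hy) (hsψ _ (h1 hy))]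
      filter_upwards [hU.mem_nhds hy] with z hz using h3 hz
    obtain ⟨C, hCU, hC, hC0⟩ := hb.cpt
    obtain ⟨C', hCU', hC', hC0'⟩ := (hccf b hb).cpt
    exact pr_nat hU hU' hφ hψ h1 h2 h3 h4 hol ha.sm hb.sm (hccf a ha).sm (hccf b hb).sm hC hC0
      hC' hC0' (hback a) (hback b) (Or.inl fun y hy => hC0 y fun h => hy (hCU h))
      (Or.inl fun y hy => hC0' y fun h => hy (hCU' h))
  have h5 := hρ n (fun i => pz U' ψ (a i)) (fun i => pz U' ψ (b i)) (fun i => hccf _ (ha i))
    fun i => hccf _ (hb i)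
  have h6 : (Matrix.of fun i j => pr M (a i) (b j)) =
      Matrix.of fun i j => pr M' (pz U' ψ (a i)) (pz U' ψ (b j)) := by
    ext i j
    exact hpr _ _ (ha i) (hb j)
  rw [h6]
  exact h5

theorem pr_null (hM : Null M univ) (a b : Fm 4 M) : pr M a b = 0 := by
  let _ : MeasurableSpace M := borel M
  have : BorelSpace M := ⟨rfl⟩
  obtain ⟨P, hP⟩ := intM_eq M
  rw [pr, hP, intForm, Pou.integ]
  have h1 : P.meas volume = 0 := by
    rw [← Measure.measure_univ_eq_zero]
    exact hM.meas P MeasurableSet.univ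
  rw [h1, integral_zero_measure]

theorem rank_null (hM : Null M univ) (ρ : ℕ) : RankOn M univ ρ := by
  intro n a b _ _
  have h1 : (Matrix.of fun i j => pr M (a i) (b j)) = 0 := by
    ext i j
    exact pr_null hM _ _
  rw [h1, Matrix.rank_zero]
  exact Nat.zero_le _

theorem finrank_Cm4 : Module.finrank ℝ (Cm 4) = 8 := by
  have h1 : Module.finrank ℝ (Cm 4) = ∑ _i : Fin 4, Module.finrank ℝ ℂ :=
    Module.finrank_pi_fintype ℝ
  rw [h1]
  simp [Complex.finrank_real_complex]

theorem volume_zero_of_hausdorff {S : Set (Cm 4)}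
    (h : MeasureTheory.Measure.hausdorffMeasure ((8 : ℕ) : ℝ) S = 0) : volume S = 0 := by
  have h1 : Measure.IsAddHaarMeasure (G := Cm 4)
      (MeasureTheory.Measure.hausdorffMeasure (X := Cm 4) ((8 : ℕ) : ℝ)) := by
    have := MeasureTheory.isAddHaarMeasure_hausdorffMeasure (E := Cm 4)
    rw [finrank_Cm4] at this
    exact this
  exact Measure.absolutelyContinuous_isAddHaarMeasure volume _ h

theorem null_of_dimLe {X : CSp} {S : Set X.pt} (h : DimLe X 2 S) :
    Null (RegT X) (RegT.val ⁻¹' S) := fun e he =>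
  volume_zero_of_hausdorff (H619.negl_of_dimLe h (by norm_num : 2 * 2 < 8) e he)

/-- **The regular locus and a resolution.** -/
theorem stRkRes : StRkRes := by
  classical
  intro W _ _ _ _ _ _ X p O hres ρ hρ
  by_cases hW : Nonempty W
  swap
  · refine rank_null ?_ ρ
    have h1 : O = ∅ := by
      ext w; exact (hW ⟨w⟩).elim
    have h2 := null_of_dimLe hres.dim
    rw [h1] at h2
    simpa using h2
  by_cases hR : Nonempty (RegT X)
  swap
  · refine rank_null (fun e he => ?_) ρ
    have : e '' (univ ∩ e.source) = ∅ := by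
      rw [image_eq_empty]
      ext x
      exact (hR ⟨x⟩).elim
    rw [this]; exact measure_empty
  obtain ⟨w0⟩ := hW
  obtain ⟨y0⟩ := hR
  have hv := RegT.isOpenEmb_val X
  have hO := hres.emb
  set V : Set W := {w | IsReg 4 X (p w)} with hV
  have hVo : IsOpen V := (RegT.isOpen_reg X).preimage hres.cont
  let F : W → RegT X := fun w => if h : IsReg 4 X (p w) then ⟨p w, h⟩ else y0
  have hF : ∀ w ∈ V, (F w).val = p w := by
    intro w hw
    have h1 : F w = ⟨p w, hw⟩ := dif_pos hw
    rw [h1]; rfl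
  have hFc : ContinuousOn F V := by
    rw [RegT.isOpenEmbedding_val.isInducing.continuousOn_iff]
    exact hres.cont.continuousOn.congr fun w hw => hF w hw
  have hFh : ∀ w ∈ V, ∀ (e : Chart 4 W) (e' : Chart 4 (RegT X)), At e w → At e' (F w) →
      AnalyticAt ℂ (fun z => e' (F (e.symm z))) (e w) := by
    intro w hw e e' he he'
    rw [analyticAt_pi_iff]
    intro a
    have h3 : X.Hol (fun x => e' (hv.inv (F w) x) a) (F w).val :=
      hv.hol_chart (F w) (mem_univ _) he' a
    rw [hF w hw] at h3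
    have h4 := hres.holo w e he _ h3
    refine h4.congr ?_
    filter_upwards [ev_symm he.2 (hVo.mem_nhds hw)] with z hz
    show e' (hv.inv (F w) (p (e.symm z))) a = _
    rw [← hF _ hz, hv.inv_apply _ (mem_univ _)]
  have hFs : ∀ w ∈ V, SmM (Cm 4) F w := fun w hw => smM_of hVo hFc hFh hw
  have hOV : O ⊆ V := fun w hw => hO.isReg hw
  set U' : Set (RegT X) := RegT.val ⁻¹' (p '' O) with hU'
  have hU'o : IsOpen U' := hO.isOpen_image.preimage RegT.continuous_val
  let ψ : RegT X → W := fun x => hO.inv w0 x.val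
  have hψc : ContinuousOn ψ U' := by
    intro x hx
    obtain ⟨w, hw, hwx⟩ := hx
    have h1 : ContinuousAt (hO.inv w0) x.val := by
      rw [← hwx]; exact hO.inv_continuousAt w0 hw
    exact (ContinuousAt.comp (f := RegT.val) h1
      RegT.continuous_val.continuousAt).continuousWithinAt
  have h1 : MapsTo F O U' := fun w hw => by
    show (F w).val ∈ p '' O
    rw [hF w (hOV hw)]; exact ⟨w, hw, rfl⟩
  have h2 : MapsTo ψ U' O := fun x hx => hO.inv_mem w0 hx
  have h3 : LeftInvOn ψ F O := fun w hw => by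
    show hO.inv w0 (F w).val = w
    rw [hF w (hOV hw), hO.inv_apply w0 hw]
  have h4 : RightInvOn ψ F U' := fun x hx => by
    refine RegT.val_injective ?_
    rw [hF _ (hOV (h2 hx))]
    exact hO.apply_inv w0 hx
  have hnull : Null W Oᶜ := by
    intro e he
    have h5 := hres.null e he
    have h6 : Oᶜ ∩ e.source = e.source \ O := by ext w; simp [and_comm]
    rw [h6]; exact h5
  have hnull' : Null (RegT X) U'ᶜ := by
    have := null_of_dimLe hres.dim
    exact this
  intro n a b ha hb
  have hccf : ∀ a : Fm 4 (RegT X), CCF univ a → CCF V (pz V F a) := by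
    intro a ha
    obtain ⟨C, -, hC, hC0⟩ := ha.cpt
    have hcl : IsClosed (RegT.val '' C) := (hC.image RegT.continuous_val).isClosed
    refine ccf_pz hVo hFs ha.sm ha.closed (K := p ⁻¹' (RegT.val '' C))
      (hcl.preimage hres.cont).isCompact ?_ ?_
    · rintro w ⟨y, -, hy⟩
      show IsReg 4 X (p w)
      rw [← hy]
      exact y.2
    · intro w hw hwK
      refine hC0 _ fun h => hwK ⟨F w, h, hF w hw⟩
  have hpr : ∀ a b : Fm 4 (RegT X), CCF univ a → CCF univ b →
      pr (RegT X) a b = pr W (pz V F a) (pz V F b) := by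
    intro a b ha hb
    have hback : ∀ a : Fm 4 (RegT X), ∀ w ∈ O, pz V F a w = pb F a w := by
      intro a w hw
      simp only [pz, if_pos (hOV hw)]
    obtain ⟨C, -, hC, hC0⟩ := hb.cpt
    obtain ⟨C', -, hC', hC0'⟩ := (hccf b hb).cpt
    exact (pr_nat hO.isOpen hU'o (hFc.mono hOV) hψc h1 h2 h3 h4 (fun w hw => hFh w (hOV hw))
      (hccf a ha).sm (hccf b hb).sm ha.sm hb.sm hC' hC0' hC hC0 (hback a) (hback b)
      (Or.inr hnull) (Or.inr hnull')).symm
  have h5 := hρ n (fun i => pz V F (a i)) (fun i => pz V F (b i))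
    (fun i => ⟨(hccf _ (ha i)).sm, (hccf _ (ha i)).closed,
      (hccf _ (ha i)).cpt.imp fun _ h => ⟨subset_univ _, h.2⟩⟩)
    fun i => ⟨(hccf _ (hb i)).sm, (hccf _ (hb i)).closed,
      (hccf _ (hb i)).cpt.imp fun _ h => ⟨subset_univ _, h.2⟩⟩
  have h6 : (Matrix.of fun i j => pr (RegT X) (a i) (b j)) =
      Matrix.of fun i j => pr W (pz V F (a i)) (pz V F (b j)) := by
    ext i j
    exact hpr _ _ (ha i) (hb j)
  rw [h6]
  exact h5

/-- **Compact manifolds.** -/
theorem stRkCpt (hP : StPair) : StRkCpt := by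
  intro M _ _ _ _ _ _
  have hM : PairProps M := hP M
  obtain ⟨N, α, hα, hspan⟩ := stE (Cm 4) M 3
  refine ⟨N, fun n a b ha hb => ?_⟩
  choose t β hβ hdec using fun i => hspan (a i) fun y => ⟨(ha i).sm y, (ha i).closed y⟩
  have hsum : ∀ (i : Fin n) (s : Finset (Fin N)) (y : M), SmAt (∑ l ∈ s, t i l • α l) y := by
    intro i s y
    induction s using Finset.induction_on with
    | empty => simpa using smAt_zero (k := 4) y
    | insert l s hl ih =>
      rw [Finset.sum_insert hl]
      exact ((hα l y).1.smul _).add ih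
  have h1 : ∀ i j, pr M (a i) (b j) = ∑ l, t i l * pr M (α l) (b j) := by
    intro i j
    have h2 : a i = (∑ l, t i l • α l) + dF (β i) := by
      funext y
      rw [hdec i y, Pi.add_apply, Finset.sum_apply]
      rfl
    have h3 : pr M (dF (β i)) (b j) = 0 :=
      hM.stokes (β i) (b j) univ isCompact_univ (hβ i) (fun y => ⟨(hb j).sm y, (hb j).closed y⟩)
        (Or.inl fun y hy => (hy (mem_univ y)).elim)
    have h4 : ∀ s : Finset (Fin N), pr M (∑ l ∈ s, t i l • α l) (b j) =
        ∑ l ∈ s, t i l * pr M (α l) (b j) := by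
      intro s
      induction s using Finset.induction_on with
      | empty =>
        have h5 := hM.smul 0 (0 : Fm 4 M) (b j)
        simpa using h5
      | insert l s hl ih =>
        rw [Finset.sum_insert hl, Finset.sum_insert hl, hM.add _ _ _ univ isCompact_univ
          (fun y => ⟨(hα l y).1.smul _, hsum i s y, (hb j).sm y⟩)
          (fun y hy => (hy (mem_univ y)).elim), hM.smul, ih]
    rw [h2, hM.add _ _ _ univ isCompact_univ
      (fun y => ⟨hsum i _ y, smAt_dF isOpen_univ (fun x _ => hβ i x) (mem_univ y), (hb j).sm y⟩)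
      (fun y hy => (hy (mem_univ y)).elim), h3, add_zero, h4]
  have h2 : (Matrix.of fun i j => pr M (a i) (b j)) =
      (Matrix.of fun i l => t i l : Matrix (Fin n) (Fin N) ℝ) *
        (Matrix.of fun l j => pr M (α l) (b j) : Matrix (Fin N) (Fin n) ℝ) := by
    ext i j
    simp only [Matrix.mul_apply, Matrix.of_apply]
    exact h1 i j
  rw [h2]
  refine (Matrix.rank_mul_le_left _ _).trans ?_
  exact (Matrix.rank_le_width _)

end Vale.Agent.P277.H19
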